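import Vale.Agent.P167.H760.Q.Tr
import Vale.Agent.P167.H760.EnvD

/-!
# P167, general `q`, block Q-DIR: the geometric hypotheses at the sides of the polygons of the core,
in all frames along the side and for all base sites
-/

namespace Vale.Agent.P167.H760.Q

open Finset Vale.Agent.P167 Vale.Agent.P167.BR Vale.Agent.P167.FK Vale.Agent.P167.FKA
open Vale.Agent.P167.H365 (nm_le' Jn HPot FarA Agr ThrS Cro)
open Vale.Agent.P167.H365.NQ (EnvQ XW TW tt)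
open Vale.Agent.P167.H562.QM (FltQ)
open Vale.Agent.P167.H166 (bxx)
open Vale.Agent.P167.H760

/-- The geometric fields of `EnvQ`. -/
structure GeoQ (K R : ℤ) (D : Finset (ℤ × ℤ)) (p u : ℤ × ℤ) : Prop where
  one_le : 1 ≤ K
  R1 : 1 ≤ R
  dom : ∀ v : ℤ × ℤ, nm (v - u) ≤ 8 * K * R → (v ∈ D ↔ u.2 ≤ v.2)
  gf : ∀ (y : ℤ × ℤ) (s : ℤ), 1 ≤ s → s ≤ 2 * R → ∀ z ∈ sites D, K * s < nm (z - y) →
    K * s < nm (p - y) → Jn D (fun e => s < nm (hdv e - y)) z p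
  hp : 8 * K * R < nm (p - u)
  pot : HPot D

/-- The other fields of `EnvQ`. -/
theorem GeoQ.env {K R : ℤ} {D : Finset (ℤ × ℤ)} {p u : ℤ × ℤ} (G : GeoQ K R D p u) {Q : ℝ}
    {t : Fin 3 → ℝ} {η : Cfg} {w w' : Finset Ed → ℝ} {M : ℝ} (hη : Good η)
    (hout : ∀ v : ℤ × ℤ, nm (v - u) ≤ 8 * K * R → v.2 < u.2 → η v = false)
    (near : ∀ ω : Cfg, ∀ A ∈ pcs ω D, ¬ FarA D u (2 * R) A → w A = 1 ∧ w' A = tt t D p A)
    (cro : ∀ (y : ℤ × ℤ) (a m : ℤ), nm (y - u) ≤ R → y.2 = u.2 → a ≤ m → m ≤ R → ∀ ω ω' : Cfg,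
      Agr D y a ω ω' → ¬ ThrS y a m ω → ∀ c, Cro ω y a m c →
        w (piece ω D c) = w (piece ω' D c) ∧ w' (piece ω D c) = w' (piece ω' D c))
    (hY : ∃ Y : Cfg → ℝ, Ind (bxx u R) Y ∧ (∀ ω, |XW D w ω| ≤ Y ω) ∧
      (∀ ω, ∀ A ∈ pcs ω D, H365.VisI D u (2 * R) A → |TW D w w' ω A| ≤ Y ω) ∧
      Ex Q D η Y ≤ M) :
    EnvQ Q t K R D η p w w' M u :=
  ⟨G.one_le, G.R1, hη, ⟨G.dom, fun v h1 h2 => by rw [hout v h1 h2, ite_self]⟩, G.gf, G.hp, G.pot,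
    near, cro, hY⟩

/-- The frame with the origin at distance `j` of the end of the side `(w, r)`. -/
def fj (n : ℕ) (w : ℤ × ℤ) (r : Fin 4) (j : ℤ) : Tr := Tr.fr ((n : ℤ) • w + j • E6.dir r) r

theorem fj_S (n : ℕ) (w : ℤ × ℤ) (r : Fin 4) (j x y : ℤ) :
    (fj n w r j).S (x, y) = (n : ℤ) • w + (x + j) • E6.dir r + y • E6.dir (r + 1) := by
  unfold fj
  rw [Tr.fr_S, add_smul]
  dsimp only
  abel

/-- Two frames of the same side. -/
theorem fj_shift (n : ℕ) (w : ℤ × ℤ) (r : Fin 4) (i j x y : ℤ) :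
    (fj n w r (i + j)).S (x, y) = (fj n w r i).S (x + j, y) := by
  rw [fj_S, fj_S]
  congr 3
  ring

theorem fj_Q (n : ℕ) (w : ℤ × ℤ) (r : Fin 4) (j x y : ℤ) :
    (fj n w r j).Q (x, y) = (Tr.fr ((n : ℤ) • w) r).Q (x + j, y) := by
  unfold fj
  rw [Tr.fr_Q, Tr.fr_Q]
  congr 1
  rw [Tr.fr_S, Tr.fr_S, add_smul]
  dsimp only
  abel

theorem mem_pre_fj {D : Finset (ℤ × ℤ)} {n : ℕ} {w : ℤ × ℤ} {r : Fin 4} {j x y : ℤ} :
    (x, y) ∈ (fj n w r j).pre D ↔ (x + j, y) ∈ (Tr.fr ((n : ℤ) • w) r).pre D := by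
  rw [Tr.mem_pre, Tr.mem_pre, fj_Q]

/-- Shift of the domain in the frame: `D + (j, 0)` in the frame `i` is `D` in the frame `i - j`. -/
theorem pre_fj_sub {D : Finset (ℤ × ℤ)} {n : ℕ} {w : ℤ × ℤ} {r : Fin 4} {i j : ℤ} :
    (fj n w r (i - j)).pre D = ((fj n w r i).pre D).image (· + ((j, 0) : ℤ × ℤ)) := by
  ext ⟨x, y⟩
  rw [mem_pre_fj, Finset.mem_image]
  constructor
  · intro h
    refine ⟨(x - j, y), mem_pre_fj.2 ?_, by simp⟩
    rwa [show x - j + i = x + (i - j) by ring]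
  · rintro ⟨⟨x', y'⟩, h, he⟩
    rw [mem_pre_fj] at h
    simp only [Prod.mk_add_mk, add_zero, Prod.mk.injEq] at he
    obtain ⟨rfl, rfl⟩ := he
    rwa [show x' + j + (i - j) = x' + i by ring]

/-- **The geometric fields at the sides of the polygons.** -/
theorem geo_fj (S : CA.Dat) {n : ℕ} {w : ℤ × ℤ} {r : Fin 4} {j x R : ℤ} {p : ℤ × ℤ}
    (h1 : E6.face w r ∈ S.Q) (h2 : E6.face w (r - 1) ∉ S.Q) (hR : 1 ≤ R)
    (hx1 : 64 * R < x + j) (hx2 : x + j + 64 * R < n) (hp : p ∈ sites (S.D n))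
    (hpx : 64 * R < nm (p - (fj n w r j).S (x, 0))) :
    GeoQ 8 R ((fj n w r j).pre (S.D n)) ((fj n w r j).S.symm p) (x, 0) := by
  set T := fj n w r j with hT
  have hn : 0 < n := by omega
  have h64 : (8 : ℤ) * 8 * R = 64 * R := by ring
  have hfl := fl_fr (Q := S.Q) (n := n) h1 h2 (x := x + j) (m := 64 * R) (by omega) (by omega)
  refine ⟨by norm_num, hR, ?_, ?_, ?_, T.hpot_pre (hpot_dat S hn)⟩
  · rintro ⟨v1, v2⟩ hv
    rw [h64] at hv
    rw [hT, mem_pre_fj]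
    have h3 := hfl (v1 + j, v2) (by
      rw [nm_le'] at hv ⊢
      simp only [Prod.fst_sub, Prod.snd_sub] at hv ⊢
      omega)
    exact h3
  · intro y s hs hsR z hz hz1 hz2
    have hG' := H436.geo_dat S (n := n) (m := 2 * R + 2) (by omega) (by omega)
    have h3 := hG'.far (T.S y) (s + 2) (by omega) (by omega) (T.S z)
      (by rw [← T.sites_T, T.im_pre] at hz; exact hz) p hp
      (by rw [T.dS]; omega)
      (by
        have : p = T.S (T.S.symm p) := (Equiv.apply_symm_apply _ _).symm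
        rw [this, T.dS]; omega)
    refine T.jn_pre (P := fun e => s + 2 < nm (hdv e - T.S y)) (fun e he => ?_)
      (by rw [Equiv.apply_symm_apply]; exact h3)
    have h4 := H365.nm_hdv_tlv y e
    have h5 : nm (hdv (T.E e) - T.S y) ≤ nm ((if T.o then tlv e else hdv e) - y) + 1 := by
      rw [T.hd]
      exact Tr.fr_dQ _ r _ _
    split_ifs at h5 <;> omega
  · rw [h64, ← T.dS, Equiv.apply_symm_apply]
    exact hpx

/-- The complement in the frame is connected. -/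
theorem coConn_fj (S : CA.Dat) {n : ℕ} (hn : 0 < n) (w : ℤ × ℤ) (r : Fin 4) (j : ℤ) :
    H318.CoConn ((fj n w r j).pre (S.D n)) :=
  Tr.fr_coConn _ r (coConn_dat S hn)

/-- The parity of a frame. -/
theorem fj_o (n : ℕ) (w : ℤ × ℤ) (r : Fin 4) (j : ℤ) :
    (fj n w r j).o = !decide (Even ((n : ℤ) * (w.1 + w.2) + j)) := by
  have h : ∀ a : ℤ × ℤ, (Tr.fr a r).o = !decide (Even (a.1 + a.2)) := by
    intro a
    fin_cases r <;> simp [Tr.fr, Tr.rp, Tr.comp, Tr.one, Tr.rot, Tr.tr]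
  unfold fj
  rw [h]
  congr 1
  rw [decide_eq_decide]
  have e : ((n : ℤ) • w + j • E6.dir r).1 + ((n : ℤ) • w + j • E6.dir r).2 =
      (n : ℤ) * (w.1 + w.2) + j * ((E6.dir r).1 + (E6.dir r).2) := by
    simp only [Prod.fst_add, Prod.snd_add, Prod.smul_fst, Prod.smul_snd, smul_eq_mul]
    ring
  rw [e, Int.even_add, Int.even_add (m := (n : ℤ) * (w.1 + w.2)) (n := j)]
  have : Even (j * ((E6.dir r).1 + (E6.dir r).2)) ↔ Even j := by
    rw [Int.even_mul]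
    fin_cases r <;> simp [E6.dir]
  rw [this]

end Vale.Agent.P167.H760.Q
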