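import Vale.Agent.P167.H760.Q.Two
import Vale.Agent.P167.H760.Q.Geo
import Vale.Agent.P167.H760.Dir
import Vale.Agent.P167.CAQ.TwoFin

/-!
# P167, general `q`, block Q-DIR: the Neumann condition of the families from `NREDQ`

`TwoIn` is the local input (the functional and its parity image near every flat part of the side);
it is required for `H_n(f; .)` and for `H_n(0; .)`.
-/

namespace Vale.Agent.P167.H760.Q

open Finset Filter Topology Vale.Agent.P167 Vale.Agent.P167.BR Vale.Agent.P167.FK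
open Vale.Agent.P167.H365.NQ (NREDQ)
open Vale.Agent.P167.H760 (Num sum_range_Icc exists_margin)
open scoped ContDiff

/-- The flux of a function of the sites through the side `(w, r)`, at height `k`. -/
def flx (n : ℕ) (w : ℤ × ℤ) (r : Fin 4) (k : ℕ) (H : ℤ × ℤ → ℝ) (x : ℤ) : ℝ :=
  H ((n : ℤ) • w + x • E6.dir r + (k : ℤ) • E6.dir (r + 1)) - H ((n : ℤ) • w + x • E6.dir r)

/-- In a frame. -/
theorem flx_fj (n : ℕ) (w : ℤ × ℤ) (r : Fin 4) (k : ℕ) (H : ℤ × ℤ → ℝ) (x j : ℤ) :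
    flx n w r k H (x + j) = H ((fj n w r j).S (x, k)) - H ((fj n w r j).S (x, 0)) := by
  unfold flx
  rw [fj_S, fj_S, zero_smul, add_zero]

/-- **The local input**: on the part `(α, β)` of the side `(w, r)`, at distance `δ` of its end
points, the flux of `H n` is the flux of a functional which has a parity image. -/
def TwoIn (Q : ℝ) (L : Filter ℕ) (w : ℤ × ℤ) (r : Fin 4) (α β : ℝ) (H : ℕ → ℤ × ℤ → ℝ) : Prop :=
  ∃ t : Fin 3 → ℝ, ∀ δ : ℝ, 0 < δ → ∃ c C : ℝ, 0 < c ∧ 0 < C ∧ ∀ᶠ n : ℕ in L,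
    ∀ (R : ℤ) (k : ℕ),
    1 ≤ R → (R : ℝ) ≤ c * n → (k : ℝ) ≤ R → ∀ a b : ℤ, a ≤ b → (α + δ) * n ≤ a →
    (b : ℝ) ≤ (β - δ) * n → ∃ (j : ℤ) (lam : ℝ), 0 < lam ∧ lam⁻¹ ≤ C ∧
      TwoW Q t 8 R C lam k (fun x => flx n w r k (H n) (x + j)) (a - j) (b - j)

variable {Q : ℝ} {L : Filter ℕ} {w : ℤ × ℤ} {r : Fin 4} {H : ℕ → ℤ × ℤ → ℝ}

theorem sum_add_Icc (a b j : ℤ) (F : ℤ → ℝ) :
    ∑ x ∈ Icc (a - j) (b - j), F (x + j) = ∑ x ∈ Icc a b, F x := by
  have h : Icc a b = (Icc (a - j) (b - j)).map (addRightEmbedding j) := by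
    rw [Finset.map_add_right_Icc, sub_add_cancel, sub_add_cancel]
  rw [h, Finset.sum_map]
  rfl

/-- **A part of a side.** -/
theorem half_flux (hQ : 0 < Q) (hN : ∀ t, NREDQ Q t 8) (hL : L ≤ atTop) {α β δ A : ℝ}
    (hα : 0 ≤ α) (hβ : β ≤ 1) (hH : TwoIn Q L w r α β H) (hδ : 0 < δ) (hδ1 : δ ≤ 1)
    (ψ : ℝ → ℝ) (hA : 1 ≤ A) (hψ1 : ∀ t, |ψ t| ≤ A) (hψ2 : ∀ t t', |ψ t - ψ t'| ≤ A * |t - t'|)
    (hψ3 : ∀ t, ψ t ≠ 0 → α + δ ≤ t ∧ t ≤ β - δ) {ε : ℝ} (hε : 0 < ε) :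
    ∃ r₀ > 0, ∀ h : ℝ, 0 < h → h < r₀ → ∀ᶠ n : ℕ in L,
      |(∑ x ∈ range n, ψ (x / n) * flx n w r ⌊h * n⌋₊ (H n) x) / n| ≤ ε * h := by
  obtain ⟨t, hH⟩ := hH
  obtain ⟨c1, C, hc1, hC, hH⟩ := hH (δ / 2) (by positivity)
  -- the scale
  obtain ⟨c, hcp, hcδ, hcc⟩ : ∃ c : ℝ, 0 < c ∧ c ≤ δ / 512 ∧ c ≤ c1 :=
    ⟨min (δ / 512) c1, by positivity, min_le_left _ _, min_le_right _ _⟩
  have hc1' : c ≤ 1 := by linarith
  obtain ⟨B, hB⟩ : ∃ B : ℝ, B = (C + 1) * (2 / c + 1) := ⟨_, rfl⟩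
  have hBp : 0 < B := by rw [hB]; positivity
  obtain ⟨κ, k0, hκ, hK⟩ := two_le hQ (hN t) C hC.le (ε / (A * B)) (by positivity)
  refine ⟨min (κ * c / 2) (c / 2), by positivity, fun h hh hhr => ?_⟩
  have hhr1 : h < κ * c / 2 := hhr.trans_le (min_le_left _ _)
  have hhr2 : h < c / 2 := hhr.trans_le (min_le_right _ _)
  have hN1 : ∀ᶠ n : ℕ in L, max (2 / c) (max ((k0 + 1) / h) (8 / δ)) ≤ n :=
    (eventually_atTop.2 ⟨⌈max (2 / c) (max ((k0 + 1) / h) (8 / δ))⌉₊,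
      fun n hn => (Nat.le_ceil _).trans (by exact_mod_cast hn)⟩ : ∀ᶠ n : ℕ in atTop, _).filter_mono
      hL
  filter_upwards [hH, hN1] with n hM hn1
  rw [max_le_iff, max_le_iff] at hn1
  obtain ⟨n1, n2, n3⟩ := hn1
  have hnp : (0 : ℝ) < n := lt_of_lt_of_le (by positivity) n1
  have hn0 : 0 < n := by exact_mod_cast hnp
  rw [div_le_iff₀ hcp] at n1
  rw [div_le_iff₀ hh] at n2
  rw [div_le_iff₀ hδ] at n3
  obtain ⟨k, hk⟩ : ∃ k, k = ⌊h * n⌋₊ := ⟨_, rfl⟩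
  obtain ⟨R, hR⟩ : ∃ R : ℤ, R = ⌊c * n⌋ := ⟨_, rfl⟩
  obtain ⟨a, ha⟩ : ∃ a : ℤ, a = ⌈(α + δ / 2) * n⌉ := ⟨_, rfl⟩
  obtain ⟨b, hb⟩ : ∃ b : ℤ, b = ⌊(β - δ / 2) * n⌋ := ⟨_, rfl⟩
  have hR1 : (R : ℝ) ≤ c * n := by rw [hR]; exact Int.floor_le _
  have hR2 : c * n < R + 1 := by rw [hR]; exact Int.lt_floor_add_one _
  have hRp : 1 ≤ R := by
    rw [hR, Int.le_floor]
    push_cast
    linarith
  have hRp' : (1 : ℝ) ≤ R := by exact_mod_cast hRp
  have a1 : (α + δ / 2) * n ≤ a := by rw [ha]; exact Int.le_ceil _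
  have a2 : (a : ℝ) < (α + δ / 2) * n + 1 := by rw [ha]; exact Int.ceil_lt_add_one _
  have b1 : (b : ℝ) ≤ (β - δ / 2) * n := by rw [hb]; exact Int.floor_le _
  have b2 : (β - δ / 2) * n < b + 1 := by rw [hb]; exact Int.lt_floor_add_one _
  have hcδn : c * n ≤ δ / 512 * n := mul_le_mul_of_nonneg_right hcδ hnp.le
  have hsupp : ∀ x : ℤ, (α + δ) * n ≤ x → (x : ℝ) ≤ (β - δ) * n → a + R ≤ x ∧ x ≤ b - R := by
    intro x h1 h2
    constructor
    · have : ((a + R : ℤ) : ℝ) < x + 1 := by push_cast; linarith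
      have : a + R < x + 1 := by exact_mod_cast this
      omega
    · have : (x : ℝ) < ((b - R + 1 : ℤ) : ℝ) := by push_cast; linarith
      have : x < b - R + 1 := by exact_mod_cast this
      omega
  have hαn : 0 ≤ α * n := by positivity
  have hβn : β * n ≤ n := by nlinarith
  have ha0 : 0 < a := by
    have : (0 : ℝ) < ((a : ℤ) : ℝ) := by linarith
    exact_mod_cast this
  have hbn : b < n := by
    have : (b : ℝ) < ((n : ℤ) : ℝ) := by push_cast; linarith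
    exact_mod_cast this
  have hk1 : (k : ℝ) ≤ h * n := by rw [hk]; exact Nat.floor_le (by positivity)
  have hk0 : k0 ≤ k := by
    rw [hk]
    exact Nat.le_floor (by linarith)
  have hcn2 : c * n / 2 ≤ R := by linarith
  have hkR : (k : ℝ) ≤ R := by
    have h3 : h * n ≤ c / 2 * n := mul_le_mul_of_nonneg_right hhr2.le hnp.le
    linarith
  have hkκ : (k : ℝ) ≤ κ * R := by
    have h3 : h * n ≤ κ * c / 2 * n := mul_le_mul_of_nonneg_right hhr1.le hnp.le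
    have h5 : κ * (c * n / 2) ≤ κ * R := mul_le_mul_of_nonneg_left hcn2 hκ.le
    linarith
  have hRn : (R : ℝ) ≤ n := by
    have : c * n ≤ 1 * n := mul_le_mul_of_nonneg_right hc1' hnp.le
    linarith
  -- the sum over the interval
  have hAp : 0 < A := by linarith
  set g : ℤ → ℝ := flx n w r k (H n) with hg
  have hsum : ∑ x ∈ range n, ψ (x / n) * flx n w r k (H n) x =
      ∑ x ∈ Icc a b, ψ (x / n) * g x := by
    have := sum_range_Icc (n := n) (a := a) (b := b) ha0.le hbn (fun x => ψ (x / n) * g x)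
      (fun x hx => by
        obtain ⟨h3, h4⟩ := hψ3 _ (left_ne_zero_of_mul hx)
        rw [le_div_iff₀ hnp] at h3
        rw [div_le_iff₀ hnp] at h4
        have h5 := hsupp x h3 h4
        omega)
    refine (sum_congr rfl fun x _ => ?_).trans this
    rw [Int.cast_natCast]
  rw [← hk, hsum, abs_div, abs_of_pos hnp, div_le_iff₀ hnp]
  rcases lt_or_ge b a with hab | hab
  · rw [Icc_eq_empty (by omega), sum_empty, abs_zero]
    positivity
  obtain ⟨j, lam, hlam, hlamC, hT⟩ := hM R k hRp (hR1.trans (mul_le_mul_of_nonneg_right hcc hnp.le))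
    hkR a b hab a1 b1
  have hfin := hK R k hk0 hkκ C lam _ (a - j) (b - j) hlam hlamC (by omega) hT
    (fun x => ψ (((x + j : ℤ) : ℝ) / n) / A)
    (fun x => by
      rw [abs_div, abs_of_pos hAp, div_le_one hAp]
      exact hψ1 _)
    (fun x x' => by
      rw [← sub_div, abs_div, abs_of_pos hAp, div_le_iff₀ hAp]
      refine (hψ2 _ _).trans ?_
      rw [← sub_div, abs_div, abs_of_pos hnp, mul_comm A]
      refine mul_le_mul_of_nonneg_right ?_ hAp.le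
      have e : ((x + j : ℤ) : ℝ) - ((x' + j : ℤ) : ℝ) = x - x' := by push_cast; ring
      rw [e]
      exact div_le_div_of_nonneg_left (abs_nonneg _) (by linarith) hRn)
    (fun x hx => by
      obtain ⟨h3, h4⟩ := hψ3 _ fun h0 => hx (by rw [h0, zero_div])
      rw [le_div_iff₀ hnp] at h3
      rw [div_le_iff₀ hnp] at h4
      have := hsupp (x + j) h3 h4
      omega)
  rw [sum_add_Icc a b j fun x => ψ ((x : ℝ) / n) / A * g x,
    show b - j - (a - j) = b - a by ring] at hfin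
  have h3 : ((b - a : ℤ) : ℝ) / R + 1 ≤ 2 / c + 1 := by
    have h4 : ((b - a : ℤ) : ℝ) ≤ n := by
      have : b - a ≤ n := by omega
      exact_mod_cast this
    have h5 : ((b - a : ℤ) : ℝ) / R ≤ 2 / c := by
      rw [div_le_div_iff₀ (by linarith) hcp]
      have h6 : ((b - a : ℤ) : ℝ) * c ≤ n * c := mul_le_mul_of_nonneg_right h4 hcp.le
      linarith
    linarith
  have h5 : (0 : ℝ) ≤ ((b - a : ℤ) : ℝ) / R + 1 := by
    have : (0 : ℝ) ≤ ((b - a : ℤ) : ℝ) := by exact_mod_cast (by omega : 0 ≤ b - a)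
    positivity
  have hfac : ∑ x ∈ Icc a b, ψ (x / n) * g x = A * ∑ x ∈ Icc a b, ψ (x / n) / A * g x := by
    rw [mul_sum]
    refine sum_congr rfl fun x _ => ?_
    field_simp
  rw [hfac, abs_mul, abs_of_pos hAp]
  refine (mul_le_mul_of_nonneg_left hfin hAp.le).trans ?_
  have h6 : ε / (A * B) * k * ((C + 1) * (((b - a : ℤ) : ℝ) / R + 1)) ≤
      ε / (A * B) * (h * n) * ((C + 1) * (2 / c + 1)) := by
    gcongr
  refine (mul_le_mul_of_nonneg_left h6 hAp.le).trans (le_of_eq ?_)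
  rw [← hB]
  field_simp

/-- **The averaged Neumann condition of a function.** -/
theorem neuH (hQ : 0 < Q) (hN : ∀ t, NREDQ Q t 8) (hL : L ≤ atTop) {tp : ℝ} (h0 : 0 < tp)
    (h1 : tp < 1) (hH1 : TwoIn Q L w r 0 tp H) (hH2 : TwoIn Q L w r tp 1 H) (φ : ℝ → ℝ)
    (hφ : ContDiff ℝ ∞ φ) (hs : tsupport φ ⊆ Set.Ioo 0 1 \ {tp}) (ε : ℝ) (hε : 0 < ε) :
    ∃ r₀ > 0, ∀ h : ℝ, 0 < h → h < r₀ → ∀ᶠ n : ℕ in L,
      |(∑ x ∈ range n, φ (x / n) * flx n w r ⌊h * n⌋₊ (H n) x) / n| ≤ ε * h := by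
  obtain ⟨δ, A, hδ, hδ1, hA, hφ1, hφ2, hφ3⟩ := exists_margin hφ hs
  -- the two halves
  obtain ⟨φa, hφa⟩ : ∃ φa : ℝ → ℝ, φa = fun t => if t < tp then φ t else 0 := ⟨_, rfl⟩
  obtain ⟨φb, hφb⟩ : ∃ φb : ℝ → ℝ, φb = fun t => if t < tp then 0 else φ t := ⟨_, rfl⟩
  have hz : φ tp = 0 := by
    by_contra h
    have := (hφ3 _ h).2.2
    rw [sub_self, abs_zero] at this
    linarith
  obtain ⟨r1, hr1, H1⟩ := half_flux hQ hN hL le_rfl h1.le hH1
    hδ hδ1 φa hA (fun t => by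
      simp only [hφa]
      split_ifs
      · exact hφ1 t
      · rw [abs_zero]; linarith)
    (fun t t' => by
      have hA0 : 0 ≤ A := by linarith
      simp only [hφa]
      split_ifs with e1 e2 e2
      · exact hφ2 _ _
      · rw [sub_zero]
        have h3 := hφ2 t tp
        rw [hz, sub_zero] at h3
        refine h3.trans (mul_le_mul_of_nonneg_left ?_ hA0)
        rw [abs_of_nonpos (by linarith), abs_of_nonpos (by linarith)]
        linarith
      · rw [zero_sub, abs_neg]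
        have h3 := hφ2 t' tp
        rw [hz, sub_zero] at h3
        refine h3.trans (mul_le_mul_of_nonneg_left ?_ hA0)
        rw [abs_of_nonpos (by linarith), abs_of_nonneg (by linarith)]
        linarith
      · rw [sub_self, abs_zero]; positivity)
    (fun t ht => by
      simp only [hφa] at ht
      split_ifs at ht with e1
      · obtain ⟨h3, h4, h5⟩ := hφ3 t ht
        rw [abs_of_neg (by linarith)] at h5
        exact ⟨by linarith, by linarith⟩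
      · exact absurd rfl ht) (half_pos hε)
  obtain ⟨r2, hr2, H2⟩ := half_flux hQ hN hL h0.le le_rfl hH2
    hδ hδ1 φb hA (fun t => by
      simp only [hφb]
      split_ifs
      · rw [abs_zero]; linarith
      · exact hφ1 t)
    (fun t t' => by
      have hA0 : 0 ≤ A := by linarith
      simp only [hφb]
      split_ifs with e1 e2 e2
      · rw [sub_self, abs_zero]; positivity
      · rw [zero_sub, abs_neg]
        have h3 := hφ2 t' tp
        rw [hz, sub_zero] at h3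
        refine h3.trans (mul_le_mul_of_nonneg_left ?_ hA0)
        rw [abs_of_nonneg (by linarith), abs_of_nonpos (by linarith)]
        linarith
      · rw [sub_zero]
        have h3 := hφ2 t tp
        rw [hz, sub_zero] at h3
        refine h3.trans (mul_le_mul_of_nonneg_left ?_ hA0)
        rw [abs_of_nonneg (by linarith), abs_of_nonneg (by linarith)]
        linarith
      · exact hφ2 _ _)
    (fun t ht => by
      simp only [hφb] at ht
      split_ifs at ht with e1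
      · exact absurd rfl ht
      · obtain ⟨h3, h4, h5⟩ := hφ3 t ht
        rw [abs_of_nonneg (by linarith)] at h5
        exact ⟨by linarith, by linarith⟩) (half_pos hε)
  refine ⟨min r1 r2, lt_min hr1 hr2, fun h hh hhr => ?_⟩
  filter_upwards [H1 h hh (hhr.trans_le (min_le_left _ _)),
    H2 h hh (hhr.trans_le (min_le_right _ _))] with n hn1 hn2
  have hsplit : ∀ G : ℕ → ℝ, (∑ x ∈ range n, φ (x / n) * G x) / n =
      (∑ x ∈ range n, φa (x / n) * G x) / n + (∑ x ∈ range n, φb (x / n) * G x) / n := by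
    intro G
    rw [← add_div, ← sum_add_distrib]
    congr 1
    refine sum_congr rfl fun x _ => ?_
    simp only [hφa, hφb]
    split_ifs <;> ring
  rw [hsplit]
  refine (abs_add_le _ _).trans ?_
  linarith

/-- The local input of a function at all sides. -/
def TwoAll (Q : ℝ) (S : CA.Dat) (L : Filter ℕ) (H : ℕ → ℤ × ℤ → ℝ) : Prop :=
  ∀ (w : ℤ × ℤ) (r : Fin 4), E6.face w r ∈ S.Q → E6.face w (r - 1) ∉ S.Q →
    TwoIn Q L w r 0 S.tp H ∧ TwoIn Q L w r S.tp 1 H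

/-- **(NEU) of a family.** -/
theorem neu_of (hQ : 0 < Q) (hN : ∀ t, NREDQ Q t 8) {S : CA.Dat} (F : CAQ.Fam S)
    (hV : ∀ f, S.FF f → ∃ C : ℝ, ∀ᶠ n : ℕ in F.L, |F.V n f| ≤ C)
    (hT : ∀ f, S.FF f → TwoAll Q S F.L (fun n => F.H n f))
    (hT0 : TwoAll Q S F.L (fun n => F.H n fun _ => 0)) : F.NEU := by
  intro f hf w r h1 h2 φ hφ hs ε hε
  obtain ⟨C, hC⟩ := hV f hf
  obtain ⟨r1, hr1, H1⟩ := neuH hQ hN F.le S.tp0 S.tp1 (hT f hf w r h1 h2).1 (hT f hf w r h1 h2).2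
    φ hφ hs (ε / 2) (by positivity)
  obtain ⟨r2, hr2, H2⟩ := neuH hQ hN F.le S.tp0 S.tp1 (hT0 w r h1 h2).1 (hT0 w r h1 h2).2
    φ hφ hs (ε / (2 * (|C| + 1))) (by positivity)
  refine ⟨min r1 r2, lt_min hr1 hr2, fun h hh hhr => ?_⟩
  filter_upwards [hC, H1 h hh (hhr.trans_le (min_le_left _ _)),
    H2 h hh (hhr.trans_le (min_le_right _ _))] with n hn hn1 hn2
  have e : (∑ x ∈ range n, φ (x / n) *
      (F.W n f ((n : ℤ) • w + (x : ℤ) • E6.dir r + (⌊h * n⌋₊ : ℤ) • E6.dir (r + 1)) -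
        F.W n f ((n : ℤ) • w + (x : ℤ) • E6.dir r))) / n =
      (∑ x ∈ range n, φ (x / n) * flx n w r ⌊h * n⌋₊ (F.H n f) x) / n -
      F.V n f * ((∑ x ∈ range n, φ (x / n) * flx n w r ⌊h * n⌋₊ (F.H n fun _ => 0) x) / n) := by
    rw [mul_div_assoc', mul_sum, ← sub_div, ← sum_sub_distrib]
    congr 1
    refine sum_congr rfl fun x _ => ?_
    unfold flx CAQ.Fam.W
    ring
  rw [e]
  refine (abs_sub _ _).trans ?_
  rw [abs_mul]
  have h3 : |F.V n f| ≤ |C| + 1 := hn.trans ((le_abs_self C).trans (by linarith))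
  have h4 : |F.V n f| * |(∑ x ∈ range n, φ (x / n) * flx n w r ⌊h * n⌋₊ (F.H n fun _ => 0) x) / n|
      ≤ (|C| + 1) * (ε / (2 * (|C| + 1)) * h) :=
    mul_le_mul h3 hn2 (abs_nonneg _) (by positivity)
  have h5 : (|C| + 1) * (ε / (2 * (|C| + 1)) * h) = ε / 2 * h := by field_simp
  linarith

/-- **The Neumann condition of the difference of two families** (input of helper212's
`two_limit`). -/
theorem neu_dH (hQ : 0 < Q) (hN : ∀ t, NREDQ Q t 8) {S : CA.Dat} (F₁ F₀ : CAQ.Fam S)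
    (hL : F₁.L = F₀.L) (hT1 : TwoAll Q S F₁.L (fun n => F₁.H n fun _ => 0))
    (hT0 : TwoAll Q S F₀.L (fun n => F₀.H n fun _ => 0)) (w : ℤ × ℤ) (r : Fin 4)
    (h1 : E6.face w r ∈ S.Q) (h2 : E6.face w (r - 1) ∉ S.Q) (φ : ℝ → ℝ) (hφ : ContDiff ℝ ∞ φ)
    (hs : tsupport φ ⊆ Set.Ioo 0 1 \ {S.tp}) (ε : ℝ) (hε : 0 < ε) :
    ∃ r₀ > 0, ∀ h : ℝ, 0 < h → h < r₀ → ∀ᶠ n : ℕ in F₁.L,
      |(∑ x ∈ range n, φ (x / n) * (CAQ.dH F₁ F₀ n
        ((n : ℤ) • w + (x : ℤ) • E6.dir r + (⌊h * n⌋₊ : ℤ) • E6.dir (r + 1)) -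
          CAQ.dH F₁ F₀ n ((n : ℤ) • w + (x : ℤ) • E6.dir r))) / n| ≤ ε * h := by
  obtain ⟨r1, hr1, H1⟩ := neuH hQ hN F₁.le S.tp0 S.tp1 (hT1 w r h1 h2).1 (hT1 w r h1 h2).2
    φ hφ hs (ε / 2) (by positivity)
  obtain ⟨r2, hr2, H2⟩ := neuH hQ hN F₀.le S.tp0 S.tp1 (hT0 w r h1 h2).1 (hT0 w r h1 h2).2
    φ hφ hs (ε / 2) (by positivity)
  rw [← hL] at H2
  refine ⟨min r1 r2, lt_min hr1 hr2, fun h hh hhr => ?_⟩
  filter_upwards [H1 h hh (hhr.trans_le (min_le_left _ _)),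
    H2 h hh (hhr.trans_le (min_le_right _ _))] with n hn1 hn2
  have e : (∑ x ∈ range n, φ (x / n) * (CAQ.dH F₁ F₀ n
        ((n : ℤ) • w + (x : ℤ) • E6.dir r + (⌊h * n⌋₊ : ℤ) • E6.dir (r + 1)) -
          CAQ.dH F₁ F₀ n ((n : ℤ) • w + (x : ℤ) • E6.dir r))) / n =
      (∑ x ∈ range n, φ (x / n) * flx n w r ⌊h * n⌋₊ (F₁.H n fun _ => 0) x) / n -
      (∑ x ∈ range n, φ (x / n) * flx n w r ⌊h * n⌋₊ (F₀.H n fun _ => 0) x) / n := by
    rw [← sub_div, ← sum_sub_distrib]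
    congr 1
    refine sum_congr rfl fun x _ => ?_
    unfold flx CAQ.dH
    ring
  rw [e]
  refine (abs_sub _ _).trans ?_
  linarith

end Vale.Agent.P167.H760.Q
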