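import Vale.Agent.P167.H365.Q.Defs
import Vale.Agent.P167.H760.Geo
import Vale.Agent.P167.FK.Sym

/-!
# P167, general `q`, block Q-DIR: the symmetries of the lattice act on the random cluster measures
and on the weighted functionals
-/

namespace Vale.Agent.P167.H760.Tr

open Finset Vale.Agent.P167 Vale.Agent.P167.BR Vale.Agent.P167.FK
open Vale.Agent.P167.H365 (se sgA HPot)
open Vale.Agent.P167.H365.NQ (XW TW XTW SW)
open Vale.Agent.P167.H135 (fx)

variable (T : Tr) {ω η : Cfg} {D : Finset (ℤ × ℤ)} {A : Finset Ed} {e e' : Ed} {p : ℤ × ℤ}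
  {w w' : Finset Ed → ℝ}

/-! ### The random cluster measures -/

/-- The symmetry of the loops. -/
theorem sy (ω : Cfg) : Sy T.E T.Q ω (T.C ω) := by
  rcases ho : T.o with _ | _
  · refine SyP.sy ⟨fun e => ?_, fun e => ?_⟩
    · exact T.nx0 ho ω e
    · rw [T.hd, ho]; rfl
  · refine SyR.sy ⟨fun e => ?_, fun e => ?_, fun e => ?_⟩
    · exact T.nx1 ho ω e
    · rw [T.hd, ho]; rfl
    · rw [T.tl, ho]; rfl

theorem good_T (h : Good ω) : Good (T.C ω) := (T.sy ω).good h

theorem good_T' (h : Good (T.C ω)) : Good ω := by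
  intro e
  obtain ⟨ℓ, h1, h2⟩ := h (T.E e)
  refine ⟨_, ((T.sy ω).r ℓ h1).1, ?_⟩
  rw [FK.mem_im]
  exact h2

/-- The inverse action on the configurations. -/
def Ci (ω : Cfg) : Cfg := fun v => fx T.o (ω (T.Q v))

theorem C_Ci (ω : Cfg) : T.C (T.Ci ω) = ω := by
  funext v
  rw [T.C_apply']
  unfold Ci
  rw [fx_fx, Equiv.apply_symm_apply]

theorem Ci_C (ω : Cfg) : T.Ci (T.C ω) = ω := by
  funext v
  unfold Ci
  rw [T.C_apply, fx_fx]

theorem im_image : T.im D = D.image T.Q := by
  ext v
  rw [T.mem_im', FK.mem_im]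

/-- **Invariance of the random cluster measures.** -/
theorem Ex_T (Q : ℝ) (D : Finset (ℤ × ℤ)) (η : Cfg) (F : Cfg → ℝ) :
    Ex Q (T.im D) (T.C η) F = Ex Q D η (fun ω => F (T.C ω)) := by
  classical
  rw [T.im_image]
  have hLD : ∀ S ∈ D.powerset, LD (D.image T.Q) (T.C (cf D η S)) = LD D (cf D η S) :=
    fun S _ => (T.sy _).LD D
  rcases ho : T.o with _ | _
  · refine Ex_sy (fun S => S.image T.Q) (fun S hS => ?_) ?_ (fun S hS => ?_) hLD Q F
    · rw [mem_powerset] at hS ⊢
      exact image_subset_image hS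
    · exact fun x _ y _ h => image_injective T.Q.injective h
    · funext v
      obtain ⟨v, rfl⟩ := T.Q.surjective v
      rw [T.C_apply, ho]
      unfold cf
      by_cases h : v ∈ D
      · rw [if_pos h, if_pos (mem_image_of_mem _ h)]
        have : T.Q v ∈ S.image T.Q ↔ v ∈ S := by rw [FK.mem_im, Equiv.symm_apply_apply]
        simp only [this]
        rfl
      · have h' : T.Q v ∉ D.image T.Q := by rw [FK.mem_im, Equiv.symm_apply_apply]; exact h
        rw [if_neg h, if_neg h', T.C_apply, ho]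
  · refine Ex_sy (fun S => (D \ S).image T.Q) (fun S hS => ?_) ?_ (fun S hS => ?_) hLD Q F
    · rw [mem_powerset]
      exact image_subset_image sdiff_subset
    · intro x hx y hy h
      have h1 := image_injective T.Q.injective h
      rw [mem_coe, mem_powerset] at hx hy
      rw [← Finset.sdiff_sdiff_eq_self hx, ← Finset.sdiff_sdiff_eq_self hy, h1]
    · funext v
      obtain ⟨v, rfl⟩ := T.Q.surjective v
      rw [T.C_apply, ho]
      unfold cf
      by_cases h : v ∈ D
      · rw [if_pos h, if_pos (mem_image_of_mem _ h)]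
        have : T.Q v ∈ (D \ S).image T.Q ↔ v ∉ S := by
          rw [FK.mem_im, Equiv.symm_apply_apply, mem_sdiff]
          simp [h]
        simp only [this]
        by_cases h2 : v ∈ S <;> simp [h2, fx]
      · have h' : T.Q v ∉ D.image T.Q := by rw [FK.mem_im, Equiv.symm_apply_apply]; exact h
        rw [if_neg h, if_neg h', T.C_apply, ho]

/-- The measure in the frame. -/
theorem Ex_pre (Q : ℝ) (D : Finset (ℤ × ℤ)) (η : Cfg) (F : Cfg → ℝ) :
    Ex Q (T.pre D) (T.Ci η) (fun ω => F (T.C ω)) = Ex Q D η F := by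
  have h := T.Ex_T Q (T.pre D) (T.Ci η) F
  rw [T.im_pre, T.C_Ci] at h
  exact h.symm

/-! ### The functionals -/

theorem XW_T : XW (T.im D) w (T.C ω) = XW D (fun A => w (T.imE A)) ω := by
  classical
  unfold XW
  rw [T.pcsT, prod_image fun x _ y _ h => T.imE_inj h]

theorem TW_T (A : Finset Ed) :
    TW (T.im D) w w' (T.C ω) (T.imE A) = TW D (fun A => w (T.imE A)) (fun A => w' (T.imE A)) ω A := by
  classical
  unfold TW
  have h1 : (pcs (T.C ω) (T.im D)).erase (T.imE A) = ((pcs ω D).erase A).image T.imE := by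
    rw [T.pcsT]
    ext B
    simp only [mem_erase, mem_image]
    constructor
    · rintro ⟨h1, B, h2, rfl⟩
      exact ⟨B, ⟨fun h => h1 (by rw [h]), h2⟩, rfl⟩
    · rintro ⟨B, ⟨h1, h2⟩, rfl⟩
      exact ⟨fun h => h1 (T.imE_inj h), B, h2, rfl⟩
  rw [h1, prod_image fun x _ y _ h => T.imE_inj h]

theorem se_T (z : ℤ × ℤ) : se (T.im D) (T.S p) (T.imE A) (T.S z) = se D p A z := by
  classical
  unfold se
  simp only [T.sepT]

theorem XTW_T (z : ℤ × ℤ) : XTW (T.im D) (T.S p) w w' (T.S z) (T.C ω) =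
    XTW D p (fun A => w (T.imE A)) (fun A => w' (T.imE A)) z ω := by
  classical
  unfold XTW
  rw [T.pcsT, sum_image fun x _ y _ h => T.imE_inj h]
  refine sum_congr rfl fun A _ => ?_
  rw [T.se_T, T.TW_T A]

/-- The side of the base point: it changes if the interfaces are reversed. -/
theorem sgA_T (hA : A ∈ pcs ω D) (hP : HPot D) (hj : ∀ e ∈ A, H365.Jt D p (rs e)) :
    sgA (T.im D) (T.S p) (T.imE A) = (if T.o then -1 else 1) * sgA D p A := by
  classical
  obtain ⟨e0, he0⟩ := pcs_nonempty hA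
  obtain ⟨u0, hu0⟩ := hP _ _ hA
  have h2 := H365.two_val hA hu0 he0 (hj e0 he0)
  have hval : ∀ u, PotD D A u → ∀ e ∈ A, u p - u (rs e) = u0 p - u0 (rs e0) := by
    intro u hu e he
    have h3 := H365.pot_uniq hu hu0 (hj e he)
    have h4 := H365.pot_along hA hu0 he0 he
    omega
  have hD : (∃ u, PotD D A u ∧ ∃ e ∈ A, u p = u (rs e)) ↔ u0 p = u0 (rs e0) := by
    constructor
    · rintro ⟨u, hu, e, he, h3⟩
      have := hval u hu e he
      omega
    · exact fun h => ⟨u0, hu0, e0, he0, h⟩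
  have hls : ∀ u, PotD D A u → ∀ e ∈ A, u (ls e) = u (rs e) + 1 := by
    intro u hu e he
    have := hu e (subset_eds hA he)
    rwa [if_pos he] at this
  rcases ho : T.o with _ | _
  · have hI : (∃ u, PotD (T.im D) (T.imE A) u ∧ ∃ e ∈ T.imE A, u (T.S p) = u (rs e)) ↔
        u0 p = u0 (rs e0) := by
      rw [← hD]
      constructor
      · rintro ⟨u, hu, e, he, h3⟩
        obtain ⟨e, rfl⟩ := T.E.surjective e
        refine ⟨_, T.potD_T' hu, e, T.mem_imE.1 he, ?_⟩
        rw [T.rt, ho] at h3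
        simpa [ho] using h3
      · rintro ⟨u, hu, e, he, h3⟩
        refine ⟨_, T.potD_T hu, T.E e, T.mem_imE.2 he, ?_⟩
        rw [T.rt, ho]
        simpa [ho] using h3
    unfold sgA
    simp only [hI, hD, Bool.false_eq_true, if_false, one_mul]
  · have hI : (∃ u, PotD (T.im D) (T.imE A) u ∧ ∃ e ∈ T.imE A, u (T.S p) = u (rs e)) ↔
        ¬ u0 p = u0 (rs e0) := by
      constructor
      · rintro ⟨u, hu, e, he, h3⟩
        obtain ⟨e, rfl⟩ := T.E.surjective e
        have h4 := T.potD_T' hu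
        have h5 := T.mem_imE.1 he
        have h6 := hval _ h4 e h5
        have h7 := hls _ h4 e h5
        rw [T.rt, ho] at h3
        simp only [ho, if_true] at h3 h6 h7
        rw [← h3] at h7
        omega
      · intro h3
        refine ⟨_, T.potD_T hu0, T.E e0, T.mem_imE.2 he0, ?_⟩
        have h7 := hls _ hu0 e0 he0
        rw [T.rt, ho]
        simp only [if_true, Equiv.symm_apply_apply]
        rcases h2 with h2 | h2
        · exact absurd h2 h3
        · rw [h2, h7]
    unfold sgA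
    simp only [hI, hD, if_true]
    by_cases h : u0 p = u0 (rs e0)
    · rw [if_neg (not_not.2 h), if_pos h]; norm_num
    · rw [if_pos h, if_neg h]; norm_num

/-- The stagger term of the piece of an edge. -/
theorem TS_T (he : e ∈ eds D) (hP : HPot D) (hj : ∀ e ∈ eds D, H365.Jt D p (rs e)) :
    TW (T.im D) w w' (T.C ω) (piece (T.C ω) (T.im D) (T.E e)) *
      sgA (T.im D) (T.S p) (piece (T.C ω) (T.im D) (T.E e)) =
    (if T.o then -1 else 1) *
      (TW D (fun A => w (T.imE A)) (fun A => w' (T.imE A)) ω (piece ω D e) *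
        sgA D p (piece ω D e)) := by
  have hA : piece ω D e ∈ pcs ω D := piece_mem_pcs he
  rw [T.pieceT, T.TW_T, T.sgA_T hA hP fun e he => hj e (subset_eds hA he)]
  ring

end Vale.Agent.P167.H760.Tr
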