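import Vale.Agent.P167.CAQ.J8
import Vale.Agent.P167.H760.EnvD

/-!
# P167, general `q`, block Q-TWO: the kind of the boundary condition near the flat parts

If the junction is at the position `tp` of a unit side (up to a constant), the sides near a point of
the part `(0, tp)` or `(tp, 1)` of a unit side are all free or all wired.
-/

namespace Vale.Agent.P167.H760.Q

open Finset Filter Topology
open Vale.Agent.P167.E6 (IsPolygon Encloses)
open Vale.Agent.P167.CAQ.J (poly_rot)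
open Vale.Agent.P167.CAQ.J (ArcB)
open Vale.Agent.P167.H542.Q (BD)

/-- The boundary site number `t` of the enlarged polygon, `t < n`. -/
def pb (S : CA.Dat) (n t : ℕ) : ℤ × ℤ := (n : ℤ) • S.p 0 + (t : ℤ) • E6.dir S.r

theorem pb_b (S : CA.Dat) (n : ℕ) : S.b n = pb S n ⌊S.tp * n⌋₊ := rfl

/-- The sides of a polygon around `S.D n` with the base number `t₀`. -/
theorem q_pos (S : CA.Dat) {n : ℕ} (hn : 0 < n) {N : ℕ} {q : ZMod N → ℤ × ℤ} (hq : IsPolygon q)
    (hD : Encloses q (S.D n)) {t₀ : ℕ} (ht : t₀ < n) (hb : q 0 = pb S n t₀) : N = n * S.l ∧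
    ∀ j : ℕ, q (j : ZMod N) = CL.pe S.p n (t₀ + j) := by
  obtain ⟨rfl, s, hs⟩ := poly_rot hq hD (CL.re_poly S.poly hn t₀) (CL.re_encl S.poly S.enc hn t₀)
  refine ⟨rfl, fun j => ?_⟩
  have hs0 : CL.re S.p n t₀ ((s : ℕ) : ZMod (n * S.l)) =
      CL.re S.p n t₀ ((0 : ℕ) : ZMod (n * S.l)) := by
    have h1 := hs 0
    rw [Nat.cast_zero, add_zero] at h1
    rw [← h1, hb, CL.re_nat hn, zero_add, CL.pe_eq, Nat.div_eq_of_lt ht, Nat.mod_eq_of_lt ht]
    unfold pb
    rw [Nat.cast_zero, zero_add, S.step]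
    simp
  have hs1 : ((s : ℕ) : ZMod (n * S.l)) = 0 := by
    have := (CL.re_poly S.poly hn t₀).2.1 hs0
    rwa [Nat.cast_zero] at this
  rw [hs j, Nat.cast_add, hs1, zero_add, CL.re_nat hn, add_comm]

/-- The numbers of the sides of the polygon near a point of the unit side `i`. -/
theorem side_index (S : CA.Dat) {n : ℕ} (hn : 0 < n) {N : ℕ} {q : ZMod N → ℤ × ℤ}
    (hq : IsPolygon q) (hD : Encloses q (S.D n)) {t₀ : ℕ} (ht : t₀ < n) (hb : q 0 = pb S n t₀)
    {w : ℤ × ℤ} {r : Fin 4}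
    (h2 : E6.face w (r - 1) ∉ S.Q) {x m : ℤ} (hx1 : m < x) (hx2 : x + m < n) {i : ZMod S.l}
    (hi : S.p i = w) {j : ℕ} (hj : j < N)
    (hz : nm (q j - ((n : ℤ) • w + x • E6.dir r)) ≤ m) :
    (∃ y : ℕ, y < n ∧ |x - y| ≤ m ∧ (t₀ + j = i.val * n + y ∨
      (i.val = 0 ∧ t₀ + j = S.l * n + y))) ∧
      q ((j + 1 : ℕ) : ZMod N) = q j + E6.dir r := by
  obtain ⟨rfl, hpos⟩ := q_pos S hn hq hD ht hb
  have hl : NeZero S.l := ⟨by have := S.poly.1; omega⟩
  have hn' : (0 : ℝ) < n := by exact_mod_cast hn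
  obtain ⟨s, hs⟩ : ∃ s, s = t₀ + j := ⟨_, rfl⟩
  obtain ⟨I, hI⟩ : ∃ I, I = s / n := ⟨_, rfl⟩
  obtain ⟨y, hy⟩ : ∃ y, y = s % n := ⟨_, rfl⟩
  have hyn : y < n := by rw [hy]; exact Nat.mod_lt _ hn
  have hIy : s = I * n + y := by
    rw [hI, hy, mul_comm]
    exact (Nat.div_add_mod s n).symm
  obtain ⟨r', hr'⟩ := S.poly.2.2 ((I : ℕ) : ZMod S.l)
  have hside := (S.enc (S.p ((I : ℕ) : ZMod S.l)) r').1 ⟨_, rfl, hr'⟩
  rw [hpos j, ← hs, CL.pe_eq, ← hI, ← hy, hr', add_sub_cancel_left] at hz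
  have key : S.p ((I : ℕ) : ZMod S.l) = w ∧ r' = r ∧ |x - (y : ℤ)| ≤ m := by
    by_contra hcon
    have h3 := side_far (n := (n : ℤ)) (w := w) (w' := S.p ((I : ℕ) : ZMod S.l)) (r := r) (r' := r')
      (x := x) (k := (y : ℤ)) (m := m) (by positivity) (by exact_mod_cast hyn.le) hx1 hx2
      (fun h => by
        apply h2
        rw [← face_opp, ← h.1, ← h.2]
        exact hside.1)
      (fun ha hb => by
        by_contra hle
        exact hcon ⟨ha, hb, not_lt.1 hle⟩)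
    omega
  obtain ⟨k1, k2, k3⟩ := key
  have hIi : ((I : ℕ) : ZMod S.l) = i := S.poly.2.1 (k1.trans hi.symm)
  have hIl : I ≤ S.l := by
    have h4 : s < (S.l + 1) * n := by
      rw [hs]
      have : n * S.l = S.l * n := mul_comm _ _
      rw [add_mul, one_mul]
      omega
    rw [hI]
    have := (Nat.div_lt_iff_lt_mul hn).2 h4
    omega
  have hv : i.val = I % S.l := by rw [← hIi, ZMod.val_natCast]
  refine ⟨⟨y, hyn, k3, ?_⟩, ?_⟩
  swap
  · rw [hpos (j + 1), hpos j, ← add_assoc, ← hs, CL.pe_succ hn, ← hI, hr', k2]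
    abel
  rw [← hs, hIy]
  rcases hIl.lt_or_eq with h | h
  · left
    rw [hv, Nat.mod_eq_of_lt h]
  · right
    rw [hv, h, Nat.mod_self]
    exact ⟨rfl, rfl⟩

/-- The base is the site `S.b n` or the next site of the polygon. -/
def BaseQ {S : CA.Dat} {θ β : ℝ} (X : BD S θ β) (s : ℕ → ℕ) : Prop :=
  (∀ n, s n ≤ 1) ∧ ∀ᶠ n in X.L, X.q n 0 = pb S n (⌊S.tp * n⌋₊ + s n)

theorem baseQ_b {S : CA.Dat} {θ β : ℝ} {X : BD S θ β} (h : ∀ᶠ n in X.L, X.q n 0 = S.b n) :
    BaseQ X fun _ => 0 := ⟨fun _ => zero_le_one, h⟩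

/-- The junction is at the position `tp` of a unit side. -/
def JunQ {S : CA.Dat} {θ β : ℝ} (X : BD S θ β) (ia : ℕ) (C₀ : ℝ) : Prop :=
  ∀ᶠ n : ℕ in X.L, |(X.k n : ℝ) - ia * n| ≤ C₀

/-- **The kind of a flat part.** -/
theorem arc_part {S : CA.Dat} {θ β : ℝ} (X : BD S θ β) {s : ℕ → ℕ} (hb : BaseQ X s)
    {ia : ℕ} {C₀ : ℝ} (hk : JunQ X ia C₀) {w : ℤ × ℤ} {r : Fin 4} (h1 : E6.face w r ∈ S.Q)
    (h2 : E6.face w (r - 1) ∉ S.Q) {α ρ : ℝ} (hαρ : (α = 0 ∧ ρ = S.tp) ∨ (α = S.tp ∧ ρ = 1)) :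
    ∃ b : Bool, ∀ δ : ℝ, 0 < δ → ∀ᶠ n : ℕ in X.L, ∀ x m : ℤ,
      (α + δ) * n ≤ x - m → (x : ℝ) + m ≤ (ρ - δ) * n →
      ArcB b (X.q n) (X.k n) ((n : ℤ) • w + x • E6.dir r) m := by
  have htp0 := S.tp0
  have htp1 := S.tp1
  obtain ⟨i, hi, -⟩ := (S.enc w r).2 ⟨h1, h2⟩
  have hl : NeZero S.l := ⟨by have := S.poly.1; omega⟩
  obtain ⟨hs1, hb⟩ := hb
  have hlarge : ∀ A : ℝ, ∀ᶠ n : ℕ in X.L, A ≤ n := fun A => X.le
    ((eventually_ge_atTop ⌈A⌉₊).mono fun n hn => (Nat.le_ceil A).trans (by exact_mod_cast hn))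
  rcases hαρ with ⟨rfl, rfl⟩ | ⟨rfl, rfl⟩
  · -- the part `(0, tp)`
    obtain ⟨I, hI⟩ : ∃ I, I = if i.val = 0 then S.l else i.val := ⟨_, rfl⟩
    refine ⟨decide (I ≤ ia), fun δ hδ => ?_⟩
    filter_upwards [X.poly, X.enc, hb, hk, hlarge ((C₀ + 3) / (δ / 2)), hlarge 1,
      hlarge ((C₀ + 3) / (1 - S.tp)), hlarge (2 / (1 - S.tp))] with n a1 a2 a3 a4 a5 a6 a7 a8 x m
      hx1 hx2
    have hn' : (0 : ℝ) < n := by linarith
    have hn : 0 < n := by exact_mod_cast hn'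
    rw [div_le_iff₀ (by positivity)] at a5
    rw [div_le_iff₀ (by linarith)] at a7
    rw [div_le_iff₀ (by linarith)] at a8
    have hδn : 0 < δ * n := by positivity
    obtain ⟨t₀, ht₀⟩ : ∃ t₀, t₀ = ⌊S.tp * n⌋₊ + s n := ⟨_, rfl⟩
    rw [← ht₀] at a3
    have hsn : (s n : ℝ) ≤ 1 := by exact_mod_cast hs1 n
    have ht₀' : (t₀ : ℝ) = ⌊S.tp * n⌋₊ + s n := by rw [ht₀]; push_cast; ring
    have hb1 : (t₀ : ℝ) ≤ S.tp * n + 1 := by
      have : (⌊S.tp * n⌋₊ : ℝ) ≤ S.tp * n := Nat.floor_le (by positivity)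
      linarith
    have hb2 : S.tp * n < t₀ + 1 := by
      have := Nat.lt_floor_add_one (S.tp * n)
      have : (0 : ℝ) ≤ s n := Nat.cast_nonneg _
      linarith
    have htn' : t₀ < n := by
      have : (t₀ : ℝ) < n := by nlinarith
      exact_mod_cast this
    rw [abs_le] at a4
    intro j hj hz
    have htn : S.tp * n ≤ 1 * n := mul_le_mul_of_nonneg_right htp1.le hn'.le
    obtain ⟨⟨y, hy1, hy2, hy3⟩, -⟩ := side_index S hn a1 a2 htn' a3 h2 (x := x) (m := m)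
      (by have : (m : ℝ) < x := by nlinarith
          exact_mod_cast this)
      (by have : ((x + m : ℤ) : ℝ) < ((n : ℤ) : ℝ) := by push_cast; nlinarith
          exact_mod_cast this) hi hj hz
    have hy2' : |(x : ℝ) - y| ≤ m := by exact_mod_cast hy2
    rw [abs_le] at hy2'
    have hyt : (y : ℝ) ≤ S.tp * n - δ / 2 * n := by linarith
    have hC : C₀ + 3 ≤ δ / 2 * n := by linarith
    have e0 : (t₀ : ℝ) + j = I * n + y := by
      rcases hy3 with h | ⟨h, h'⟩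
      · have h0 : i.val ≠ 0 := by
          intro h0
          rw [h0] at h
          have h' : (t₀ : ℝ) + j = (0 : ℕ) * n + y := by exact_mod_cast h
          rw [Nat.cast_zero, zero_mul, zero_add] at h'
          have : (0 : ℝ) ≤ j := Nat.cast_nonneg _
          have hC0 : -C₀ ≤ C₀ := by linarith [a4.1, a4.2]
          linarith
        rw [hI, if_neg h0]
        exact_mod_cast h
      · rw [hI, if_pos h]
        exact_mod_cast h'
    have hC0 : -C₀ ≤ C₀ := by linarith [a4.1, a4.2]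
    by_cases hIa : I ≤ ia
    · rw [decide_eq_true hIa, if_pos rfl]
      have h5 : (I : ℝ) * n ≤ ia * n := mul_le_mul_of_nonneg_right (by exact_mod_cast hIa) hn'.le
      have : (j : ℝ) < X.k n := by linarith
      exact_mod_cast this
    · rw [decide_eq_false hIa, if_neg (by simp)]
      have h5 : ((ia : ℝ) + 1) * n ≤ I * n := mul_le_mul_of_nonneg_right
        (by exact_mod_cast (by omega : ia + 1 ≤ I)) hn'.le
      have h6 : (0 : ℝ) ≤ y := Nat.cast_nonneg _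
      have : (X.k n : ℝ) ≤ j := by nlinarith
      exact_mod_cast this
  · -- the part `(tp, 1)`
    refine ⟨decide (i.val < ia), fun δ hδ => ?_⟩
    filter_upwards [X.poly, X.enc, hb, hk, hlarge ((C₀ + 3) / (δ / 2)), hlarge 1,
      hlarge ((C₀ + 3) / S.tp), hlarge (2 / (1 - S.tp))] with n a1 a2 a3 a4 a5 a6 a7 a8 x m
      hx1 hx2
    have hn' : (0 : ℝ) < n := by linarith
    have hn : 0 < n := by exact_mod_cast hn'
    rw [div_le_iff₀ (by positivity)] at a5
    rw [div_le_iff₀ htp0] at a7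
    rw [div_le_iff₀ (by linarith)] at a8
    have hδn : 0 < δ * n := by positivity
    obtain ⟨t₀, ht₀⟩ : ∃ t₀, t₀ = ⌊S.tp * n⌋₊ + s n := ⟨_, rfl⟩
    rw [← ht₀] at a3
    have hsn : (s n : ℝ) ≤ 1 := by exact_mod_cast hs1 n
    have ht₀' : (t₀ : ℝ) = ⌊S.tp * n⌋₊ + s n := by rw [ht₀]; push_cast; ring
    have hb1 : (t₀ : ℝ) ≤ S.tp * n + 1 := by
      have : (⌊S.tp * n⌋₊ : ℝ) ≤ S.tp * n := Nat.floor_le (by positivity)
      linarith
    have hb2 : S.tp * n < t₀ + 1 := by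
      have := Nat.lt_floor_add_one (S.tp * n)
      have : (0 : ℝ) ≤ s n := Nat.cast_nonneg _
      linarith
    have htn' : t₀ < n := by
      have : (t₀ : ℝ) < n := by nlinarith
      exact_mod_cast this
    rw [abs_le] at a4
    intro j hj hz
    have htn : 0 < S.tp * n := by positivity
    obtain ⟨⟨y, hy1, hy2, hy3⟩, -⟩ := side_index S hn a1 a2 htn' a3 h2 (x := x) (m := m)
      (by have : (m : ℝ) < x := by nlinarith
          exact_mod_cast this)
      (by have : ((x + m : ℤ) : ℝ) < ((n : ℤ) : ℝ) := by push_cast; nlinarith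
          exact_mod_cast this) hi hj hz
    have hy2' : |(x : ℝ) - y| ≤ m := by exact_mod_cast hy2
    rw [abs_le] at hy2'
    have hyt : S.tp * n + δ / 2 * n ≤ (y : ℝ) := by linarith
    have hC : C₀ + 3 ≤ δ / 2 * n := by linarith
    have hyn : (y : ℝ) < n := by exact_mod_cast hy1
    have hC0 : -C₀ ≤ C₀ := by linarith [a4.1, a4.2]
    have hN := (q_pos S hn a1 a2 htn' a3).1
    have e0 : (t₀ : ℝ) + j = i.val * n + y := by
      rcases hy3 with h | ⟨-, h⟩
      · exact_mod_cast h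
      · exfalso
        have h' : (t₀ : ℝ) + j = S.l * n + y := by exact_mod_cast h
        have h7 : (j : ℝ) < n * S.l := by
          rw [hN] at hj
          exact_mod_cast hj
        linarith
    by_cases hIa : i.val < ia
    · rw [decide_eq_true hIa, if_pos rfl]
      have h5 : ((i.val : ℝ) + 1) * n ≤ ia * n := mul_le_mul_of_nonneg_right
        (by exact_mod_cast hIa) hn'.le
      have : (j : ℝ) < X.k n := by linarith
      exact_mod_cast this
    · rw [decide_eq_false hIa, if_neg (by simp)]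
      have h5 : (ia : ℝ) * n ≤ i.val * n := mul_le_mul_of_nonneg_right
        (by exact_mod_cast not_lt.1 hIa) hn'.le
      have : (X.k n : ℝ) ≤ j := by linarith
      exact_mod_cast this

end Vale.Agent.P167.H760.Q
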