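import Vale.Agent.P167.H760.Q.Ph
import Vale.Agent.P167.H167.Pc

/-!
# P167, general `q`, block Q-TWO: the next base point

For wired and for free boundary conditions the potentials of the functional with the base `q 0` and with
the base `q 1` have the same increments if the piece which crosses the side `0` is small.
-/

namespace Vale.Agent.P167.H760.Q

open Finset Relation Vale.Agent.P167.BR Vale.Agent.P167.FK
open Vale.Agent.P167.E6 (IsPolygon Encloses dir face)
open Vale.Agent.P167.H718 (IsXY IsCl Cl isCl_strand Dob OutC)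
open Vale.Agent.P167.QX (lo hi lo_xy hi_xy)
open Vale.Agent.P167.H542.Q (thB wR wR' XTR BD)
open Vale.Agent.P167.H167 (tot Geo Wi)

variable {n k : ℕ} {q : ZMod n → ℤ × ℤ} {D : Finset (ℤ × ℤ)} {θ β : ℝ} {f : ℤ × ℤ → ℝ}
  {ω η : Cfg} {A : Finset Ed} {z z' p : ℤ × ℤ}

/-- The polygon with the next base point. -/
def nb (q : ZMod n → ℤ × ℤ) : ZMod n → ℤ × ℤ := fun i => q (i + 1)

theorem nb_nat (q : ZMod n → ℤ × ℤ) (i : ℕ) : nb q (i : ZMod n) = q ((i + 1 : ℕ) : ZMod n) := by
  unfold nb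
  push_cast
  rfl

theorem nb_zero (q : ZMod n → ℤ × ℤ) : nb q 0 = q 1 := by
  unfold nb
  rw [zero_add]

theorem nb_poly (hq : IsPolygon q) : IsPolygon (nb q) :=
  ⟨hq.1, fun _ _ h => add_right_cancel (hq.2.1 h), fun i => hq.2.2 (i + 1)⟩

theorem nb_enc (hD : Encloses q D) : Encloses (nb q) D := by
  intro v r
  rw [← hD v r]
  constructor
  · rintro ⟨i, h1, h2⟩
    exact ⟨i + 1, h1, h2⟩
  · rintro ⟨i, h1, h2⟩
    refine ⟨i - 1, ?_, ?_⟩
    · unfold nb
      rw [sub_add_cancel]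
      exact h1
    · unfold nb
      rw [sub_add_cancel]
      exact h2

theorem nb_dob (hq : IsPolygon q) (hk : k = 0 ∨ k = n) (h : Dob η D q k) : Dob η D (nb q) k := by
  have hn := hq.1
  have hn0 : (n : ZMod n) = 0 := ZMod.natCast_self n
  -- the number of a site for the new numbers
  have key : ∀ i : ℕ, i ≤ n → ∃ i' : ℕ, i' ≤ n ∧ q i' = nb q i := by
    intro i hi
    rcases Nat.lt_or_ge i n with h1 | h1
    · exact ⟨i + 1, by omega, (nb_nat q i).symm⟩
    · obtain rfl : i = n := by omega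
      refine ⟨1, by omega, ?_⟩
      rw [nb_nat, Nat.cast_add, hn0, zero_add]
  have key' : ∀ i : ℕ, i ≤ n → ∃ i' : ℕ, i' ≤ n ∧ nb q i' = q i := by
    intro i hi
    rcases Nat.eq_zero_or_pos i with h1 | h1
    · refine ⟨n - 1, by omega, ?_⟩
      rw [nb_nat, show n - 1 + 1 = n by omega, hn0, h1, Nat.cast_zero]
    · refine ⟨i - 1, by omega, ?_⟩
      rw [nb_nat, show i - 1 + 1 = i by omega]
  rcases hk with rfl | rfl
  · refine ⟨h.good, fun i j _ hi _ hj h1 h2 => ?_, fun s hs t ht hev hst hne => ?_⟩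
    · obtain ⟨i', hi', ei⟩ := key i hi
      obtain ⟨j', hj', ej⟩ := key j hj
      rw [← ei] at h1 ⊢
      rw [← ej] at h2 ⊢
      exact h.join i' j' (Nat.zero_le _) hi' (Nat.zero_le _) hj' h1 h2
    · obtain ⟨i, j, -, hi, -, hj, ei, ej⟩ := h.sep s hs t ht hev hst hne
      obtain ⟨i', hi', ei'⟩ := key' i hi
      obtain ⟨j', hj', ej'⟩ := key' j hj
      exact ⟨i', j', Nat.zero_le _, hi', Nat.zero_le _, hj', ei'.trans ei, ej'.trans ej⟩
  · refine ⟨h.good, fun i j hi hi' hj hj' h1 h2 => ?_, fun s hs t ht hev hst hne => ?_⟩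
    · obtain rfl : i = k := by omega
      obtain rfl : j = i := by omega
      exact ReflTransGen.refl
    · obtain ⟨i, j, hi, hi', hj, hj', ei, ej⟩ := h.sep s hs t ht hev hst hne
      exact absurd (ei.symm.trans ((by rw [show i = j by omega] : q (i : ZMod k) = q j).trans ej)) hne

theorem nb_be (q : ZMod n → ℤ × ℤ) (i : ZMod n) : be (nb q) i = be q (i + 1) := rfl

theorem nb_be_nat (q : ZMod n → ℤ × ℤ) (i : ℕ) :
    be (nb q) (i : ZMod n) = be q ((i + 1 : ℕ) : ZMod n) := by
  rw [nb_be]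
  push_cast
  rfl

/-- The sides of a strand for the new numbers. -/
theorem nb_xy {x y : ℕ} (h : IsXY q A x y) (h0 : be q 0 ∉ A) :
    1 ≤ x ∧ 1 ≤ y ∧ IsXY (nb q) A (x - 1) (y - 1) := by
  obtain ⟨h1, h2, h3, h4, h5, h6⟩ := h
  have hx : 1 ≤ x := by
    rcases Nat.eq_zero_or_pos x with rfl | h
    · exact absurd (by simpa using h3) h0
    · exact h
  have hy : 1 ≤ y := by
    rcases Nat.eq_zero_or_pos y with rfl | h
    · exact absurd (by simpa using h4) h0
    · exact h
  refine ⟨hx, hy, by omega, by omega, ?_, ?_, ?_, ?_⟩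
  · rw [nb_be_nat, Nat.sub_add_cancel hx]; exact h3
  · rw [nb_be_nat, Nat.sub_add_cancel hy]; exact h4
  · rw [nb_nat, Nat.sub_add_cancel hx]; exact h5
  · rw [nb_nat, Nat.sub_add_cancel hy]; exact h6

/-- The phases of the pieces which do not cross the side `0`. -/
theorem nb_thB (hq : IsPolygon q) (hD : Encloses q D) (hk : k = 0 ∨ k = n) (hA : A ∈ pcs ω D)
    (h0 : be q 0 ∉ A) : thB θ β (nb q) D k A = thB θ β q D k A := by
  classical
  unfold thB
  by_cases hl : IsLp D A
  · rw [if_pos hl, if_pos hl]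
  · obtain ⟨x, y, hxy⟩ := QX.exists_xy hq hD hA hl
    obtain ⟨hx, hy, hxy'⟩ := nb_xy hxy h0
    have h1 := isCl_strand (k := k) hq hD hA hl hxy
    have h2 := isCl_strand (k := k) (nb_poly hq) (nb_enc hD) hA hl hxy'
    have hlo := lo_xy hq hD hA hxy
    have hhi := hi_xy hq hD hA hxy
    have hlo' := lo_xy (nb_poly hq) (nb_enc hD) hA hxy'
    have hhi' := hi_xy (nb_poly hq) (nb_enc hD) hA hxy'
    have a1 := hxy.1
    have a2 := hxy.2.1
    have e : IsCl D (nb q) k A ↔ IsCl D q k A := by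
      rw [h1, h2]
      unfold Cl
      omega
    have e1 : ¬ (min x y < k ∧ k ≤ max x y) := by omega
    have e2 : ¬ (min (x - 1) (y - 1) < k ∧ k ≤ max (x - 1) (y - 1)) := by omega
    rw [if_neg hl, if_neg hl, hlo, hhi, hlo', hhi', if_neg e1, if_neg e2]
    by_cases hcl : IsCl D q k A
    · rw [if_pos hcl, if_pos (e.2 hcl)]
    · rw [if_neg hcl, if_neg fun h => hcl (e.1 h)]

/-- Separation from the new base point. -/
theorem nb_sep (hq : IsPolygon q) (hD : Encloses q D) (h0 : be q 0 ∉ A) :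
    Sep D A z (nb q 0) ↔ Sep D A z (q 0) := by
  have hn := hq.1
  have key : ∀ u : ℤ × ℤ → ℤ, PotD D A u → u (nb q 0) = u (q 0) := by
    intro u hu
    have := pot_arc hq hD hu (i := 0) (j := 1) zero_le_one fun m _ hm => by
      obtain rfl : m = 0 := by omega
      simpa using h0
    rw [nb_zero]
    simpa using this
  unfold BR.Sep
  constructor
  · rintro ⟨u, hu, h⟩
    exact ⟨u, hu, by rwa [← key u hu]⟩
  · rintro ⟨u, hu, h⟩
    exact ⟨u, hu, by rwa [key u hu]⟩

theorem nb_mass (hq : IsPolygon q) (hD : Encloses q D) (h0 : be q 0 ∉ A) :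
    mass D (nb q 0) f A = mass D (q 0) f A := by
  classical
  unfold mass
  refine sum_congr rfl fun z _ => ?_
  by_cases h : Sep D A z (q 0)
  · rw [if_pos h, if_pos ((nb_sep hq hD h0).2 h)]
  · rw [if_neg h, if_neg fun h' => h ((nb_sep hq hD h0).1 h')]

/-! ### the increments -/

/-- The terms of the potential. -/
noncomputable def tmR (th : Finset Ed → ℝ) (D : Finset (ℤ × ℤ)) (p : ℤ × ℤ) (f : ℤ × ℤ → ℝ)
    (ω : Cfg) (A : Finset Ed) : ℝ :=
  wR' (th A) (mass D p f A) * ∏ B ∈ (pcs ω D).erase A, wR (th B) (mass D p f B)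

open Classical in
/-- The increment of the potential as a sum over the pieces which separate the two sites. -/
theorem xtr_sub (th : Finset Ed → ℝ) (D : Finset (ℤ × ℤ)) (p : ℤ × ℤ) (f : ℤ × ℤ → ℝ)
    (z z' : ℤ × ℤ) (ω : Cfg) :
    XTR th D p f z ω - XTR th D p f z' ω = ∑ A ∈ pcs ω D,
      ((if Sep D A z p then 1 else 0) - if Sep D A z' p then 1 else 0) * tmR th D p f ω A := by
  unfold XTR
  rw [sum_filter, sum_filter, ← sum_sub_distrib]
  refine sum_congr rfl fun A _ => ?_
  unfold tmR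
  split_ifs <;> ring

/-- **The increments for the two base points.** If the piece which crosses the side `0` has no mass and
does not separate `z` from `z'`, then the increments agree. -/
theorem nb_xtr (hq : IsPolygon q) (hD : Encloses q D) (hk : k = 0 ∨ k = n)
    (hθ : ∀ A, Real.cos (thB θ β q D k A) ≠ 0) (hθ' : ∀ A, Real.cos (thB θ β (nb q) D k A) ≠ 0)
    (h : ∀ A ∈ pcs ω D, be q 0 ∈ A → (Sep D A z (q 0) ↔ Sep D A z' (q 0)) ∧
      (Sep D A z (nb q 0) ↔ Sep D A z' (nb q 0)) ∧ mass D (q 0) f A = 0 ∧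
      mass D (nb q 0) f A = 0) :
    XTR (thB θ β q D k) D (q 0) f z ω - XTR (thB θ β q D k) D (q 0) f z' ω =
      XTR (thB θ β (nb q) D k) D (nb q 0) f z ω - XTR (thB θ β (nb q) D k) D (nb q 0) f z' ω := by
  classical
  have hw : ∀ A ∈ pcs ω D, wR (thB θ β q D k A) (mass D (q 0) f A) =
      wR (thB θ β (nb q) D k A) (mass D (nb q 0) f A) := by
    intro A hA
    by_cases h0 : be q 0 ∈ A
    · obtain ⟨-, -, h1, h2⟩ := h A hA h0
      unfold wR
      rw [h1, h2, add_zero, add_zero, div_self (hθ A), div_self (hθ' A)]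
    · rw [nb_thB hq hD hk hA h0, nb_mass hq hD h0]
  rw [xtr_sub, xtr_sub]
  refine sum_congr rfl fun A hA => ?_
  by_cases h0 : be q 0 ∈ A
  · obtain ⟨h1, h2, -, -⟩ := h A hA h0
    have e1 : ((if Sep D A z (q 0) then (1 : ℝ) else 0) - if Sep D A z' (q 0) then 1 else 0) = 0 := by
      by_cases hs : Sep D A z' (q 0)
      · rw [if_pos hs, if_pos (h1.2 hs), sub_self]
      · rw [if_neg hs, if_neg fun h => hs (h1.1 h), sub_self]
    have e2 : ((if Sep D A z (nb q 0) then (1 : ℝ) else 0) -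
        if Sep D A z' (nb q 0) then 1 else 0) = 0 := by
      by_cases hs : Sep D A z' (nb q 0)
      · rw [if_pos hs, if_pos (h2.2 hs), sub_self]
      · rw [if_neg hs, if_neg fun h => hs (h2.1 h), sub_self]
    rw [e1, e2, zero_mul, zero_mul]
  · have e : ∀ z : ℤ × ℤ, (if Sep D A z (q 0) then (1 : ℝ) else 0) =
        if Sep D A z (nb q 0) then 1 else 0 := by
      intro z
      by_cases hs : Sep D A z (q 0)
      · rw [if_pos hs, if_pos ((nb_sep hq hD h0).2 hs)]
      · rw [if_neg hs, if_neg fun h => hs ((nb_sep hq hD h0).1 h)]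
    rw [e z, e z']
    congr 1
    unfold tmR
    rw [nb_thB hq hD hk hA h0, nb_mass hq hD h0]
    congr 1
    exact prod_congr rfl fun B hB => hw B (mem_of_mem_erase hB)

open Classical in
/-- The pieces which separate `z` from `z'` relative to `p`. -/
noncomputable def sps (D : Finset (ℤ × ℤ)) (p z z' : ℤ × ℤ) (ω : Cfg) : Finset (Finset Ed) :=
  (pcs ω D).filter fun A => ¬ (Sep D A z p ↔ Sep D A z' p)

/-- The bound of an increment. -/
theorem abs_xtr_sub {th : Finset Ed → ℝ} {B : ℝ} (hB : ∀ A ∈ pcs ω D, |tmR th D p f ω A| ≤ B) :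
    |XTR th D p f z ω - XTR th D p f z' ω| ≤ (sps D p z z' ω).card * B := by
  classical
  rw [xtr_sub]
  refine (abs_sum_le_sum_abs _ _).trans ?_
  unfold sps
  rw [card_eq_sum_ones, Nat.cast_sum, sum_mul, sum_filter]
  refine sum_le_sum fun A hA => ?_
  have h := hB A hA
  by_cases h1 : Sep D A z p <;> by_cases h2 : Sep D A z' p
  · rw [if_pos h1, if_pos h2, if_neg (not_not.2 ⟨fun _ => h2, fun _ => h1⟩)]
    simp
  · rw [if_pos h1, if_neg h2, if_pos (fun h => h2 (h.1 h1))]
    simpa using h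
  · rw [if_neg h1, if_pos h2, if_pos (fun h => h1 (h.2 h2))]
    simpa using h
  · rw [if_neg h1, if_neg h2, if_neg (not_not.2 ⟨fun h => absurd h h1, fun h => absurd h h2⟩)]
    simp

end Vale.Agent.P167.H760.Q
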