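import Vale.Agent.P167.H760.Q.Bs1
import Vale.Agent.P167.CAQ.J4
import Vale.Agent.P167.H852.Q.Y4

/-!
# P167, general `q`, block Q-TWO: the next base point, counting

`cnt_w`: the number of the large pieces which visit a box, with a factor which does not depend on the
squares near the box. `card_sps`: the number of the pieces which separate two sites, by scales.
-/

namespace Vale.Agent.P167.H760.Q

open Finset Relation Vale.Agent.P167.BR Vale.Agent.P167.FK Vale.Agent.P167.FKA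
open Vale.Agent.P167.E6 (IsPolygon Encloses dir face)
open Vale.Agent.P167.H166 (bxx mem_bxx)
open Vale.Agent.P167.H167 (Geo Wi tot sgm Q1 Q2 cls cls_spec cls_eq Bg isSeg)
open Vale.Agent.P167.H562.QM (OneC macro_B Nr)
open Vale.Agent.P167.CAQ.J (OC card_Bg_le disj_pcs)

variable {Q : ℝ} {D : Finset (ℤ × ℤ)} {ω η : Cfg} {p x z z' : ℤ × ℤ} {f : ℤ × ℤ → ℝ} {A : Finset Ed}

/-- A small piece far from the charge has no mass. -/
theorem mass_far {K m s : ℤ} (hG : Geo K m D p) (hs : 1 ≤ s) (hsm : s ≤ m) (hA : Wi x s A)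
    (hf : ∀ z ∈ sites D, f z ≠ 0 → K * s < nm (z - x)) (htot : tot D f = 0) :
    mass D p f A = 0 := by
  classical
  by_cases h : ∃ z ∈ sites D, f z ≠ 0 ∧ Sep D A z p
  · obtain ⟨z, hz, hfz, hsz⟩ := h
    rw [← htot]
    unfold mass tot
    refine sum_congr rfl fun z' hz' => ?_
    by_cases hfz' : f z' = 0
    · rw [hfz', ite_self]
    · rw [if_pos (hG.sep_far hs hsm hA hz hz' (hf z hz hfz) (hf z' hz' hfz') hsz)]
  · push Not at h
    unfold mass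
    refine sum_eq_zero fun z hz => ?_
    by_cases hfz : f z = 0
    · rw [hfz, ite_self]
    · rw [if_neg (h z hz hfz)]

/-- **The number of the pieces of the size of the box**, with a factor. -/
theorem cnt_w (hQ : 1 ≤ Q) (h : RSW Q) (Λ : ℕ) : ∃ C : ℝ, 0 < C ∧
    ∀ (D : Finset (ℤ × ℤ)) (η : Cfg), Good η → ∀ (x : ℤ × ℤ) (L d R : ℤ), 0 ≤ L → 1 ≤ d →
      L ≤ Λ * d → L + d ≤ R → OC x R D η → ∀ G : Cfg → ℝ, (∀ ω, 0 ≤ G ω) →
      (∀ ω ω' : Cfg, (∀ v, R < nm (v - x) → ω v = ω' v) → G ω = G ω') →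
      Ex Q D η (fun ω => G ω * ((Bg D x L (d : ℝ) ω).card : ℝ)) ≤ C * Ex Q D η G := by
  classical
  have hQ0 : 0 < Q := by linarith
  obtain ⟨ε, C, ρ0, -, hC, hρ0, hmac⟩ := macro_B hQ h 1 Λ 1 0 one_pos (Nat.cast_nonneg _)
  refine ⟨C + 2 * (2 * (Λ * ρ0) + 1) ^ 2, by positivity,
    fun D η hη x L d R hL hd hLd hR hOC G hG0 hG => ?_⟩
  have hEG : 0 ≤ Ex Q D η G := Ex_nonneg hQ0 fun S _ => hG0 _
  by_cases hdρ : ρ0 ≤ (d : ℝ)
  · obtain ⟨N, -, hN, hEx⟩ := hmac d hdρ x (bxx x L) (fun v hv => by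
      have h1 := mem_bxx.1 hv
      have h2 : nm (v - x) ≤ Λ * d := h1.trans hLd
      exact_mod_cast h2) (fun i => i.elim0)
    have hnr : ∀ v, Nr (bxx x L) (1 * (d : ℝ)) v → nm (v - x) ≤ R := by
      rintro v ⟨u, hu, h2⟩
      have h3 := mem_bxx.1 hu
      have h4 : nm (v - u) ≤ d := by
        rw [one_mul] at h2
        exact_mod_cast h2
      have h5 := H45.nm_sub_le v u x
      linarith
    have h1 := hEx D η hη (fun y a ha hv => hOC y a ha fun v hv' => hnr v (hv v hv')) G hG0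
      (fun ω ω' hω => hG ω ω' fun v hv => hω v fun h2 => by
        have := hnr v h2.2
        omega)
    have h2 : Ex Q D η (fun ω => G ω * ((Bg D x L (d : ℝ) ω).card : ℝ)) ≤
        Ex Q D η (fun ω => G ω * Real.exp (1 * (N ω : ℝ))) := by
      refine Ex_mono hQ0 fun S _ => mul_le_mul_of_nonneg_left ?_ (hG0 _)
      set ω := cf D η S
      have h3 : (Bg D x L (d : ℝ) ω).card ≤ N ω := by
        refine hN ω _ (fun γ hγ => isSeg (Finset.mem_filter.1 hγ).1)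
          (disj_pcs (Finset.filter_subset _ _)) fun γ hγ => ?_
        obtain ⟨h4, ⟨e, he, h5⟩, h6⟩ := Finset.mem_filter.1 hγ
        refine ⟨⟨e, he, mem_bxx.2 h5⟩, ?_⟩
        unfold Small at h6
        push Not at h6
        obtain ⟨u, hu, v, hv, h7⟩ := h6
        unfold vs at hu hv
        obtain ⟨e1, he1, rfl⟩ := Finset.mem_image.1 hu
        obtain ⟨e2, he2, rfl⟩ := Finset.mem_image.1 hv
        exact ⟨e1, he1, e2, he2, by rw [one_mul]; exact h7⟩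
      have h4 : ((Bg D x L (d : ℝ) ω).card : ℝ) ≤ N ω := by exact_mod_cast h3
      have h5 := Real.add_one_le_exp (N ω : ℝ)
      rw [one_mul]
      linarith
    have h3 : 0 ≤ 2 * (2 * ((Λ : ℝ) * ρ0) + 1) ^ 2 * Ex Q D η G := by positivity
    nlinarith
  · push Not at hdρ
    have h1 : Ex Q D η (fun ω => G ω * ((Bg D x L (d : ℝ) ω).card : ℝ)) ≤
        Ex Q D η (fun ω => 2 * (2 * (Λ * ρ0) + 1) ^ 2 * G ω) := by
      refine Ex_mono hQ0 fun S _ => ?_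
      rw [mul_comm]
      refine mul_le_mul_of_nonneg_right ((card_Bg_le D x hL d _).trans ?_) (hG0 _)
      have h2 : (L : ℝ) ≤ Λ * d := by exact_mod_cast hLd
      have h3 : (L : ℝ) ≤ Λ * ρ0 :=
        h2.trans (mul_le_mul_of_nonneg_left hdρ.le (Nat.cast_nonneg _))
      have h4 : (0 : ℝ) ≤ L := by exact_mod_cast hL
      have h5 : (2 * (L : ℝ) + 1) ^ 2 ≤ (2 * (Λ * ρ0) + 1) ^ 2 :=
        pow_le_pow_left₀ (by linarith) (by linarith) 2
      linarith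
    rw [Ex_mul_left] at h1
    nlinarith

/-- The pieces which separate `z` from `z'`, by scales. -/
theorem card_sps {m : ℤ} (hG : Geo 2 m D p) (hz : z ∈ sites D) (hz' : z' ∈ sites D) {r : ℤ}
    (hr1 : 1 ≤ r) (hrm : r ≤ m) (hzz : nm (z - z') ≤ r) {J : ℕ} (hJ : (2 : ℤ) ^ J ≤ m) (ω : Cfg) :
    (sps D p z z' ω).card ≤ ∑ j ∈ range J, ((Bg D z (3 * 2 ^ (j + 1)) (((2 : ℤ) ^ j : ℤ) : ℝ) ω).card +
      (Bg D z' (3 * 2 ^ (j + 1)) (((2 : ℤ) ^ j : ℤ) : ℝ) ω).card) +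
      (Bg D z (2 * r) (((2 : ℤ) ^ J : ℤ) : ℝ) ω).card := by
  classical
  have hsub : sps D p z z' ω ⊆ ((range J).biUnion fun j =>
      Bg D z (3 * 2 ^ (j + 1)) (((2 : ℤ) ^ j : ℤ) : ℝ) ω ∪
        Bg D z' (3 * 2 ^ (j + 1)) (((2 : ℤ) ^ j : ℤ) : ℝ) ω) ∪
      Bg D z (2 * r) (((2 : ℤ) ^ J : ℤ) : ℝ) ω := by
    intro A hA
    obtain ⟨hA1, hA2⟩ := mem_filter.1 hA
    have hne : sgm D p z z' A ≠ 0 := by
      unfold sgm
      by_cases h1 : Sep D A z p <;> by_cases h2 : Sep D A z' p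
      · exact absurd ⟨fun _ => h2, fun _ => h1⟩ hA2
      · rw [if_pos h1, if_neg h2]; norm_num
      · rw [if_neg h1, if_pos h2]; norm_num
      · exact absurd ⟨fun h => absurd h h1, fun h => absurd h h2⟩ hA2
    rw [mem_union]
    by_cases hS : Small (((2 : ℤ) ^ J : ℤ) : ℝ) A
    · left
      have hS' : Small ((2 : ℝ) ^ J) A := by
        push_cast at hS
        exact hS
      obtain ⟨h3, h4, h5⟩ := cls_spec hA1 hS'
      have h6 : (2 : ℤ) ^ (cls A + 1) ≤ m :=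
        (pow_le_pow_right₀ (by norm_num) (by omega)).trans hJ
      rw [mem_biUnion]
      refine ⟨cls A, mem_range.2 h3, ?_⟩
      obtain ⟨e, he⟩ := pcs_nonempty hA1
      rw [mem_union]
      rcases hG.sgm_near hA1 (one_le_pow₀ (by norm_num) : (1 : ℤ) ≤ 2 ^ (cls A + 1)) h6
        (by push_cast; exact h4) hz hz' hne with h7 | h7
      · left
        refine mem_filter.2 ⟨hA1, ⟨e, he, h7 e he⟩, ?_⟩
        push_cast
        exact h5
      · right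
        refine mem_filter.2 ⟨hA1, ⟨e, he, h7 e he⟩, ?_⟩
        push_cast
        exact h5
    · right
      exact mem_filter.2 ⟨hA1, hG.sgm_visit hr1 hrm hz hz' hzz hne, hS⟩
  refine (card_le_card hsub).trans ((card_union_le _ _).trans (Nat.add_le_add_right ?_ _))
  refine card_biUnion_le.trans (sum_le_sum fun j _ => card_union_le _ _)

/-- **The mean number of the pieces which separate two sites**, with a factor. -/
theorem ex_sps (hQ : 1 ≤ Q) (h : RSW Q) : ∃ C : ℝ, 0 < C ∧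
    ∀ (D : Finset (ℤ × ℤ)) (η : Cfg), Good η → ∀ (p z z' : ℤ × ℤ) (m r R : ℤ) (J : ℕ),
      Geo 2 m D p → z ∈ sites D → z' ∈ sites D → 1 ≤ r → nm (z - z') ≤ r → r ≤ 2 ^ J →
      (2 : ℤ) ^ J ≤ m → 8 * 2 ^ J ≤ R → OC z R D η → ∀ G : Cfg → ℝ, (∀ ω, 0 ≤ G ω) →
      (∀ ω ω' : Cfg, (∀ v, R < nm (v - z) → ω v = ω' v) → G ω = G ω') →
      Ex Q D η (fun ω => G ω * ((sps D p z z' ω).card : ℝ)) ≤ C * (J + 1) * Ex Q D η G := by
  classical
  have hQ0 : 0 < Q := by linarith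
  obtain ⟨C, hC, hcnt⟩ := cnt_w hQ h 6
  refine ⟨2 * C, by positivity, fun D η hη p z z' m r R J hG hz hz' hr1 hzz hrJ hJm hJR hOC G hG0
    hGl => ?_⟩
  have hEG : 0 ≤ Ex Q D η G := Ex_nonneg hQ0 fun S _ => hG0 _
  have hJ1 : (1 : ℤ) ≤ 2 ^ J := one_le_pow₀ (by norm_num)
  have h1 : Ex Q D η (fun ω => G ω * ((sps D p z z' ω).card : ℝ)) ≤
      Ex Q D η (fun ω => ∑ j ∈ range J,
        (G ω * ((Bg D z (3 * 2 ^ (j + 1)) (((2 : ℤ) ^ j : ℤ) : ℝ) ω).card : ℝ) +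
        G ω * ((Bg D z' (3 * 2 ^ (j + 1)) (((2 : ℤ) ^ j : ℤ) : ℝ) ω).card : ℝ)) +
        G ω * ((Bg D z (2 * r) (((2 : ℤ) ^ J : ℤ) : ℝ) ω).card : ℝ)) := by
    refine Ex_mono hQ0 fun S _ => ?_
    have h2 := card_sps hG hz hz' hr1 (hrJ.trans hJm) hzz hJm (cf D η S)
    have h3 : ((sps D p z z' (cf D η S)).card : ℝ) ≤ ∑ j ∈ range J,
        (((Bg D z (3 * 2 ^ (j + 1)) (((2 : ℤ) ^ j : ℤ) : ℝ) (cf D η S)).card : ℝ) +
        ((Bg D z' (3 * 2 ^ (j + 1)) (((2 : ℤ) ^ j : ℤ) : ℝ) (cf D η S)).card : ℝ)) +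
        ((Bg D z (2 * r) (((2 : ℤ) ^ J : ℤ) : ℝ) (cf D η S)).card : ℝ) := by exact_mod_cast h2
    refine (mul_le_mul_of_nonneg_left h3 (hG0 _)).trans (le_of_eq ?_)
    rw [mul_add, mul_sum]
    congr 1
    exact sum_congr rfl fun j _ => mul_add _ _ _
  have e : Ex Q D η (fun ω => ∑ j ∈ range J,
        (G ω * ((Bg D z (3 * 2 ^ (j + 1)) (((2 : ℤ) ^ j : ℤ) : ℝ) ω).card : ℝ) +
        G ω * ((Bg D z' (3 * 2 ^ (j + 1)) (((2 : ℤ) ^ j : ℤ) : ℝ) ω).card : ℝ)) +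
        G ω * ((Bg D z (2 * r) (((2 : ℤ) ^ J : ℤ) : ℝ) ω).card : ℝ)) =
      ∑ j ∈ range J,
        (Ex Q D η (fun ω => G ω * ((Bg D z (3 * 2 ^ (j + 1)) (((2 : ℤ) ^ j : ℤ) : ℝ) ω).card : ℝ)) +
        Ex Q D η (fun ω =>
          G ω * ((Bg D z' (3 * 2 ^ (j + 1)) (((2 : ℤ) ^ j : ℤ) : ℝ) ω).card : ℝ))) +
        Ex Q D η (fun ω => G ω * ((Bg D z (2 * r) (((2 : ℤ) ^ J : ℤ) : ℝ) ω).card : ℝ)) := by
    rw [Ex_add, Ex_sum]
    congr 1
    exact sum_congr rfl fun j _ => Ex_add _ _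
  rw [e] at h1
  have hGl' : ∀ ω ω' : Cfg, (∀ v, R - r < nm (v - z') → ω v = ω' v) → G ω = G ω' := by
    intro ω ω' hω
    refine hGl ω ω' fun v hv => hω v ?_
    have h5 := H45.nm_sub_le v z' z
    rw [H45.nm_sub_comm z' z] at h5
    linarith
  have hOC' : OC z' (R - r) D η := hOC.shift (by linarith)
  have hsc : ∀ j ∈ range J, 2 * (2 : ℤ) ^ j ≤ 2 ^ J := by
    intro j hj
    rw [mem_range] at hj
    rw [← pow_succ']
    exact pow_le_pow_right₀ (by norm_num) hj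
  have h2 : ∀ j ∈ range J,
      (Ex Q D η (fun ω => G ω * ((Bg D z (3 * 2 ^ (j + 1)) (((2 : ℤ) ^ j : ℤ) : ℝ) ω).card : ℝ)) +
      Ex Q D η (fun ω =>
        G ω * ((Bg D z' (3 * 2 ^ (j + 1)) (((2 : ℤ) ^ j : ℤ) : ℝ) ω).card : ℝ))) ≤
      2 * C * Ex Q D η G := by
    intro j hj
    have h3 := hsc j hj
    have h4 : (1 : ℤ) ≤ 2 ^ j := one_le_pow₀ (by norm_num)
    have h5 : (3 : ℤ) * 2 ^ (j + 1) = 6 * 2 ^ j := by rw [pow_succ]; ring
    have k1 := hcnt D η hη z (3 * 2 ^ (j + 1)) (2 ^ j) R (by positivity) h4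
      (by rw [h5]; push_cast; rfl) (by rw [h5]; linarith) hOC G hG0 hGl
    have k2 := hcnt D η hη z' (3 * 2 ^ (j + 1)) (2 ^ j) (R - r) (by positivity) h4
      (by rw [h5]; push_cast; rfl) (by rw [h5]; linarith) hOC' G hG0 hGl'
    linarith
  have h3 : Ex Q D η (fun ω => G ω * ((Bg D z (2 * r) (((2 : ℤ) ^ J : ℤ) : ℝ) ω).card : ℝ)) ≤
      C * Ex Q D η G :=
    hcnt D η hη z (2 * r) (2 ^ J) R (by linarith) hJ1 (by push_cast; linarith) (by linarith) hOC G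
      hG0 hGl
  have h4 := sum_le_sum h2
  rw [sum_const, card_range, nsmul_eq_mul] at h4
  have h5 : 0 ≤ C * Ex Q D η G := by positivity
  linarith

end Vale.Agent.P167.H760.Q
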