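import Vale.Agent.P167.H760.Q.Bs2

/-!
# P167, general `q`, block Q-TWO: a majorant of the terms, with a factor

`maj_w`: the terms of the potentials of all Dobrushin functionals of `S.D n` have a common majorant which
reads only the deep squares, with bounded moments in all laws, also with a factor which does not read the
deep squares.
-/

namespace Vale.Agent.P167.H760.Q

open Finset Filter Topology Relation Vale.Agent.P167.BR Vale.Agent.P167.FK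
open Vale.Agent.P167.E6 (IsPolygon Encloses)
open Vale.Agent.P167.H562.SML
open Vale.Agent.P167.H562.MAJ (Sm near_site fsum_eq mem_fat_iff)
open Vale.Agent.P167.H562.QM (MajA YQ YQ_mom YQ_pos Nr oneC_sub)
open Vale.Agent.P167.H436 (ero)
open Vale.Agent.P167.H542.Q (BD cB cB_pos thB wR wR')
open Vale.Agent.P167.H365.NQ (XW TW)
open Vale.Agent.P167.H718 (Dob wn wn')
open Vale.Agent.P167.CA (cms)
open Vale.Agent.P167.H852.Q (nm_tri nm_cm exists_zn Zn TIn Sm_congr)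

variable {S : CA.Dat} {θ β : ℝ} {f : ℂ → ℝ}

/-- All squares within distance `r` of `v` are in `D`. -/
def Dp (D : Finset (ℤ × ℤ)) (r : ℝ) (v : ℤ × ℤ) : Prop := ∀ w, (nm (w - v) : ℝ) ≤ r → w ∈ D

/-- A factor which does not read the deep squares. -/
def NoDp (D : Finset (ℤ × ℤ)) (r : ℝ) (G : Cfg → ℝ) : Prop :=
  ∀ ω ω' : Cfg, (∀ v, ¬ Dp D r v → ω v = ω' v) → G ω = G ω'

/-- A function which reads only the deep squares. -/
def OnDp (D : Finset (ℤ × ℤ)) (r : ℝ) (Y : Cfg → ℝ) : Prop :=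
  ∀ ω ω' : Cfg, (∀ v, Dp D r v → ω v = ω' v) → Y ω = Y ω'

/-- The terms of the potential. -/
theorem tmR_eq {N k : ℕ} {q : ZMod N → ℤ × ℤ} {D : Finset (ℤ × ℤ)} {g : ℤ × ℤ → ℝ} {ω : Cfg}
    {A : Finset Ed} (hq : IsPolygon q) (hD : Encloses q D) (hA : A ∈ pcs ω D) :
    tmR (thB θ β q D k) D (q 0) g ω A = TW D (wn θ β q D k g) (wn' θ β q D k g) ω A := by
  classical
  unfold tmR TW
  rw [(wn_thB hq hD hA).2]
  congr 1
  exact prod_congr rfl fun B hB => (wn_thB hq hD (mem_of_mem_erase hB)).1.symm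

/-- **The majorant of the terms.** -/
theorem maj_w (h0 : 0 < θ) (h1 : θ ≤ Real.pi / 3) (hβ : Real.cos (θ / 2 + β) = Real.sin θ)
    (hRSW : RSW (2 * Real.cos θ)) (hf : S.FF f) : ∃ κ C : ℝ, 0 < κ ∧ 0 < C ∧
    ∀ᶠ n : ℕ in atTop, ∃ Y : Cfg → ℝ, (∀ ω, 0 ≤ Y ω) ∧ OnDp (S.D n) (κ * n) Y ∧
      (∀ (N : ℕ) (q : ZMod N → ℤ × ℤ) (k : ℕ), IsPolygon q → Encloses q (S.D n) → ∀ ω,
        ∀ A ∈ pcs ω (S.D n),
        |tmR (thB θ β q (S.D n) k) (S.D n) (q 0) (cms f (1 / n)) ω A| ≤ Y ω) ∧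
      ∀ η, Good η → ∀ G : Cfg → ℝ, (∀ ω, 0 ≤ G ω) → NoDp (S.D n) (κ * n) G →
        Ex (2 * Real.cos θ) (S.D n) η (fun ω => G ω * Y ω) ≤
          C * Ex (2 * Real.cos θ) (S.D n) η G := by
  classical
  have hQ1 : 1 ≤ 2 * Real.cos θ := BD.one_le h0 h1
  have hQ0 : 0 < 2 * Real.cos θ := by linarith
  obtain ⟨ht0, ht2⟩ := H562.QM.tan_bd h0 h1
  obtain ⟨κ0, Mf, R1, hκ0, hMf0, hR1, hZn⟩ := exists_zn hf
  obtain ⟨κ, hκ, hκ1, hκ2⟩ : ∃ κ : ℝ, 0 < κ ∧ κ ≤ κ0 / 80 ∧ κ ≤ 1 / (2 * (Mf + 1)) :=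
    ⟨min (κ0 / 80) (1 / (2 * (Mf + 1))), by positivity, min_le_left _ _, min_le_right _ _⟩
  obtain ⟨M, hM2, hM⟩ : ∃ M : ℝ, 2 ≤ M ∧ (cB θ)⁻¹ ≤ M := ⟨max 2 _, le_max_left _ _, le_max_right _ _⟩
  obtain ⟨al, Ca, hal, hCa, hArm, -⟩ := FKA.arm_fk hQ1 hRSW
  obtain ⟨P, hP⟩ := H519.exists_lim hQ1 hal hArm
  obtain ⟨ε, C, ρ0, hε, hC, hρ0, H⟩ := YQ_mom hQ1 hRSW hP κ (R1 + 1) (Mf + 1) 1 M 0 hκ
    (by linarith) (by linarith) zero_le_one (by linarith)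
  refine ⟨κ0 / 2, 3 * M * C, by positivity, by positivity, ?_⟩
  have hev : ∀ᶠ n : ℕ in atTop, ρ0 ≤ (n : ℝ) := tendsto_natCast_atTop_atTop.eventually_ge_atTop _
  filter_upwards [hZn κ0 hκ0 le_rfl κ hκ hκ1 hκ2, hev] with n hZ hn
  obtain ⟨Z, hZe⟩ : ∃ Z, Z = ero S.Q n ⌊κ0 * (n : ℝ)⌋ := ⟨_, rfl⟩
  rw [← hZe] at hZ
  obtain ⟨N, hN1, hN2, hN3⟩ := H n hn 0 (fat Z 1) (fun v hv => hZ.rad' hv) (fun i => i.elim0)
  have hY0 : ∀ ω, 0 < YQ M (Real.tan θ) N (cms f (1 / (n : ℝ))) (κ * n) ω :=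
    fun ω => YQ_pos (by linarith) _ _ _ _ _
  have k3 := hZ.κn
  have k4 := hZ.κ0n
  have k5 := hZ.k2
  -- near the zone the squares are deep
  have hdp : ∀ v : ℤ × ℤ, (∃ u ∈ Z, (nm (v - u) : ℝ) ≤ 33 * κ * n + 1) → Dp (S.D n) (κ0 / 2 * n) v := by
    rintro v ⟨u, hu, h2⟩ w hw
    refine hZ.near u hu w ?_
    have h4 := nm_tri w v u
    linarith
  have hnr : ∀ v, Nr (fat Z 1) (κ * n) v → Dp (S.D n) (κ0 / 2 * n) v := fun v hv => hdp v (by
    obtain ⟨u, hu, h⟩ := hZ.nrk hv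
    exact ⟨u, hu, by linarith⟩)
  refine ⟨fun ω => 3 * M * YQ M (Real.tan θ) N (cms f (1 / (n : ℝ))) (κ * n) ω, fun ω => by
    have := hY0 ω
    positivity, ?_, ?_, ?_⟩
  · intro ω ω' hw
    have e1 : N ω = N ω' := hN1 ω ω' fun v hv _ => hw v (hnr v hv)
    have e2 : Sm (cms f (1 / (n : ℝ))) (κ * n) ω = Sm (cms f (1 / (n : ℝ))) (κ * n) ω' :=
      Sm_congr hZ.supp fun v hv => hw v (hdp v (by
        obtain ⟨u, hu, h⟩ := hv
        exact ⟨u, hu, by linarith⟩))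
    show 3 * M * YQ M (Real.tan θ) N (cms f (1 / (n : ℝ))) (κ * n) ω =
      3 * M * YQ M (Real.tan θ) N (cms f (1 / (n : ℝ))) (κ * n) ω'
    unfold YQ
    rw [e1, e2]
  · intro N' q k hq hD ω A hA
    have hPt := hZ.ptw (m := k) hMf0 h0 h1 hβ hq hD hM2 hM
    have h2 := hPt.TW_le (fun ω => H852.Q.card_bigs (hN2 ω)) hA (fun h => h)
    have hT1 : TIn (S.D n) (wn θ β q (S.D n) k (cms f (1 / (n : ℝ)))) (fun _ => False) ω = 1 := by
      unfold TIn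
      simp
    rw [hT1, one_mul] at h2
    rw [tmR_eq hq hD hA]
    exact h2
  · intro η hη G hG0 hG
    have e : ∀ ω, G ω * (3 * M * YQ M (Real.tan θ) N (cms f (1 / (n : ℝ))) (κ * n) ω) =
        3 * M * (G ω * YQ M (Real.tan θ) N (cms f (1 / (n : ℝ))) (κ * n) ω) := fun ω => by ring
    simp only [e]
    rw [FKA.Ex_mul_left, mul_assoc (3 * M) C]
    refine mul_le_mul_of_nonneg_left ?_ (by linarith)
    have h2 := hN3 (S.D n) η hη (fun y a _ hy => oneC_sub fun v hv => by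
        refine hnr v (hy v hv) v ?_
        have : (nm (v - v) : ℝ) = 0 := by simp [nm]
        rw [this]
        positivity) (cms f (1 / (n : ℝ))) hZ.bd1 (fun z hz => hZ.rads hz)
      (fun z hz v hv => hZ.nbh hz hv) G hG0
      (fun ω ω' hω => hG ω ω' fun v hv => hω v fun h3 => hv (by
        rcases h3.2 with h4 | ⟨z, hz, h4⟩
        · exact hnr v h4
        · obtain ⟨u, hu, h5⟩ := near_site (hZ.supp z hz)
          have h5' : (nm (z - u) : ℝ) ≤ 1 := by exact_mod_cast h5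
          have h6 := nm_tri v z u
          exact hdp v ⟨u, hu, by linarith⟩))
      (Real.tan θ) 1 ht0 ht2 zero_le_one le_rfl
    rw [hZ.sum0, mul_zero, zero_mul, neg_zero, Real.exp_zero, mul_one] at h2
    simpa only [Real.rpow_one] using h2

end Vale.Agent.P167.H760.Q
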