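import Vale.Agent.P167.H760.Q.Bs3
import Vale.Agent.P167.CAQ.J6
import Vale.Agent.P167.H167.MajDat

/-!
# P167, general `q`, block Q-TWO: the next base point, comparison of the increments

`cmp_n`: for wired and free boundary conditions the increments of the potentials with the bases `q 0` and
`q 1` far from the base differ by a power of the scale.
-/

namespace Vale.Agent.P167.H760.Q

open Finset Filter Topology Relation Vale.Agent.P167.BR Vale.Agent.P167.FK Vale.Agent.P167.FKA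
open Vale.Agent.P167.E6 (IsPolygon Encloses)
open Vale.Agent.P167.H542.Q (BD cB cB_pos thB wR wR' XTR phs_thB)
open Vale.Agent.P167.H718 (Dob)
open Vale.Agent.P167.CA (cms)
open Vale.Agent.P167.H167 (Geo Wi tot)
open Vale.Agent.P167.CAQ.J (OC Fz ArmB ArcB exists_fz ex_dob arm_piece arm_b oc_of_fz geo_poly
  chordless_enl nm_be)

variable {S : CA.Dat} {θ β : ℝ} {f : ℂ → ℝ}

theorem OnDp.ind {D : Finset (ℤ × ℤ)} {r : ℝ} {Y : Cfg → ℝ} (hY : OnDp D r Y) {z v0 : ℤ × ℤ}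
    (h0 : v0 ∉ D) (h1 : nm (v0 - z) ≤ 1) {R : ℤ} (hR : (R : ℝ) + 1 ≤ r) {ω ω' : Cfg}
    (h : ∀ v, R < nm (v - z) → ω v = ω' v) : Y ω = Y ω' := by
  refine hY ω ω' fun v hv => h v ?_
  by_contra hcon
  push Not at hcon
  refine h0 (hv v0 ?_)
  have h2 := H45.nm_sub_le v0 z v
  rw [H45.nm_sub_comm z v] at h2
  have h3 : nm (v0 - v) ≤ R + 1 := by linarith
  have h4 : (nm (v0 - v) : ℝ) ≤ R + 1 := by exact_mod_cast h3
  linarith

/-- A square outside of the domain next to a boundary site. -/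
theorem exists_out_base {N : ℕ} {q : ZMod N → ℤ × ℤ} {D : Finset (ℤ × ℤ)} (hq : IsPolygon q)
    (hD : Encloses q D) (i : ZMod N) : ∃ v0, v0 ∉ D ∧ nm (v0 - q i) ≤ 1 := by
  obtain ⟨r, hr⟩ := hq.2.2 i
  refine ⟨_, ((hD (q i) r).1 ⟨i, rfl, hr⟩).2, ?_⟩
  have : ∀ r : Fin 4, nm (E6.face (q i) r - q i) ≤ 1 := by
    intro r
    have e : E6.face (q i) r - q i = ![(0, 0), (-1, 0), (-1, -1), (0, -1)] r := by
      unfold E6.face; abel
    rw [e]
    fin_cases r <;> decide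
  exact this _

/-- The locality of the arms. -/
theorem armB_congr (b : Bool) {x : ℤ × ℤ} {r R : ℤ} {ω ω' : Cfg}
    (h : ∀ v, nm (v - x) ≤ R → ω v = ω' v) : ArmB b x r R ω ↔ ArmB b x r R ω' := by
  have hB : ∀ v ∈ Bq x R, ω v = ω' v := fun v hv => h v (by
    rw [H167.Q.mem_Bq] at hv
    simp only [nm, Prod.fst_sub, Prod.snd_sub, max_le_iff, abs_le]
    omega)
  unfold ArmB
  cases b
  · rw [if_neg (by simp), if_neg (by simp), arm_dual, arm_dual]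
    have hB' : ∀ v ∈ Bq (FKA.sh x) R, du ω v = du ω' v := by
      intro v hv
      show (!ω (shi v)) = !ω' (shi v)
      rw [hB (shi v) (by rw [← mem_Bq_sh]; exact hv)]
    exact ⟨arm_loc _ _ _ hB', arm_loc _ _ _ fun v hv => (hB' v hv).symm⟩
  · rw [if_pos rfl, if_pos rfl]
    exact ⟨arm_loc _ _ _ hB, arm_loc _ _ _ fun v hv => (hB v hv).symm⟩

theorem loc_xtr {D : Finset (ℤ × ℤ)} (th : Finset Ed → ℝ) (p z : ℤ × ℤ) (g : ℤ × ℤ → ℝ) :
    Loc D (XTR th D p g z) := by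
  classical
  intro ω ω' h
  unfold XTR
  rw [pcs_congr h]

/-- **The comparison of the increments at one scale.** -/
theorem cmp_n (h0 : 0 < θ) (h1 : θ ≤ Real.pi / 3) (hβ : Real.cos (θ / 2 + β) = Real.sin θ)
    (hRSW : RSW (2 * Real.cos θ)) (hf : S.FF f) : ∃ κ C α : ℝ, 0 < κ ∧ 0 < C ∧ 0 < α ∧
    ∀ᶠ n : ℕ in atTop, ∀ (N : ℕ) (q : ZMod N → ℤ × ℤ) (k : ℕ) (η : Cfg), IsPolygon q →
      Encloses q (S.D n) → (k = 0 ∨ k = N) → Dob η (S.D n) q k → ∀ (s R r : ℤ) (J : ℕ)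
      (z z' v0 : ℤ × ℤ), 2 ≤ s → 2 * (s : ℝ) + 1 ≤ κ * n → 16 * s ≤ n → (R : ℝ) + 1 ≤ κ * n →
      16 * R ≤ n → 8 * (2 : ℤ) ^ J ≤ R → 1 ≤ r → r ≤ 2 ^ J → z ∈ sites (S.D n) →
      z' ∈ sites (S.D n) → nm (z - z') ≤ r → v0 ∉ S.D n → nm (v0 - z) ≤ 1 →
      R + 4 * s < nm (z - q 0) →
      |(Ex (2 * Real.cos θ) (S.D n) η (XTR (thB θ β q (S.D n) k) (S.D n) (q 0) (cms f (1 / n)) z) -
        Ex (2 * Real.cos θ) (S.D n) η (XTR (thB θ β q (S.D n) k) (S.D n) (q 0) (cms f (1 / n)) z')) -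
        (Ex (2 * Real.cos θ) (S.D n) η
          (XTR (thB θ β (nb q) (S.D n) k) (S.D n) (nb q 0) (cms f (1 / n)) z) -
        Ex (2 * Real.cos θ) (S.D n) η
          (XTR (thB θ β (nb q) (S.D n) k) (S.D n) (nb q 0) (cms f (1 / n)) z'))| ≤
        C * (J + 1) * (2 / (s : ℝ)) ^ α := by
  classical
  have hQ1 : 1 ≤ 2 * Real.cos θ := BD.one_le h0 h1
  have hQ0 : 0 < 2 * Real.cos θ := by linarith
  obtain ⟨κ1, C1, hκ1, hC1, hmaj⟩ := maj_w h0 h1 hβ hRSW hf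
  obtain ⟨κ2, hκ2, hdeep⟩ := H167.deep_dat S hf.1
  obtain ⟨α, Ca, hα, hCa, harm, -⟩ := FKA.arm_fk hQ1 hRSW
  obtain ⟨C2, hC2, hsps⟩ := ex_sps hQ1 hRSW
  refine ⟨min κ1 κ2, 2 * C2 * C1 * Ca, α, lt_min hκ1 hκ2, by positivity, hα, ?_⟩
  filter_upwards [hmaj, hdeep, eventually_gt_atTop 0] with n hY hdp hn N q k η hq hD hk hη s R r J z z' v0
    hs2 hsκ hsn hRκ hRn hJR hr1 hrJ hz hz' hzz hv0 hv0z hfar
  obtain ⟨Y, hY0, hYd, hYt, hYm⟩ := hY
  have hn' : (0 : ℝ) < n := by exact_mod_cast hn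
  have hκ1n : min κ1 κ2 * n ≤ κ1 * n := mul_le_mul_of_nonneg_right (min_le_left _ _) hn'.le
  have hκ2n : min κ1 κ2 * n ≤ κ2 * n := mul_le_mul_of_nonneg_right (min_le_right _ _) hn'.le
  have hJ1 : (1 : ℤ) ≤ 2 ^ J := one_le_pow₀ (by norm_num)
  have hkn : k ≤ N := by rcases hk with h | h <;> omega
  -- the arc
  obtain ⟨b, hb⟩ : ∃ b : Bool, ∀ (y : ℤ × ℤ) (T : ℤ), ArcB b q k y T := by
    rcases hk with h | h
    · exact ⟨false, fun y T j _ _ => by rw [if_neg (by simp)]; omega⟩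
    · exact ⟨true, fun y T j hj _ => by rw [if_pos rfl]; omega⟩
  have hch := chordless_enl S.poly S.enc (N := n) (by omega) hq hD
  obtain ⟨ξ, hξ, hfz⟩ := exists_fz (z := q 0) (R := s + (R + 1) + nm (q 0 - z)) hq hD hch (hb _ _)
  have hnn : 0 ≤ nm (q 0 - z) := (abs_nonneg _).trans (le_max_left _ _)
  have hfz0 : Fz b (q 0) s (S.D n) ξ := hfz.mono (by linarith)
  have hfzz : Fz b z (R + 1) (S.D n) ξ := hfz.shift (by linarith)
  have hOC : OC z R (S.D n) ξ :=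
    oc_of_fz S.poly S.enc hn (R := R + 1) (by linarith) (by linarith) hfzz
  -- geometry
  have hgeo : ∀ i, Geo 2 s (S.D n) (q i) := fun i =>
    geo_poly S.poly S.enc hq hD (m := s) (by linarith) hsn i
  have hgeoR : ∀ i, Geo 2 R (S.D n) (q i) := fun i =>
    geo_poly S.poly S.enc hq hD (m := R) (by linarith) hRn i
  obtain ⟨v1, hv1, hv1q⟩ := exists_out_base hq hD 0
  have htot : tot (S.D n) (cms f (1 / (n : ℝ))) = 0 := H542.Dt.tot_cms S hf hn
  have hzq : 2 * s < nm (z - q 0) := by linarith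
  have hzq' : 2 * s < nm (z' - q 0) := by
    have h2 := H45.nm_sub_le z z' (q 0)
    linarith
  have hfq : ∀ y ∈ sites (S.D n), cms f (1 / (n : ℝ)) y ≠ 0 → 2 * s < nm (y - q 0) := by
    intro y _ hy
    by_contra hcon
    push Not at hcon
    refine hv1 (hdp y hy v1 ?_)
    have h2 := H45.nm_sub_le v1 (q 0) y
    rw [H45.nm_sub_comm (q 0) y] at h2
    have h3 : nm (v1 - y) ≤ 2 * s + 1 := by linarith
    have h4 : (nm (v1 - y) : ℝ) ≤ 2 * s + 1 := by exact_mod_cast h3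
    linarith
  -- the factor
  obtain ⟨I, hI⟩ : ∃ I : Cfg → ℝ, I = ({ω | ArmB b (q 0) 2 s ω} : Set Cfg).indicator 1 := ⟨_, rfl⟩
  have hI0 : ∀ ω, 0 ≤ I ω := fun ω => by rw [hI]; exact ind_nonneg _ _
  have hIc : ∀ ω ω' : Cfg, (∀ v, nm (v - q 0) ≤ s → ω v = ω' v) → I ω = I ω' := by
    intro ω ω' h
    have h2 := armB_congr b (r := 2) h
    rw [hI]
    by_cases h3 : ArmB b (q 0) 2 s ω
    · rw [Set.indicator_of_mem (show ω ∈ {ω | ArmB b (q 0) 2 s ω} from h3),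
        Set.indicator_of_mem (show ω' ∈ {ω | ArmB b (q 0) 2 s ω} from h2.1 h3)]
      rfl
    · rw [Set.indicator_of_notMem (show ω ∉ {ω | ArmB b (q 0) 2 s ω} from h3),
        Set.indicator_of_notMem (show ω' ∉ {ω | ArmB b (q 0) 2 s ω} from fun h4 => h3 (h2.2 h4))]
  obtain ⟨G, hG⟩ : ∃ G : Cfg → ℝ, G = fun ω => I ω * Y ω := ⟨_, rfl⟩
  have hG0 : ∀ ω, 0 ≤ G ω := fun ω => by rw [hG]; exact mul_nonneg (hI0 ω) (hY0 ω)
  have hs0 : (0 : ℝ) < s := by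
    have : (0 : ℤ) < s := by linarith
    exact_mod_cast this
  -- the probability of an arm
  have e1 : Ex (2 * Real.cos θ) (S.D n) ξ I ≤ Ca * (2 / (s : ℝ)) ^ α := by
    have h2 := arm_b hQ1 harm b (r := 2) (by norm_num) hs2 hξ.good hfz0 (F := fun _ => 1)
      (fun _ => zero_le_one) (fun _ _ _ => rfl)
    rw [Ex_const hQ0, mul_one] at h2
    rw [hI]
    simpa using h2
  have e2 : Ex (2 * Real.cos θ) (S.D n) ξ G ≤ C1 * (Ca * (2 / (s : ℝ)) ^ α) := by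
    refine le_trans ?_ (mul_le_mul_of_nonneg_left e1 hC1.le)
    rw [hG]
    refine hYm ξ hξ.good I hI0 fun ω ω' h => hIc ω ω' fun v hv => h v fun hdv => hv1 (hdv v1 ?_)
    have h2 := H45.nm_sub_le v1 (q 0) v
    rw [H45.nm_sub_comm (q 0) v] at h2
    have h3 : nm (v1 - v) ≤ s + 1 := by linarith
    have h4 : (nm (v1 - v) : ℝ) ≤ s + 1 := by exact_mod_cast h3
    linarith
  have hGl : ∀ ω ω' : Cfg, (∀ v, R < nm (v - z) → ω v = ω' v) → G ω = G ω' := by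
    intro ω ω' h
    rw [hG]
    show I ω * Y ω = I ω' * Y ω'
    rw [hYd.ind hv0 hv0z (hRκ.trans hκ1n) h, hIc ω ω' fun v hv => h v (by
      have h2 := H45.nm_sub_le z v (q 0)
      rw [H45.nm_sub_comm z v] at h2
      linarith)]
  have hcnt : ∀ i : ZMod N, Ex (2 * Real.cos θ) (S.D n) ξ
      (fun ω => G ω * ((sps (S.D n) (q i) z z' ω).card : ℝ)) ≤
      C2 * (J + 1) * (C1 * (Ca * (2 / (s : ℝ)) ^ α)) := fun i =>
    (hsps (S.D n) ξ hξ.good (q i) z z' R r R J (hgeoR i) hz hz' hr1 hzz hrJ (by linarith) hJR hOC G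
      hG0 hGl).trans (mul_le_mul_of_nonneg_left e2 (by positivity))
  -- the difference
  obtain ⟨F, hF⟩ : ∃ F : Cfg → ℝ, F = fun ω =>
      (XTR (thB θ β q (S.D n) k) (S.D n) (q 0) (cms f (1 / n)) z ω -
        XTR (thB θ β q (S.D n) k) (S.D n) (q 0) (cms f (1 / n)) z' ω) -
      (XTR (thB θ β (nb q) (S.D n) k) (S.D n) (nb q 0) (cms f (1 / n)) z ω -
        XTR (thB θ β (nb q) (S.D n) k) (S.D n) (nb q 0) (cms f (1 / n)) z' ω) := ⟨_, rfl⟩
  have hFloc : Loc (S.D n) F := by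
    intro ω ω' h
    rw [hF]
    simp only [loc_xtr _ _ _ _ ω ω' h]
  rw [← Ex_sub, ← Ex_sub, ← Ex_sub, ← hF, ex_dob hq hD hkn hη hξ hQ0 hFloc]
  have hq0 : nb q 0 = q 1 := nb_zero q
  have hpt : ∀ ω, |F ω| ≤ G ω * ((sps (S.D n) (q 0) z z' ω).card : ℝ) +
      G ω * ((sps (S.D n) (q 1) z z' ω).card : ℝ) := by
    intro ω
    by_cases hsm : ∃ A ∈ pcs ω (S.D n), be q 0 ∈ A ∧ ∃ e ∈ A, s < nm (hdv e - q 0)
    · obtain ⟨A, hA, hA0, e, he, hes⟩ := hsm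
      have harmω : ArmB b (q 0) 2 s ω :=
        arm_piece b hA hA0 he (r := 1) (R := s + 1) (nm_be hq hD 0) (by linarith) (by norm_num)
          (by linarith) hs2
      have hIω : I ω = 1 := by
        rw [hI, Set.indicator_of_mem (show ω ∈ {ω | ArmB b (q 0) 2 s ω} from harmω)]
        rfl
      have hGω : G ω = Y ω := by rw [hG]; show I ω * Y ω = Y ω; rw [hIω, one_mul]
      rw [hF, hGω]
      refine (abs_sub _ _).trans ?_
      have h2 := abs_xtr_sub (z := z) (z' := z') (hYt N q k hq hD ω)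
      have h3 := abs_xtr_sub (z := z) (z' := z') (hYt N (nb q) k (nb_poly hq) (nb_enc hD) ω)
      rw [hq0] at h3 ⊢
      rw [mul_comm (Y ω), mul_comm (Y ω)]
      exact add_le_add h2 h3
    · push Not at hsm
      have hz0 : F ω = 0 := by
        rw [hF]
        show _ - _ = (0 : ℝ)
        have hcs : ∀ q' : ZMod N → ℤ × ℤ, ∀ A, Real.cos (thB θ β q' (S.D n) k A) ≠ 0 := fun q' A =>
          (lt_of_lt_of_le (cB_pos h0 h1) ((phs_thB (q := q') (D := S.D n) (k := k) h0 h1 hβ).cs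
            A)).ne'
        rw [nb_xtr hq hD hk (hcs q) (hcs (nb q)) fun A hA hA0 => ?_, sub_self]
        have hW : Wi (q 0) s A := fun e he => hsm A hA hA0 e he
        have hs1 : (1 : ℤ) ≤ s := by linarith
        refine ⟨⟨(hgeo 0).sep_far hs1 le_rfl hW hz hz' hzq hzq',
          (hgeo 0).sep_far hs1 le_rfl hW hz' hz hzq' hzq⟩, ?_,
          mass_far (hgeo 0) hs1 le_rfl hW hfq htot, ?_⟩
        · rw [hq0]
          exact ⟨(hgeo 1).sep_far hs1 le_rfl hW hz hz' hzq hzq',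
            (hgeo 1).sep_far hs1 le_rfl hW hz' hz hzq' hzq⟩
        · rw [hq0]
          exact mass_far (hgeo 1) hs1 le_rfl hW hfq htot
      rw [hz0, abs_zero]
      have := hG0 ω
      positivity
  have hm : Ex (2 * Real.cos θ) (S.D n) ξ (fun ω => |F ω|) ≤
      Ex (2 * Real.cos θ) (S.D n) ξ (fun ω => G ω * ((sps (S.D n) (q 0) z z' ω).card : ℝ) +
        G ω * ((sps (S.D n) (q 1) z z' ω).card : ℝ)) := Ex_mono hQ0 fun T _ => hpt _
  rw [Ex_add] at hm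
  refine (abs_Ex_le hQ0 _).trans (hm.trans ?_)
  have h2 := hcnt 0
  have h3 := hcnt 1
  calc _ ≤ C2 * (J + 1) * (C1 * (Ca * (2 / (s : ℝ)) ^ α)) +
        C2 * (J + 1) * (C1 * (Ca * (2 / (s : ℝ)) ^ α)) := add_le_add h2 h3
    _ = _ := by ring

end Vale.Agent.P167.H760.Q
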