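import Vale.Agent.P167.H760.Q.Bs4
import Vale.Agent.P167.H760.Q.Asm

/-!
# P167, general `q`, block Q-TWO: the next base point, comparison of the fluxes; `NeuH`

`NeuH`: the averaged Neumann condition of a function at all sides. `cmp_flx`: for wired and for free
boundary conditions the fluxes for the bases `q 0` and `q 1` are asymptotically the same.
-/

namespace Vale.Agent.P167.H760.Q

open Finset Filter Topology Relation Vale.Agent.P167.BR Vale.Agent.P167.FK Vale.Agent.P167.FKA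
open Vale.Agent.P167.E6 (IsPolygon Encloses)
open Vale.Agent.P167.H542.Q (BD cB cB_pos thB wR wR' XTR phs_thB)
open Vale.Agent.P167.H718 (Dob)
open Vale.Agent.P167.CA (cms)
open Vale.Agent.P167.H365.NQ (NREDQ)
open Vale.Agent.P167.H760
open scoped ContDiff

variable {S : CA.Dat} {θ β : ℝ} {f : ℂ → ℝ}

/-- **The averaged Neumann condition of a function at all sides.** -/
def NeuH (S : CA.Dat) (L : Filter ℕ) (H : ℕ → ℤ × ℤ → ℝ) : Prop :=
  ∀ (w : ℤ × ℤ) (r : Fin 4), E6.face w r ∈ S.Q → E6.face w (r - 1) ∉ S.Q → ∀ φ : ℝ → ℝ,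
    ContDiff ℝ ∞ φ → tsupport φ ⊆ Set.Ioo 0 1 \ {S.tp} → ∀ ε : ℝ, 0 < ε →
    ∃ r₀ > 0, ∀ h : ℝ, 0 < h → h < r₀ → ∀ᶠ n : ℕ in L,
      |(∑ x ∈ range n, φ (x / n) * flx n w r ⌊h * n⌋₊ (H n) x) / n| ≤ ε * h

/-- From the local input. -/
theorem neuh_of_two {Q : ℝ} (hQ : 0 < Q) (hN : ∀ t, NREDQ Q t 8) {L : Filter ℕ} (hL : L ≤ atTop)
    {H : ℕ → ℤ × ℤ → ℝ} (hT : TwoAll Q S L H) : NeuH S L H :=
  fun w r h1 h2 φ hφ hs ε hε => neuH hQ hN hL S.tp0 S.tp1 (hT w r h1 h2).1 (hT w r h1 h2).2 φ hφ hs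
    ε hε

/-- **Two functions with asymptotically the same fluxes.** -/
theorem neuh_cmp {L : Filter ℕ} (hL : L ≤ atTop) {H H' : ℕ → ℤ × ℤ → ℝ} (hH : NeuH S L H')
    (hc : ∀ δ : ℝ, 0 < δ → ∃ c : ℝ, 0 < c ∧ ∀ ε : ℝ, 0 < ε → ∀ᶠ n : ℕ in L, ∀ (w : ℤ × ℤ)
      (r : Fin 4), E6.face w r ∈ S.Q → E6.face w (r - 1) ∉ S.Q → ∀ x : ℤ, δ * n ≤ x →
      (x : ℝ) ≤ (1 - δ) * n → δ * n ≤ |x - S.tp * n| → ∀ k : ℕ, (k : ℝ) ≤ c * n →
      |flx n w r k (H n) x - flx n w r k (H' n) x| ≤ ε) : NeuH S L H := by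
  intro w r h1 h2 φ hφ hs ε hε
  obtain ⟨δ, A, hδ, hδ1, hA, hφ1, hφ2, hφ3⟩ := exists_margin hφ hs
  obtain ⟨c, hc0, hc⟩ := hc δ hδ
  obtain ⟨r1, hr1, H1⟩ := hH w r h1 h2 φ hφ hs (ε / 2) (half_pos hε)
  refine ⟨min r1 c, lt_min hr1 hc0, fun h hh hhr => ?_⟩
  have hhr1 : h < r1 := hhr.trans_le (min_le_left _ _)
  have hhc : h < c := hhr.trans_le (min_le_right _ _)
  filter_upwards [H1 h hh hhr1, hc (ε * h / (2 * A)) (by positivity), hL (eventually_gt_atTop 0)]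
    with n hn1 hn2 hn3
  have hn' : (0 : ℝ) < n := by exact_mod_cast hn3
  have hAp : 0 < A := by linarith
  have hk : ((⌊h * n⌋₊ : ℕ) : ℝ) ≤ c * n :=
    (Nat.floor_le (by positivity)).trans (mul_le_mul_of_nonneg_right hhc.le hn'.le)
  have e : (∑ x ∈ range n, φ (x / n) * flx n w r ⌊h * n⌋₊ (H n) x) / n =
      (∑ x ∈ range n, φ (x / n) * flx n w r ⌊h * n⌋₊ (H' n) x) / n +
      (∑ x ∈ range n, φ (x / n) * (flx n w r ⌊h * n⌋₊ (H n) x - flx n w r ⌊h * n⌋₊ (H' n) x)) / n := by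
    rw [← add_div, ← sum_add_distrib]
    congr 1
    exact sum_congr rfl fun x _ => by ring
  rw [e]
  refine (abs_add_le _ _).trans ?_
  have h3 : |(∑ x ∈ range n, φ (x / n) *
      (flx n w r ⌊h * n⌋₊ (H n) x - flx n w r ⌊h * n⌋₊ (H' n) x)) / n| ≤ ε / 2 * h := by
    rw [abs_div, abs_of_pos hn', div_le_iff₀ hn']
    refine (abs_sum_le_sum_abs _ _).trans ?_
    have h4 : ∀ x ∈ range n, |φ (x / n) *
        (flx n w r ⌊h * n⌋₊ (H n) x - flx n w r ⌊h * n⌋₊ (H' n) x)| ≤ ε / 2 * h := by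
      intro x _
      by_cases hx : φ (x / n) = 0
      · rw [hx, zero_mul, abs_zero]
        positivity
      · obtain ⟨k1, k2, k3⟩ := hφ3 _ hx
        rw [le_div_iff₀ hn'] at k1
        rw [div_le_iff₀ hn'] at k2
        have k4 : δ * n ≤ |((x : ℕ) : ℤ) - S.tp * n| := by
          have e2 : (x : ℝ) / n - S.tp = (x - S.tp * n) / n := by field_simp
          rw [e2, abs_div, abs_of_pos hn', le_div_iff₀ hn'] at k3
          exact_mod_cast k3
        have k5 := hn2 w r h1 h2 (x : ℤ) (by exact_mod_cast k1) (by exact_mod_cast k2)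
          (by exact_mod_cast k4) _ hk
        rw [abs_mul]
        calc _ ≤ A * (ε * h / (2 * A)) := mul_le_mul (hφ1 _) k5 (abs_nonneg _) hAp.le
          _ = _ := by field_simp
    refine (sum_le_sum h4).trans ?_
    rw [sum_const, card_range, nsmul_eq_mul, mul_comm]
  linarith

/-- The numerical bound. -/
theorem num_small {C α : ℝ} (hC : 0 < C) (hα : 0 < α) {ε : ℝ} (hε : 0 < ε) : ∃ s0 : ℝ, 1 ≤ s0 ∧
    ∀ (s : ℤ) (J : ℕ), s0 ≤ s → (2 : ℤ) ^ J ≤ s → C * (J + 1) * (2 / (s : ℝ)) ^ α ≤ ε := by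
  have hl : 0 < Real.log 2 := Real.log_pos (by norm_num)
  set B : ℝ := 2 / (α * Real.log 2) + 1 with hB
  have hBp : 0 < B := by positivity
  have ht := tendsto_rpow_neg_atTop (half_pos hα)
  have hev := (ht.eventually (gt_mem_nhds (show (0 : ℝ) < ε / (C * B * 2 ^ α) by positivity)))
  obtain ⟨s0, hs0⟩ := (hev.and (eventually_ge_atTop 1)).exists_forall_of_atTop
  refine ⟨max s0 1, le_max_right _ _, fun s J hs hJ => ?_⟩
  have hs1 : (1 : ℝ) ≤ s := (le_max_right _ _).trans hs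
  obtain ⟨h1, -⟩ := hs0 s ((le_max_left _ _).trans hs)
  have hsp : (0 : ℝ) < s := by linarith
  have hJ' : ((2 : ℝ) ^ J) ≤ s := by exact_mod_cast hJ
  have h2 : (J : ℝ) * (Real.log 2 * (α / 2)) + 1 ≤ (s : ℝ) ^ (α / 2) := by
    refine (Real.add_one_le_exp _).trans ?_
    have e : Real.exp ((J : ℝ) * (Real.log 2 * (α / 2))) = ((2 : ℝ) ^ J) ^ (α / 2) := by
      rw [← Real.rpow_natCast, ← Real.rpow_mul (by norm_num), Real.rpow_def_of_pos (by norm_num)]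
      congr 1
      ring
    rw [e]
    exact Real.rpow_le_rpow (by positivity) hJ' (by positivity)
  have h3 : (1 : ℝ) ≤ (s : ℝ) ^ (α / 2) := Real.one_le_rpow hs1 (by positivity)
  have h4 : (J : ℝ) + 1 ≤ B * (s : ℝ) ^ (α / 2) := by
    have h5 : (J : ℝ) ≤ 2 / (α * Real.log 2) * (s : ℝ) ^ (α / 2) := by
      rw [div_mul_eq_mul_div, le_div_iff₀ (by positivity)]
      nlinarith
    rw [hB, add_mul, one_mul]
    linarith
  have h6 : (2 / (s : ℝ)) ^ α = 2 ^ α * ((s : ℝ) ^ (-(α / 2)) * (s : ℝ) ^ (-(α / 2))) := by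
    rw [← Real.rpow_add hsp, Real.div_rpow (by norm_num) hsp.le, div_eq_mul_inv,
      ← Real.rpow_neg hsp.le]
    congr 2
    ring
  have h7 : (s : ℝ) ^ (α / 2) * (s : ℝ) ^ (-(α / 2)) = 1 := by
    rw [← Real.rpow_add hsp, add_neg_cancel, Real.rpow_zero]
  have h8 : 0 ≤ (s : ℝ) ^ (-(α / 2)) := Real.rpow_nonneg hsp.le _
  calc C * (J + 1) * (2 / (s : ℝ)) ^ α
      ≤ C * (B * (s : ℝ) ^ (α / 2)) * (2 ^ α * ((s : ℝ) ^ (-(α / 2)) * (s : ℝ) ^ (-(α / 2)))) := by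
        rw [h6]
        refine mul_le_mul_of_nonneg_right (mul_le_mul_of_nonneg_left h4 hC.le) (by positivity)
    _ = C * B * 2 ^ α * (s : ℝ) ^ (-(α / 2)) * ((s : ℝ) ^ (α / 2) * (s : ℝ) ^ (-(α / 2))) := by ring
    _ = C * B * 2 ^ α * (s : ℝ) ^ (-(α / 2)) := by rw [h7, mul_one]
    _ ≤ C * B * 2 ^ α * (ε / (C * B * 2 ^ α)) := mul_le_mul_of_nonneg_left h1.le (by positivity)
    _ = ε := by field_simp

end Vale.Agent.P167.H760.Q
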