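import Vale.Agent.P167.H760.Q.Bs5

/-!
# P167, general `q`, block Q-TWO: the next base point, families

`BD.nb`: the wired or free family with the next base point. `neuh_nb`: its Neumann condition gives the
Neumann condition of the family.
-/

namespace Vale.Agent.P167.H760.Q

open Finset Filter Topology Relation Vale.Agent.P167.BR Vale.Agent.P167.FK Vale.Agent.P167.FKA
open Vale.Agent.P167.E6 (IsPolygon Encloses)
open Vale.Agent.P167.H542.Q (BD cB cB_pos thB wR wR' XTR phs_thB)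
open Vale.Agent.P167.H718 (Dob)
open Vale.Agent.P167.CA (cms)
open Vale.Agent.P167.H365.NQ (NREDQ)
open Vale.Agent.P167.H760

variable {S : CA.Dat} {θ β : ℝ} {f : ℂ → ℝ}

theorem nm_sdir (k : ℤ) (r : Fin 4) : nm (k • E6.dir r) = |k| := by
  rcases H718.dir4 r with h | h | h | h <;> rw [h] <;> simp [nm]

/-- The sites near a flat side. -/
theorem site_col {Q : Finset (ℤ × ℤ)} {n : ℕ} {w : ℤ × ℤ} {r : Fin 4} (h1 : E6.face w r ∈ Q)
    (h2 : E6.face w (r - 1) ∉ Q) {x m : ℤ} (hx1 : m ≤ x) (hx2 : x + m < n) {k : ℤ} (hk0 : 0 ≤ k)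
    (hk : k ≤ m) : (n : ℤ) • w + x • E6.dir r + k • E6.dir (r + 1) ∈ sites (CA.enl Q n) := by
  have hfl := fl_fr (Q := Q) (n := n) h1 h2 (x := x) (m := m) hx1 hx2
  have h3 := (hfl (x, k) (by rw [H365.nm_le']; simp; omega)).2 hk0
  have h4 := H365.mem_sites_self h3
  have h5 := (Tr.fr ((n : ℤ) • w) r).sites_T.2 h4
  rw [Tr.im_pre, Tr.fr_S] at h5
  exact h5

/-- The family with the next base point. -/
def nbX (X : BD S θ β) (hk : ∀ᶠ n in X.L, X.k n = 0 ∨ X.k n = X.N n) : BD S θ β where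
  L := X.L
  le := X.le
  cg := X.cg
  N := X.N
  q n := nb (X.q n)
  k := X.k
  η := X.η
  poly := X.poly.mono fun _ h => nb_poly h
  enc := X.enc.mono fun _ h => nb_enc h
  kle := X.kle
  dob := by
    filter_upwards [X.poly, X.dob, hk] with n h1 h2 h3
    exact nb_dob h1 h3 h2

theorem flx_diff (h0 : 0 < θ) (h1 : θ ≤ Real.pi / 3) (hβ : Real.cos (θ / 2 + β) = Real.sin θ)
    (X : BD S θ β) (hk : ∀ᶠ n in X.L, X.k n = 0 ∨ X.k n = X.N n) (n : ℕ) (w : ℤ × ℤ) (r : Fin 4)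
    (k : ℕ) (x : ℤ) :
    |flx n w r k ((X.famB h0 h1 hβ).H n f) x - flx n w r k (((nbX X hk).famB h0 h1 hβ).H n f) x| =
      |(Ex (2 * Real.cos θ) (S.D n) (X.η n) (XTR (thB θ β (X.q n) (S.D n) (X.k n)) (S.D n)
          (X.q n 0) (cms f (1 / n)) ((n : ℤ) • w + x • E6.dir r)) -
        Ex (2 * Real.cos θ) (S.D n) (X.η n) (XTR (thB θ β (X.q n) (S.D n) (X.k n)) (S.D n)
          (X.q n 0) (cms f (1 / n)) ((n : ℤ) • w + x • E6.dir r + (k : ℤ) • E6.dir (r + 1)))) -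
        (Ex (2 * Real.cos θ) (S.D n) (X.η n) (XTR (thB θ β (nb (X.q n)) (S.D n) (X.k n)) (S.D n)
          (nb (X.q n) 0) (cms f (1 / n)) ((n : ℤ) • w + x • E6.dir r)) -
        Ex (2 * Real.cos θ) (S.D n) (X.η n) (XTR (thB θ β (nb (X.q n)) (S.D n) (X.k n)) (S.D n)
          (nb (X.q n) 0) (cms f (1 / n))
          ((n : ℤ) • w + x • E6.dir r + (k : ℤ) • E6.dir (r + 1))))| := by
  have hH : ∀ y, (X.famB h0 h1 hβ).H n f y = Ex (2 * Real.cos θ) (S.D n) (X.η n)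
      (XTR (thB θ β (X.q n) (S.D n) (X.k n)) (S.D n) (X.q n 0) (cms f (1 / n)) y) := fun y => rfl
  have hH' : ∀ y, ((nbX X hk).famB h0 h1 hβ).H n f y = Ex (2 * Real.cos θ) (S.D n) (X.η n)
      (XTR (thB θ β (nb (X.q n)) (S.D n) (X.k n)) (S.D n) (nb (X.q n) 0) (cms f (1 / n)) y) :=
    fun y => rfl
  unfold flx
  rw [hH, hH, hH', hH', abs_sub_comm]
  congr 1
  ring

/-- **Comparison of the fluxes.** -/
theorem cmp_flx (h0 : 0 < θ) (h1 : θ ≤ Real.pi / 3) (hβ : Real.cos (θ / 2 + β) = Real.sin θ)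
    (hRSW : RSW (2 * Real.cos θ)) (hf : S.FF f) (X : BD S θ β)
    (hk : ∀ᶠ n in X.L, X.k n = 0 ∨ X.k n = X.N n) (hb : ∀ᶠ n in X.L, X.q n 0 = S.b n) (δ : ℝ)
    (hδ : 0 < δ) : ∃ c : ℝ, 0 < c ∧ ∀ ε : ℝ, 0 < ε → ∀ᶠ n : ℕ in X.L, ∀ (w : ℤ × ℤ)
      (r : Fin 4), E6.face w r ∈ S.Q → E6.face w (r - 1) ∉ S.Q → ∀ x : ℤ, δ * n ≤ x →
      (x : ℝ) ≤ (1 - δ) * n → δ * n ≤ |x - S.tp * n| → ∀ k : ℕ, (k : ℝ) ≤ c * n →
      |flx n w r k ((X.famB h0 h1 hβ).H n f) x - flx n w r k (((nbX X hk).famB h0 h1 hβ).H n f) x| ≤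
        ε := by
  obtain ⟨κ, C, α, hκ, hC, hα, hcmp⟩ := cmp_n h0 h1 hβ hRSW hf
  obtain ⟨c0, hc0, hc1, hc2, hc3⟩ : ∃ c0 : ℝ, 0 < c0 ∧ c0 ≤ 1 / 16 ∧ c0 ≤ κ / 4 ∧ c0 ≤ δ / 16 :=
    ⟨min (1 / 16) (min (κ / 4) (δ / 16)), by positivity, min_le_left _ _,
      (min_le_right _ _).trans (min_le_left _ _), (min_le_right _ _).trans (min_le_right _ _)⟩
  have htp0 := S.tp0
  have htp1 := S.tp1
  refine ⟨c0 / 64, by positivity, fun ε hε => ?_⟩
  obtain ⟨s0, hs01, hs0⟩ := num_small hC hα hε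
  have hlarge : ∀ A : ℝ, ∀ᶠ n : ℕ in X.L, A ≤ n := fun A => X.le
    ((eventually_ge_atTop ⌈A⌉₊).mono fun n hn => (Nat.le_ceil A).trans (by exact_mod_cast hn))
  filter_upwards [X.le hcmp, X.poly, X.enc, hk, X.dob, hb, hlarge ((s0 + 1) / c0),
    hlarge (64 / c0), hlarge (4 / κ), hlarge (8 / δ), hlarge 1, hlarge (2 / (1 - S.tp))] with n a1 a2 a3 a4
    a5 a6 l1 l2 l3 l4 l5 l6 w r hw1 hw2 x hx1 hx2 hx3 k hkc
  have hn' : (0 : ℝ) < n := by linarith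
  have hn : 0 < n := by exact_mod_cast hn'
  rw [div_le_iff₀ hc0] at l1 l2
  rw [div_le_iff₀ hκ] at l3
  rw [div_le_iff₀ hδ] at l4
  rw [div_le_iff₀ (by linarith)] at l6
  have m1 : c0 * n ≤ 1 / 16 * n := mul_le_mul_of_nonneg_right hc1 hn'.le
  have m2 : c0 * n ≤ κ / 4 * n := mul_le_mul_of_nonneg_right hc2 hn'.le
  have m3 : c0 * n ≤ δ / 16 * n := mul_le_mul_of_nonneg_right hc3 hn'.le
  -- the scale
  obtain ⟨s, hs⟩ : ∃ s : ℤ, s = ⌊c0 * n⌋ := ⟨_, rfl⟩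
  have hs1 : (s : ℝ) ≤ c0 * n := by rw [hs]; exact Int.floor_le _
  have hs2 : c0 * n < s + 1 := by rw [hs]; exact Int.lt_floor_add_one _
  have hs63 : (63 : ℤ) ≤ s := by
    have : (62 : ℝ) < s := by linarith
    have : (62 : ℤ) < s := by exact_mod_cast this
    omega
  have hsn : 16 * s ≤ n := by
    have : ((16 * s : ℤ) : ℝ) ≤ ((n : ℤ) : ℝ) := by push_cast; linarith
    exact_mod_cast this
  obtain ⟨J, hJ1, hJ2⟩ : ∃ J : ℕ, 8 * (2 : ℤ) ^ J ≤ s ∧ s < 8 * 2 ^ (J + 1) := by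
    have h3 : (1 : ℝ) ≤ (s : ℝ) / 8 := by
      rw [le_div_iff₀ (by norm_num)]
      have : (63 : ℝ) ≤ s := by exact_mod_cast hs63
      linarith
    obtain ⟨J, j1, j2⟩ := exists_nat_pow_near h3 (by norm_num : (1 : ℝ) < 2)
    rw [le_div_iff₀ (by norm_num)] at j1
    rw [div_lt_iff₀ (by norm_num)] at j2
    refine ⟨J, ?_, ?_⟩
    · have : (((8 * 2 ^ J : ℤ)) : ℝ) ≤ s := by push_cast; linarith
      exact_mod_cast this
    · have : (s : ℝ) < ((8 * 2 ^ (J + 1) : ℤ) : ℝ) := by push_cast; linarith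
      exact_mod_cast this
  have hJp : (1 : ℤ) ≤ 2 ^ J := one_le_pow₀ (by norm_num)
  have hk2 : (k : ℤ) ≤ 2 ^ J := by
    have h3 : 64 * (k : ℝ) ≤ c0 * n := by linarith
    have h4 : 64 * (k : ℝ) < s + 1 := by linarith
    have h5 : 64 * (k : ℤ) < s + 1 := by exact_mod_cast h4
    rw [pow_succ] at hJ2
    omega
  -- the sites
  obtain ⟨z, hz⟩ : ∃ z, z = (n : ℤ) • w + x • E6.dir r := ⟨_, rfl⟩
  obtain ⟨z', hz'⟩ : ∃ z', z' = (n : ℤ) • w + x • E6.dir r + (k : ℤ) • E6.dir (r + 1) := ⟨_, rfl⟩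
  have hxs : s < x ∧ x + s < n := by
    constructor
    · have : (s : ℝ) < x := by linarith
      exact_mod_cast this
    · have : ((x + s : ℤ) : ℝ) < ((n : ℤ) : ℝ) := by push_cast; linarith
      exact_mod_cast this
  have hx5 : 5 * s < x ∧ x + 5 * s < n := by
    constructor
    · have : ((5 * s : ℤ) : ℝ) < x := by push_cast; linarith
      exact_mod_cast this
    · have : ((x + 5 * s : ℤ) : ℝ) < ((n : ℤ) : ℝ) := by push_cast; linarith
      exact_mod_cast this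
  have hzs : z ∈ sites (S.D n) := by
    have := site_col hw1 hw2 (n := n) (x := x) (m := s) hxs.1.le hxs.2 le_rfl (by omega)
    rw [zero_smul, add_zero] at this
    rw [hz]
    exact this
  have hzs' : z' ∈ sites (S.D n) := by
    rw [hz']
    exact site_col hw1 hw2 (n := n) (x := x) (m := s) hxs.1.le hxs.2 (Int.natCast_nonneg k)
      (by omega)
  have hzz : nm (z - z') ≤ max 1 (k : ℤ) := by
    have e : z' - z = (k : ℤ) • E6.dir (r + 1) := by rw [hz, hz']; abel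
    rw [H45.nm_sub_comm, e, nm_sdir, abs_of_nonneg (Int.natCast_nonneg k)]
    exact le_max_right _ _
  obtain ⟨v0, hv0, hv0z⟩ : ∃ v0 : ℤ × ℤ, v0 ∉ S.D n ∧ nm (v0 - z) ≤ 1 := by
    have hFp : Fp S δ n z := ⟨w, r, x, hw1, hw2, hz, hx1, hx2, hx3⟩
    exact H852.Q.Fp.out hFp (by linarith)
  have hfar : s + 4 * s < nm (z - X.q n 0) := by
    rw [a6, pb_b, H45.nm_sub_comm, hz]
    obtain ⟨t₀, ht₀⟩ : ∃ t₀, t₀ = ⌊S.tp * n⌋₊ := ⟨_, rfl⟩
    rw [← ht₀]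
    have k1 : (t₀ : ℝ) ≤ S.tp * n := by rw [ht₀]; exact Nat.floor_le (by positivity)
    have k2 : S.tp * n < t₀ + 1 := by rw [ht₀]; exact Nat.lt_floor_add_one _
    have htn : t₀ < n := by
      have : (t₀ : ℝ) < n := by nlinarith
      exact_mod_cast this
    refine base_far S htn hw2 (by omega) (by omega) ?_
    have : ((s + 4 * s : ℤ) : ℝ) < ((|x - t₀| : ℤ) : ℝ) := by
      push_cast
      rw [lt_abs]
      rcases le_abs.1 hx3 with h | h
      · left; linarith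
      · right; linarith
    exact_mod_cast this
  have key := a1 (X.N n) (X.q n) (X.k n) (X.η n) a2 a3 a4 a5 s s (max 1 (k : ℤ)) J z z' v0 (by omega)
    (by linarith) hsn (by linarith) hsn hJ1 (le_max_left _ _) (max_le hJp hk2) hzs hzs' hzz hv0 hv0z
    hfar
  have hnum := hs0 s J (by linarith) (by omega)
  rw [flx_diff, ← hz', ← hz]
  exact key.trans hnum

end Vale.Agent.P167.H760.Q
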