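import Vale.Agent.P167.H760.Q.Bs6
import Vale.Agent.P167.CAQ.J8
import Vale.Agent.P167.CAQ.Asm
import Vale.Agent.P167.H662.L.Asm2

/-!
# P167, general `q`, block Q-TWO: outputs from `NeuH`

`neuh_fam`: `NeuH` of a Dobrushin family with the base `S.b n`. `neuh_shift`: `NeuH` of a wired or free
family with the base `S.b n` from the majorants of the family with the next base point. `neu_of'`,
`neu_dH'`, `lims_DF'`, `lims_DW'`, `core_of'`: the outputs with `NeuH` in place of `TwoAll`.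
-/

namespace Vale.Agent.P167.H760.Q

open Filter Topology Set Complex Metric
open Vale.Agent.P167.BR (sites)
open Vale.Agent.P167.FK (Ex RSW)
open Vale.Agent.P167.CA (Dat cms)
open Vale.Agent.P167.E6 (IsPolygon Encloses pt)
open Vale.Agent.P167.H718 (Dob)
open Vale.Agent.P167.H542.Q (thB BD)
open Vale.Agent.P167.CAQ (dH Fam two_limit eqj_BD near_W near_F)
open Vale.Agent.P167.CAQ.J (poly_rot)
open Vale.Agent.P167.H411.Q (bpt bpt_side arcW arcF arcW_arc arcF_arc Lims)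
open Vale.Agent.P167.H365.NQ (NREDQ)
open scoped ContDiff

variable {S : CA.Dat} {θ β : ℝ} {f : ℂ → ℝ}

theorem ff_zero (S : CA.Dat) : S.FF fun _ => 0 := by
  refine ⟨⟨contDiff_const, ?_, ?_⟩, by simp⟩
  · exact HasCompactSupport.zero
  · simp [tsupport]

/-! ### `NeuH` of the families -/

theorem neuh_fam (X : BD S θ β) (h0 : 0 < θ) (h1 : θ ≤ Real.pi / 3)
    (hβ : Real.cos (θ / 2 + β) = Real.sin θ) (hRSW : RSW (2 * Real.cos θ))
    (hN : ∀ t, NREDQ (2 * Real.cos θ) t 8) {s : ℕ → ℕ} (hb : BaseQ X s) {ia : ℕ} {C₀ : ℝ}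
    (hk : JunQ X ia C₀) (hf : S.FF f) (hI : MajI X f) :
    NeuH S X.L (fun n => (X.famB h0 h1 hβ).H n f) :=
  neuh_of_two (BD.cos_pos h0 h1) hN X.le
    (two_all' X h0 h1 hβ hb hk hf (H852.Q.majN h0 h1 hβ hRSW X hf) hI)

/-- The base of the shifted family. -/
theorem baseQ_nb (X : BD S θ β) (hk : ∀ᶠ n in X.L, X.k n = 0 ∨ X.k n = X.N n)
    (hb : ∀ᶠ n in X.L, X.q n 0 = S.b n) : BaseQ (nbX X hk) fun _ => 1 := by
  have htp0 := S.tp0
  have htp1 := S.tp1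
  refine ⟨fun _ => le_rfl, ?_⟩
  show ∀ᶠ n in X.L, _
  have hlarge : ∀ᶠ n : ℕ in X.L, 2 / (1 - S.tp) ≤ n := X.le
    ((eventually_ge_atTop ⌈2 / (1 - S.tp)⌉₊).mono fun n hn => (Nat.le_ceil _).trans
      (by exact_mod_cast hn))
  filter_upwards [X.poly, X.enc, hb, hlarge] with n a1 a2 a3 a4
  rw [div_le_iff₀ (by linarith)] at a4
  have hn' : (0 : ℝ) < n := by
    by_contra hcon
    nlinarith
  have hn : 0 < n := by exact_mod_cast hn'
  obtain ⟨t₀, ht₀⟩ : ∃ t₀, t₀ = ⌊S.tp * n⌋₊ := ⟨_, rfl⟩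
  have k1 : (t₀ : ℝ) ≤ S.tp * n := by rw [ht₀]; exact Nat.floor_le (by positivity)
  have ht1 : t₀ + 1 < n := by
    have : ((t₀ + 1 : ℕ) : ℝ) < n := by push_cast; nlinarith
    exact_mod_cast this
  rw [pb_b, ← ht₀] at a3
  obtain ⟨-, hpos⟩ := q_pos S hn a1 a2 (by omega) a3
  show nb (X.q n) 0 = pb S n (⌊S.tp * n⌋₊ + 1)
  rw [nb_zero, ← ht₀, show X.q n 1 = X.q n ((1 : ℕ) : ZMod (X.N n)) by rw [Nat.cast_one], hpos 1,
    CL.pe_eq, Nat.div_eq_of_lt ht1, Nat.mod_eq_of_lt ht1]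
  unfold pb
  rw [Nat.cast_zero, zero_add, S.step]
  simp

theorem junQ_nb (X : BD S θ β) (hk : ∀ᶠ n in X.L, X.k n = 0 ∨ X.k n = X.N n) {ia : ℕ} {C₀ : ℝ}
    (hj : JunQ X ia C₀) : JunQ (nbX X hk) ia C₀ := hj

/-- **`NeuH` of a wired or free family** from the family with the next base point. -/
theorem neuh_shift (X : BD S θ β) (h0 : 0 < θ) (h1 : θ ≤ Real.pi / 3)
    (hβ : Real.cos (θ / 2 + β) = Real.sin θ) (hRSW : RSW (2 * Real.cos θ))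
    (hN : ∀ t, NREDQ (2 * Real.cos θ) t 8) (hk : ∀ᶠ n in X.L, X.k n = 0 ∨ X.k n = X.N n)
    (hb : ∀ᶠ n in X.L, X.q n 0 = S.b n) {ia : ℕ} {C₀ : ℝ} (hj : JunQ X ia C₀) (hf : S.FF f)
    (hI : MajI (nbX X hk) f) : NeuH S X.L (fun n => (X.famB h0 h1 hβ).H n f) :=
  neuh_cmp X.le (neuh_fam (nbX X hk) h0 h1 hβ hRSW hN (baseQ_nb X hk hb) (junQ_nb X hk hj) hf hI)
    (cmp_flx h0 h1 hβ hRSW hf X hk hb)

/-! ### the outputs -/

/-- **(NEU) of a family.** -/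
theorem neu_of' {S : CA.Dat} (F : Fam S)
    (hV : ∀ f, S.FF f → ∃ C : ℝ, ∀ᶠ n : ℕ in F.L, |F.V n f| ≤ C)
    (hT : ∀ f, S.FF f → NeuH S F.L (fun n => F.H n f)) : F.NEU := by
  intro f hf w r h1 h2 φ hφ hs ε hε
  obtain ⟨C, hC⟩ := hV f hf
  obtain ⟨r1, hr1, H1⟩ := hT f hf w r h1 h2 φ hφ hs (ε / 2) (by positivity)
  obtain ⟨r2, hr2, H2⟩ := hT _ (ff_zero S) w r h1 h2 φ hφ hs (ε / (2 * (|C| + 1))) (by positivity)
  refine ⟨min r1 r2, lt_min hr1 hr2, fun h hh hhr => ?_⟩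
  filter_upwards [hC, H1 h hh (hhr.trans_le (min_le_left _ _)),
    H2 h hh (hhr.trans_le (min_le_right _ _))] with n hn hn1 hn2
  have e : (∑ x ∈ Finset.range n, φ (x / n) *
      (F.W n f ((n : ℤ) • w + (x : ℤ) • E6.dir r + (⌊h * n⌋₊ : ℤ) • E6.dir (r + 1)) -
        F.W n f ((n : ℤ) • w + (x : ℤ) • E6.dir r))) / n =
      (∑ x ∈ Finset.range n, φ (x / n) * flx n w r ⌊h * n⌋₊ (F.H n f) x) / n -
      F.V n f * ((∑ x ∈ Finset.range n, φ (x / n) * flx n w r ⌊h * n⌋₊ (F.H n fun _ => 0) x) /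
        n) := by
    rw [mul_div_assoc', Finset.mul_sum, ← sub_div, ← Finset.sum_sub_distrib]
    congr 1
    refine Finset.sum_congr rfl fun x _ => ?_
    unfold flx CAQ.Fam.W
    ring
  rw [e]
  refine (abs_sub _ _).trans ?_
  rw [abs_mul]
  have h3 : |F.V n f| ≤ |C| + 1 := hn.trans ((le_abs_self C).trans (by linarith))
  have h4 : |F.V n f| *
      |(∑ x ∈ Finset.range n, φ (x / n) * flx n w r ⌊h * n⌋₊ (F.H n fun _ => 0) x) / n|
      ≤ (|C| + 1) * (ε / (2 * (|C| + 1)) * h) :=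
    mul_le_mul h3 hn2 (abs_nonneg _) (by positivity)
  have h5 : (|C| + 1) * (ε / (2 * (|C| + 1)) * h) = ε / 2 * h := by field_simp
  linarith

/-- **The Neumann condition of the difference of two families.** -/
theorem neu_dH' {S : CA.Dat} (F₁ F₀ : Fam S) (hL : F₁.L = F₀.L)
    (hT1 : NeuH S F₁.L (fun n => F₁.H n fun _ => 0))
    (hT0 : NeuH S F₀.L (fun n => F₀.H n fun _ => 0)) (w : ℤ × ℤ) (r : Fin 4)
    (h1 : E6.face w r ∈ S.Q) (h2 : E6.face w (r - 1) ∉ S.Q) (φ : ℝ → ℝ) (hφ : ContDiff ℝ ∞ φ)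
    (hs : tsupport φ ⊆ Set.Ioo 0 1 \ {S.tp}) (ε : ℝ) (hε : 0 < ε) :
    ∃ r₀ > 0, ∀ h : ℝ, 0 < h → h < r₀ → ∀ᶠ n : ℕ in F₁.L,
      |(∑ x ∈ Finset.range n, φ (x / n) * (CAQ.dH F₁ F₀ n
        ((n : ℤ) • w + (x : ℤ) • E6.dir r + (⌊h * n⌋₊ : ℤ) • E6.dir (r + 1)) -
          CAQ.dH F₁ F₀ n ((n : ℤ) • w + (x : ℤ) • E6.dir r))) / n| ≤ ε * h := by
  obtain ⟨r1, hr1, H1⟩ := hT1 w r h1 h2 φ hφ hs (ε / 2) (by positivity)
  obtain ⟨r2, hr2, H2⟩ := hT0 w r h1 h2 φ hφ hs (ε / 2) (by positivity)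
  rw [← hL] at H2
  refine ⟨min r1 r2, lt_min hr1 hr2, fun h hh hhr => ?_⟩
  filter_upwards [H1 h hh (hhr.trans_le (min_le_left _ _)),
    H2 h hh (hhr.trans_le (min_le_right _ _))] with n hn1 hn2
  have e : (∑ x ∈ Finset.range n, φ (x / n) * (CAQ.dH F₁ F₀ n
        ((n : ℤ) • w + (x : ℤ) • E6.dir r + (⌊h * n⌋₊ : ℤ) • E6.dir (r + 1)) -
          CAQ.dH F₁ F₀ n ((n : ℤ) • w + (x : ℤ) • E6.dir r))) / n =
      (∑ x ∈ Finset.range n, φ (x / n) * flx n w r ⌊h * n⌋₊ (F₁.H n fun _ => 0) x) / n -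
      (∑ x ∈ Finset.range n, φ (x / n) * flx n w r ⌊h * n⌋₊ (F₀.H n fun _ => 0) x) / n := by
    rw [← sub_div, ← Finset.sum_sub_distrib]
    congr 1
    refine Finset.sum_congr rfl fun x _ => ?_
    unfold flx CAQ.dH
    ring
  rw [e]
  refine (abs_sub _ _).trans ?_
  linarith

/-- `CORE` of a Dobrushin family. -/
theorem core_of' (h0 : 0 < θ) (h1 : θ ≤ Real.pi / 3) (hβ : Real.cos (θ / 2 + β) = Real.sin θ)
    {S : Dat} (X : BD S θ β) (hRSW : RSW (2 * Real.cos θ)) (hM : (X.famB h0 h1 hβ).MOM)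
    (hT : ∀ f, S.FF f → NeuH S X.L fun n => (X.famB h0 h1 hβ).H n f)
    (hE : (X.famB h0 h1 hβ).EQ) : (X.famB h0 h1 hβ).CORE := by
  have hM2 := X.famB_M2 h0 h1 hβ hRSW
  refine CAQ.core _ hM hM2 hE ?_
  refine neu_of' _ (fun f hf => ?_) hT
  obtain ⟨C, hC⟩ := CAQ.path_bounds _ hM2 hf
  refine ⟨C, hC.mono fun n hn => ?_⟩
  have := (hn.1 1 (by simp)).1
  simpa using this

section

variable (h0 : 0 < θ) (h1 : θ ≤ Real.pi / 3) (hβ : Real.cos (θ / 2 + β) = Real.sin θ)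
  (hRSW : RSW (2 * Real.cos θ)) {S : Dat}
include hRSW

/-- **The limit `U^D - U^F`** (`XF` free). -/
theorem lims_DF' (XD XF : BD S θ β) (hL : XF.L = XD.L) (hbD : ∀ᶠ n in XD.L, XD.q n 0 = S.b n)
    (hbF : ∀ᶠ n in XD.L, XF.q n 0 = S.b n) (hkF : ∀ᶠ n in XD.L, XF.k n = XF.N n) {α C₀ : ℝ}
    (hα0 : S.tp < α) (hα1 : α < S.l + S.tp)
    (hkD : ∀ᶠ n : ℕ in XD.L, α * n - C₀ ≤ ⌊S.tp * n⌋₊ + (XD.k n : ℝ))
    (mD : (XD.famB h0 h1 hβ).MOM) (mF : (XF.famB h0 h1 hβ).MOM)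
    (nD : NeuH S XD.L fun n => (XD.famB h0 h1 hβ).H n fun _ => 0)
    (nF : NeuH S XF.L fun n => (XF.famB h0 h1 hβ).H n fun _ => 0) :
    Lims (XD.famB h0 h1 hβ) (XF.famB h0 h1 hβ) (arcW S α) := by
  intro U hU
  have hK := arcW_arc S hα1
  have hL' : (XD.famB h0 h1 hβ).L = (XF.famB h0 h1 hβ).L := hL.symm
  have hlt : Tendsto (fun n : ℕ => α + 1 / (n : ℝ)) atTop (𝓝 (α + 0)) :=
    tendsto_const_nhds.add tendsto_one_div_atTop_nhds_zero_nat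
  rw [add_zero] at hlt
  have hα0' : 0 ≤ α := by have := S.tp0; linarith
  have heq := eqj_BD h0 h1 hβ hRSW XD XF hL.symm (by
    filter_upwards [hbD, hbF] with n a b using a.trans b.symm) true (K := arcW S α)
    (C₀ := 2 * (|C₀| + 1)) (by
    filter_upwards [hbD, hkF, hkD, XD.poly, XD.enc, (hL ▸ XF.poly : ∀ᶠ n in XD.L, _),
      (hL ▸ XF.enc : ∀ᶠ n in XD.L, _),
      (eventually_gt_atTop 0).filter_mono XD.le,
      (hlt.eventually (ge_mem_nhds hα1)).filter_mono XD.le] with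
      n b1 b2 b3 b4 b5 b6 b7 hn hαn j hj hbad
    have hNN : XD.N n = XF.N n := (poly_rot b4 b5 b6 b7).1
    have h2 : XD.k n ≤ j := by
      by_contra hcon
      apply hbad
      exact ⟨by omega, by rw [b2, ← hNN]; exact hj⟩
    exact near_W S hn b4 b5 b1 hα0' hαn b3 h2 hj)
  exact two_limit hL' mD mF hK heq (fun w r a1 a2 φ a3 a4 _ ε hε =>
    neu_dH' _ _ hL' nD nF w r a1 a2 φ a3 a4 ε hε) U hU

/-- **The limit `U^D - U^W`** (`XW` wired). -/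
theorem lims_DW' (XD XW : BD S θ β) (hL : XW.L = XD.L) (hbD : ∀ᶠ n in XD.L, XD.q n 0 = S.b n)
    (hbW : ∀ᶠ n in XD.L, XW.q n 0 = S.b n) (hkW : ∀ᶠ n in XD.L, XW.k n = 0) {α C₀ : ℝ}
    (hα0 : S.tp < α)
    (hkD : ∀ᶠ n : ℕ in XD.L, ⌊S.tp * n⌋₊ + (XD.k n : ℝ) ≤ α * n + C₀)
    (mD : (XD.famB h0 h1 hβ).MOM) (mW : (XW.famB h0 h1 hβ).MOM)
    (nD : NeuH S XD.L fun n => (XD.famB h0 h1 hβ).H n fun _ => 0)
    (nW : NeuH S XW.L fun n => (XW.famB h0 h1 hβ).H n fun _ => 0) :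
    Lims (XD.famB h0 h1 hβ) (XW.famB h0 h1 hβ) (arcF S α) := by
  intro U hU
  have hK := arcF_arc S hα0
  have hL' : (XD.famB h0 h1 hβ).L = (XW.famB h0 h1 hβ).L := hL.symm
  have hlt : Tendsto (fun n : ℕ => S.tp + 1 / (n : ℝ)) atTop (𝓝 (S.tp + 0)) :=
    tendsto_const_nhds.add tendsto_one_div_atTop_nhds_zero_nat
  rw [add_zero] at hlt
  have heq := eqj_BD h0 h1 hβ hRSW XD XW hL.symm (by
    filter_upwards [hbD, hbW] with n a b using a.trans b.symm) false (K := arcF S α)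
    (C₀ := 2 * (|C₀| + 2)) (by
    filter_upwards [hbD, hkW, hkD, XD.poly, XD.enc, (eventually_gt_atTop 0).filter_mono XD.le,
      (hlt.eventually (ge_mem_nhds hα0)).filter_mono XD.le] with
      n b1 b2 b3 b4 b5 hn hαn j hj hbad
    have h2 : j < XD.k n := by
      by_contra hcon
      apply hbad
      exact ⟨by omega, by rw [b2]; exact Nat.zero_le _⟩
    exact near_F S hn b4 b5 b1 hαn b3 h2)
  exact two_limit hL' mD mW hK heq (fun w r a1 a2 φ a3 a4 _ ε hε =>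
    neu_dH' _ _ hL' nD nW w r a1 a2 φ a3 a4 ε hε) U hU

end

end Vale.Agent.P167.H760.Q
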