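import Vale.Agent.P167.H718.Par6
import Vale.Agent.P167.H542.Q.FamB

/-!
# P167, general `q`, block Q-TWO: literal form of the majorants

`MajN`: the Dobrushin functionals of the polygons have integrable majorants which do not read
macroscopic boxes around the flat boundary points. `MajI`: the same for their parity images, relative
to `lam` (the ratio of the partition functions of `D` and of `D + a`).
-/

namespace Vale.Agent.P167.H760.Q

open Finset Filter Topology Vale.Agent.P167.BR Vale.Agent.P167.FK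
open Vale.Agent.P167.H365.NQ (XW TW)
open Vale.Agent.P167.H718 (Dob wn wn' imC lam)
open Vale.Agent.P167.H871 (Bd)
open Vale.Agent.P167.H542.Q (BD)
open Vale.Agent.P167.CA (cms)

/-- The functional has a majorant with expectation at most `M` which does not read the box of radius
`R` around `z` (for the terms `TW` only the pieces which visit the box of radius `3 R`). -/
def MajY (Q : ℝ) (D : Finset (ℤ × ℤ)) (η : Cfg) (w w' : Finset Ed → ℝ) (z : ℤ × ℤ) (R : ℤ)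
    (M : ℝ) : Prop :=
  ∃ Y : Cfg → ℝ, (∀ ω ω' : Cfg, (∀ v : ℤ × ℤ, R < nm (v - z) → ω v = ω' v) → Y ω = Y ω') ∧
    (∀ ω, |XW D w ω| ≤ Y ω) ∧ (∀ ω, ∀ A ∈ pcs ω D, (∃ e ∈ A, nm (hdv e - z) ≤ 3 * R) →
      |TW D w w' ω A| ≤ Y ω) ∧ Ex Q D η Y ≤ M

/-- `z` is a boundary site on a unit side (enlarged), at distance `δ n` of the ends and of the
position `tp` of this side. -/
def Fp (S : CA.Dat) (δ : ℝ) (n : ℕ) (z : ℤ × ℤ) : Prop :=
  ∃ (w : ℤ × ℤ) (r : Fin 4) (x : ℤ), E6.face w r ∈ S.Q ∧ E6.face w (r - 1) ∉ S.Q ∧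
    z = (n : ℤ) • w + x • E6.dir r ∧ δ * n ≤ x ∧ (x : ℝ) ≤ (1 - δ) * n ∧ δ * n ≤ |x - S.tp * n|

variable {S : CA.Dat} {θ β : ℝ}

/-- **Majorants of the natural functionals.** -/
def MajN (X : BD S θ β) (f : ℂ → ℝ) : Prop :=
  ∀ δ : ℝ, 0 < δ → ∃ c C : ℝ, 0 < c ∧ 0 < C ∧ ∀ᶠ n : ℕ in X.L, ∀ z : ℤ × ℤ, Fp S δ n z →
    ∀ R : ℤ, (R : ℝ) ≤ c * n → ∀ η : Cfg, Dob η (S.D n) (X.q n) (X.k n) →
    MajY (2 * Real.cos θ) (S.D n) η (wn θ β (X.q n) (S.D n) (X.k n) (cms f (1 / n)))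
      (wn' θ β (X.q n) (S.D n) (X.k n) (cms f (1 / n))) z R C

/-- **Majorants of the parity images.** -/
def MajI (X : BD S θ β) (f : ℂ → ℝ) : Prop :=
  ∀ δ : ℝ, 0 < δ → ∃ c C : ℝ, 0 < c ∧ 0 < C ∧ ∀ᶠ n : ℕ in X.L, ∀ z : ℤ × ℤ, Fp S δ n z →
    ∀ R : ℤ, (R : ℝ) ≤ c * n → ∀ (s : Fin 4) (τ : ℕ → ℤ),
    Bd (S.D n : Set (ℤ × ℤ)) (X.N n) (fun i => X.q n (i : ZMod (X.N n))) τ 1 → ∀ η : Cfg,
    Dob η ((S.D n).image (· + E6.dir s)) (fun i => X.q n i + E6.dir s) (X.k n) →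
    MajY (2 * Real.cos θ) ((S.D n).image (· + E6.dir s)) η
      (wn θ β (fun i => X.q n i + E6.dir s) ((S.D n).image (· + E6.dir s)) (X.k n)
        (imC θ β τ (X.q n) (X.k n) (E6.dir s) (cms f (1 / n))))
      (wn' θ β (fun i => X.q n i + E6.dir s) ((S.D n).image (· + E6.dir s)) (X.k n)
        (imC θ β τ (X.q n) (X.k n) (E6.dir s) (cms f (1 / n)))) z R
      (C * lam θ β (X.q n) (S.D n) (X.k n) (E6.dir s))

end Vale.Agent.P167.H760.Q
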