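import Vale.Agent.P167.H760.Q.Near
import Vale.Agent.P167.H760.Q.Maj

/-!
# P167, general `q`, block Q-TWO: the local hypotheses for the Dobrushin functionals, in a frame
-/

namespace Vale.Agent.P167.H760.Q

open Finset Vale.Agent.P167 Vale.Agent.P167.BR Vale.Agent.P167.FK Vale.Agent.P167.FKA
open Vale.Agent.P167.E6 (IsPolygon Encloses)
open Vale.Agent.P167.H365 (nm_le' FarA Agr ThrS Cro VisI)
open Vale.Agent.P167.H365.NQ (EnvQ XW TW tt)
open Vale.Agent.P167.H718 (wn wn')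
open Vale.Agent.P167.CAQ.J (ArcB)
open Vale.Agent.P167.H166 (bxx)
open Vale.Agent.P167.H760

variable {n k : ℕ} {q : ZMod n → ℤ × ℤ} {D : Finset (ℤ × ℤ)} {θ β M Q : ℝ} {f : ℤ × ℤ → ℝ}
  {η : Cfg} {R x : ℤ} {w w' : Finset Ed → ℝ}

/-- The majorant in the frame. -/
theorem maj_fr (T : Tr) (hTQ : ∀ v z, nm (T.Q v - T.S z) ≤ nm (v - z) + 1) (hR : 1 ≤ R)
    (h : MajY Q D η w w' (T.S (x, 0)) (R + 2) M) :
    ∃ Y : Cfg → ℝ, Ind (bxx (x, 0) R) Y ∧
      (∀ ω, |XW (T.pre D) (fun A => w (T.imE A)) ω| ≤ Y ω) ∧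
      (∀ ω, ∀ A ∈ pcs ω (T.pre D), VisI (T.pre D) (x, 0) (2 * R) A →
        |TW (T.pre D) (fun A => w (T.imE A)) (fun A => w' (T.imE A)) ω A| ≤ Y ω) ∧
      Ex Q (T.pre D) (T.Ci η) Y ≤ M := by
  obtain ⟨Y, h1, h2, h3, h4⟩ := h
  refine ⟨fun ω => Y (T.C ω), ?_, fun ω => ?_, fun ω A hA hv => ?_, ?_⟩
  · intro ω ω' hw
    refine h1 _ _ fun v hv => ?_
    rw [T.C_apply', T.C_apply']
    congr 1
    refine hw _ ?_
    rw [H166.mem_bxx]
    have h5 := hTQ (T.Q.symm v) (x, 0)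
    rw [Equiv.apply_symm_apply] at h5
    omega
  · have h5 := T.XW_T (D := T.pre D) (w := w) (ω := ω)
    rw [T.im_pre] at h5
    rw [← h5]
    exact h2 _
  · have h5 := T.TW_T (D := T.pre D) (w := w) (w' := w') (ω := ω) A
    rw [T.im_pre] at h5
    rw [← h5]
    refine h3 _ _ (imE_mem T hA) ?_
    obtain ⟨e, he, h6, h7⟩ := hv
    refine ⟨T.E e, T.mem_imE.2 he, ?_⟩
    rw [T.hd]
    refine (hTQ _ _).trans ?_
    have h8 := H365.nm_hdv_tlv (x, 0) e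
    split_ifs <;> omega
  · rw [T.Ex_pre]
    exact h4

/-- **The local hypotheses.** -/
theorem env_one (T : Tr) (hTQ : ∀ v z, nm (T.Q v - T.S z) ≤ nm (v - z) + 1)
    (hq : IsPolygon q) (hD : Encloses q D) (hs : Real.sin θ ≠ 0) (hc : 0 < Real.cos θ)
    (hβ : Real.cos (θ / 2 + β) = Real.sin θ) (hη : Good η)
    (G : GeoQ 8 R (T.pre D) (T.S.symm (q 0)) (x, 0))
    (G2 : ∀ x', |x' - x| ≤ R → GeoQ 8 (2 * R) (T.pre D) (T.S.symm (q 0)) (x', 0))
    (hf : ∀ x', |x' - x| ≤ R → ∀ z, f (T.S z) ≠ 0 → 128 * R < nm (z - (x', 0)))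
    (harc : ∀ x', |x' - x| ≤ R → ArcB (!T.o) q k (T.S (x', 0)) (2 * R + 3))
    (hout : ∀ v : ℤ × ℤ, nm (v - (x, 0)) ≤ 64 * R → v ∉ T.pre D → η (T.Q v) = T.o)
    (hY : MajY Q D η (wn θ β q D k f) (wn' θ β q D k f) (T.S (x, 0)) (R + 2) M) :
    EnvQ Q (tq θ) 8 R (T.pre D) (T.Ci η) (T.S.symm (q 0)) (fun A => wn θ β q D k f (T.imE A))
      (fun A => wn' θ β q D k f (T.imE A)) M (x, 0) := by
  have hR := G.R1
  have h64 : (8 : ℤ) * 8 * R = 64 * R := by ring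
  have h128 : (8 : ℤ) * 8 * (2 * R) = 128 * R := by ring
  have hE : ∀ x', |x' - x| ≤ R → ∃ M, H365.Env 8 (2 * R) (T.pre D) (T.S.symm (q 0))
      (fun z => f (T.S z)) M (x', 0) := fun x' hx' =>
    (G2 x' hx').toEnv fun z hz => by rw [h128]; exact hf x' hx' z hz
  have h0 : |x - x| ≤ R := by rw [sub_self, abs_zero]; omega
  refine G.env (T.good_T' (by rw [T.C_Ci]; exact hη)) ?_ ?_ ?_ (maj_fr T hTQ hR hY)
  · intro v hv hv2
    rw [h64] at hv
    have h1 : v ∉ T.pre D := by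
      rw [G.dom v (by rw [h64]; exact hv)]
      exact not_le.2 hv2
    unfold Tr.Ci
    rw [hout v hv h1]
    cases T.o <;> rfl
  · intro ω A hA hn
    obtain ⟨M', E⟩ := hE x h0
    exact near_fr T hTQ hq hD hs hc hβ E (by omega) (by omega) (harc x h0) hA hn
  · intro y a m hy hy2 ham hmR ω ω' hag h3 c hcr
    obtain ⟨y1, y2⟩ := y
    dsimp only at hy2
    subst hy2
    have hy' : |y1 - x| ≤ R := by
      have := (nm_le'.1 hy)
      simp only [Prod.fst_sub, Prod.snd_sub] at this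
      rw [abs_le]
      omega
    obtain ⟨M', E⟩ := hE y1 hy'
    have harc' : ArcB (!T.o) q k (T.S (y1, 0)) (m + 3) := fun j hj hz =>
      harc y1 hy' j hj (hz.trans (by omega))
    exact cro_fr T hTQ hq hD E ham (by omega) harc' hag h3 hcr

end Vale.Agent.P167.H760.Q
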