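import Vale.Agent.P167.H760.Q.Geo
import Vale.Agent.P167.H718.Par3

/-!
# P167, general `q`, block Q-TWO: the frame of the parity image

The translation along the side by one unit, in the frames of the side.
-/

namespace Vale.Agent.P167.H760.Q

open Finset Vale.Agent.P167.BR Vale.Agent.P167.FK
open Vale.Agent.P167.H365.NQ (fe)

variable {n : ℕ} {w : ℤ × ℤ} {r : Fin 4} {j x y : ℤ} {D : Finset (ℤ × ℤ)}

theorem dir_odd (r : Fin 4) : ¬ Even ((E6.dir r).1 + (E6.dir r).2) := by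
  fin_cases r <;> simp [E6.dir]

/-- One unit along the side. -/
theorem fj_S_succ (n : ℕ) (w : ℤ × ℤ) (r : Fin 4) (j x y : ℤ) :
    (fj n w r j).S (x + 1, y) = (fj n w r j).S (x, y) + E6.dir r := by
  rw [fj_S, fj_S, show x + 1 + j = x + j + 1 by ring, add_smul (x + j), one_smul]
  abel

theorem fj_S_pred (n : ℕ) (w : ℤ × ℤ) (r : Fin 4) (j x y : ℤ) :
    (fj n w r (j - 1)).S (x + 1, y) = (fj n w r j).S (x, y) := by
  rw [fj_S, fj_S]
  congr 3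
  ring

theorem face_add (v a : ℤ × ℤ) (r : Fin 4) : E6.face (v + a) r = E6.face v r + a := by
  fin_cases r <;> ext <;> simp [E6.face] <;> ring

theorem fj_Q_pred (n : ℕ) (w : ℤ × ℤ) (r : Fin 4) (j : ℤ) (v : ℤ × ℤ) :
    (fj n w r j).Q v = (fj n w r (j - 1)).Q v + E6.dir r := by
  obtain ⟨x, y⟩ := v
  rw [fj_Q, fj_Q, Tr.fr_Q, Tr.fr_Q, Tr.fr_S, Tr.fr_S, ← face_add]
  congr 1
  dsimp only
  rw [show x + j = x + (j - 1) + 1 by ring, add_smul _ (1 : ℤ), one_smul]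
  abel

/-- The domain of the image in the frame. -/
theorem pre_image (n : ℕ) (w : ℤ × ℤ) (r : Fin 4) (j : ℤ) (D : Finset (ℤ × ℤ)) :
    (fj n w r j).pre (D.image (· + E6.dir r)) = (fj n w r (j - 1)).pre D := by
  ext v
  rw [Tr.mem_pre, Tr.mem_pre, fj_Q_pred, Finset.mem_image]
  exact ⟨fun ⟨u, hu, h⟩ => by rwa [← add_right_cancel h], fun h => ⟨_, h, rfl⟩⟩

/-- The base site of the image in the frame. -/
theorem symm_image (n : ℕ) (w : ℤ × ℤ) (r : Fin 4) (j : ℤ) (z : ℤ × ℤ) :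
    (fj n w r j).S.symm (z + E6.dir r) = (fj n w r (j - 1)).S.symm z := by
  rw [Equiv.symm_apply_eq]
  obtain ⟨⟨x, y⟩, rfl⟩ := (fj n w r (j - 1)).S.surjective z
  rw [Equiv.symm_apply_apply]
  obtain ⟨x, rfl⟩ : ∃ x', x = x' + 1 := ⟨x - 1, by ring⟩
  rw [fj_S_pred, fj_S_succ]

/-- The edges under the side. -/
theorem E_succ (n : ℕ) (w : ℤ × ℤ) (r : Fin 4) (j x : ℤ) :
    (fj n w r j).E (fe (x + 1)) = H135.shE (E6.dir r) ((fj n w r j).E (fe x)) := by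
  unfold fj fe
  fin_cases r <;> simp [Tr.fr, Tr.rp, Tr.comp, Tr.one, Tr.rot, Tr.tr, Tr.rE, H135.shE, E6.dir] <;>
    ext <;> simp <;> ring

/-- The squares on the two sides of `fe x`. -/
theorem fe_bd {E : Finset (ℤ × ℤ)} (h1 : (x, (0 : ℤ)) ∈ E) (h2 : (x, (-1 : ℤ)) ∉ E) :
    (hdv (fe x) ∈ E ∧ tlv (fe x) ∉ E) ∨ (hdv (fe x) ∉ E ∧ tlv (fe x) ∈ E) := by
  unfold fe
  by_cases h : Even (x + -1)
  · simp [hdv, tlv, h, h1, h2]
  · simp [hdv, tlv, h, h1, h2]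

end Vale.Agent.P167.H760.Q
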