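import Vale.Agent.P167.H760.Q.Env1
import Vale.Agent.P167.H760.Q.Img
import Vale.Agent.P167.H760.Q.Arc

/-!
# P167, general `q`, block Q-TWO: the local hypotheses at the sides of the polygons of the core
-/

namespace Vale.Agent.P167.H760.Q

open Finset Vale.Agent.P167 Vale.Agent.P167.BR Vale.Agent.P167.FK Vale.Agent.P167.FKA
open Vale.Agent.P167.E6 (IsPolygon Encloses)
open Vale.Agent.P167.H365 (nm_le' FarE)
open Vale.Agent.P167.H365.NQ (EnvQ XW TW tt)
open Vale.Agent.P167.H718 (wn wn')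
open Vale.Agent.P167.CAQ.J (ArcB nm_be)
open Vale.Agent.P167.H760

/-- The base point is far from the flat parts. -/
theorem base_far (S : CA.Dat) {n t₀ : ℕ} (ht : t₀ < n) {w : ℤ × ℤ} {r : Fin 4}
    (h2 : E6.face w (r - 1) ∉ S.Q) {x m : ℤ} (hx1 : m < x) (hx2 : x + m < n)
    (hb : m < |x - t₀|) : m < nm (pb S n t₀ - ((n : ℤ) • w + x • E6.dir r)) := by
  have h3 := (S.enc (S.p 0) S.r).1 ⟨0, rfl, by rw [zero_add]; exact S.step⟩
  refine side_far (by positivity) (by exact_mod_cast ht.le) hx1 hx2 ?_ ?_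
  · rintro ⟨e1, e2⟩
    rw [e1, e2, face_opp] at h3
    exact h2 h3.1
  · intro _ _
    exact hb

variable {N k : ℕ} {q : ZMod N → ℤ × ℤ} {D : Finset (ℤ × ℤ)} {θ β M Q : ℝ} {f : ℤ × ℤ → ℝ}
  {η : Cfg} {R x j j' : ℤ} {n t₀ : ℕ} {w : ℤ × ℤ} {r : Fin 4}

/-- **The local hypotheses.** -/
theorem env_core (S : CA.Dat) (h1 : E6.face w r ∈ S.Q) (h2 : E6.face w (r - 1) ∉ S.Q)
    (ht : t₀ < n) (hbs : pb S n t₀ ∈ sites (S.D n))
    (hq : IsPolygon q) (hD : Encloses q D) (hs : Real.sin θ ≠ 0) (hc : 0 < Real.cos θ)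
    (hβ : Real.cos (θ / 2 + β) = Real.sin θ) (hη : Good η)
    (hpre : (fj n w r j).pre D = (fj n w r j').pre (S.D n))
    (hsym : (fj n w r j).S.symm (q 0) = (fj n w r j').S.symm (pb S n t₀)) (hR : 1 ≤ R)
    (hx1 : 200 * R < x + j') (hx2 : x + j' + 200 * R < n)
    (hb : 200 * R < |x + j' - t₀|)
    (harc : ArcB (!(fj n w r j).o) q k ((fj n w r j).S (x, 0)) (200 * R))
    (hf : ∀ z, nm (z - (fj n w r j).S (x, 0)) ≤ 200 * R → f z = 0)
    (hfz : ∀ v, nm (v - (fj n w r j).S (x, 0)) ≤ 100 * R → v ∉ D → η v = (fj n w r j).o)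
    (hY : MajY Q D η (wn θ β q D k f) (wn' θ β q D k f) ((fj n w r j).S (x, 0)) (R + 2) M) :
    EnvQ Q (tq θ) 8 R ((fj n w r j).pre D) ((fj n w r j).Ci η) ((fj n w r j).S.symm (q 0))
      (fun A => wn θ β q D k f ((fj n w r j).imE A))
      (fun A => wn' θ β q D k f ((fj n w r j).imE A)) M (x, 0) := by
  set T := fj n w r j with hT
  have hTQ : ∀ v z, nm (T.Q v - T.S z) ≤ nm (v - z) + 1 := fun v z => Tr.fr_dQ _ r v z
  have hbf : ∀ x', |x' - x| ≤ R → 128 * R < nm (pb S n t₀ - (fj n w r j').S (x', 0)) := by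
    intro x' hx'
    rw [fj_S, zero_smul, add_zero]
    rw [abs_le] at hx'
    refine base_far S ht h2 (by omega) (by omega) ?_
    rw [lt_abs] at hb ⊢
    omega
  have hd : ∀ x' : ℤ, nm (T.S (x', 0) - T.S (x, 0)) = |x' - x| := by
    intro x'
    rw [T.dS]
    simp [nm]
  have h0 : |x - x| ≤ R := by rw [sub_self, abs_zero]; omega
  refine env_one T hTQ hq hD hs hc hβ hη ?_ ?_ ?_ ?_ ?_ hY
  · rw [hpre, hsym]
    exact geo_fj S h1 h2 hR (by omega) (by omega) hbs (by have := hbf x h0; omega)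
  · intro x' hx'
    have h3 := hbf x' hx'
    rw [abs_le] at hx'
    rw [hpre, hsym]
    exact geo_fj S h1 h2 (by omega) (by omega) (by omega) hbs (by omega)
  · intro x' hx' z hz
    by_contra hcon
    apply hz
    refine hf _ ?_
    have h3 := H45.nm_sub_le (T.S z) (T.S (x', 0)) (T.S (x, 0))
    rw [hd, show nm (T.S z - T.S (x', 0)) = nm (z - (x', 0)) from T.dS _ _] at h3
    omega
  · intro x' hx' i hi hz
    refine harc i hi ?_
    have h3 := H45.nm_sub_le (q i) (T.S (x', 0)) (T.S (x, 0))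
    rw [hd] at h3
    omega
  · intro v hv hvD
    refine hfz _ ?_ ?_
    · have := hTQ v (x, 0)
      omega
    · rwa [Tr.mem_pre] at hvD

/-- An edge near the base point. -/
theorem far_base (S : CA.Dat) (ht : t₀ < n) (h2 : E6.face w (r - 1) ∉ S.Q) (hq : IsPolygon q)
    (hD : Encloses q D)
    (hsym : (fj n w r j).S.symm (q 0) = (fj n w r j').S.symm (pb S n t₀)) (hR : 1 ≤ R)
    (hx1 : 200 * R < x + j') (hx2 : x + j' + 200 * R < n)
    (hb : 200 * R < |x + j' - t₀|) :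
    FarE ((fj n w r j).pre D) (x, 0) (2 * R) ((fj n w r j).E.symm (be q ((0 : ℕ) : ZMod N))) := by
  set T := fj n w r j with hT
  have hTQ : ∀ v z, nm (v - z) ≤ nm (T.Q v - T.S z) + 1 := fun v z => Tr.fr_dQ' _ r v z
  have h3 : 200 * R < nm (T.S.symm (q 0) - (x, 0)) := by
    rw [hsym, ← (fj n w r j').dS, Equiv.apply_symm_apply, fj_S, zero_smul, add_zero]
    exact base_far S ht h2 hx1 hx2 hb
  obtain ⟨e, he⟩ : ∃ e, e = T.E.symm (be q ((0 : ℕ) : ZMod N)) := ⟨_, rfl⟩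
  have hTe : T.E e = be q ((0 : ℕ) : ZMod N) := by rw [he, Equiv.apply_symm_apply]
  rw [← he]
  have k1 := nm_be hq hD ((0 : ℕ) : ZMod N)
  rw [← hTe, T.hd] at k1
  have k2 := hTQ (if T.o then tlv e else hdv e) (T.S.symm (q 0))
  rw [Equiv.apply_symm_apply] at k2
  rw [Nat.cast_zero] at k1
  have k3 := H365.nm_hdv_tlv (T.S.symm (q 0)) e
  have k4 := H45.nm_sub_le (T.S.symm (q 0)) (hdv e) (x, 0)
  have k5 := H45.nm_sub_le (T.S.symm (q 0)) (tlv e) (x, 0)
  rw [H45.nm_sub_comm (T.S.symm (q 0)) (hdv e)] at k4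
  rw [H45.nm_sub_comm (T.S.symm (q 0)) (tlv e)] at k5
  have k6 : nm (hdv e - T.S.symm (q 0)) ≤ 3 ∧ nm (tlv e - T.S.symm (q 0)) ≤ 3 := by
    split_ifs at k1 k2 <;> omega
  have hmem : e ∈ eds (T.pre D) := by
    rw [← T.mem_edsT, T.im_pre, hTe]
    rcases be_bd hq hD ((0 : ℕ) : ZMod N) with h | h
    · exact mem_eds.2 (Or.inl h.1)
    · exact mem_eds.2 (Or.inr h.1)
  rcases mem_eds.1 hmem with h | h
  · exact Or.inl ⟨h, by omega⟩
  · exact Or.inr ⟨h, by omega⟩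

end Vale.Agent.P167.H760.Q
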