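import Vale.Agent.P167.H760.Q.Arc
import Vale.Agent.P167.H718.Par4
import Vale.Agent.P167.H871.DomE

/-!
# P167, general `q`, block Q-TWO: the charges of the parity image vanish near the flat parts
-/

namespace Vale.Agent.P167.H760.Q

open Finset
open Vale.Agent.P167.E6 (IsPolygon Encloses)
open Vale.Agent.P167.CAQ.J (ArcB)
open Vale.Agent.P167.H871 (Bd)
open Vale.Agent.P167.H718 (gch rc imC)

theorem vec_inj {c d : ℤ} (h : Top.vec c = Top.vec d) (h1 : |c - d| ≤ 1) : c = d := by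
  unfold Top.vec at h
  rw [Prod.mk.injEq] at h
  rw [abs_le] at h1
  rcases H871.dx_cases c with h2 | h2 | h2 | h2 <;> rcases H871.dx_cases d with h3 | h3 | h3 | h3 <;>
    omega

theorem nm_dir (r : Fin 4) : nm (E6.dir r) ≤ 1 := by
  rcases H718.dir4 r with h | h | h | h <;> rw [h] <;> simp [nm]

/-- The additional charges vanish near the flat parts. -/
theorem gch_near (S : CA.Dat) {n : ℕ} (hn : 0 < n) {N : ℕ} {q : ZMod N → ℤ × ℤ}
    (hq : IsPolygon q) (hD : Encloses q (S.D n)) {t₀ : ℕ} (ht : t₀ < n) (hb : q 0 = pb S n t₀)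
    {w : ℤ × ℤ} {r : Fin 4}
    (h1 : E6.face w r ∈ S.Q) (h2 : E6.face w (r - 1) ∉ S.Q) {x m : ℤ} (hx1 : m + 1 < x)
    (hx2 : x + m + 1 < n) {τ : ℕ → ℤ}
    (hτ : Bd (S.D n : Set (ℤ × ℤ)) N (fun i => q (i : ZMod N)) τ 1) {b : Bool} {k : ℕ}
    (harc : ArcB b q k ((n : ℤ) • w + x • E6.dir r) (m + 1)) (θ β : ℝ) (a z : ℤ × ℤ)
    (hz : nm (z - a - ((n : ℤ) • w + x • E6.dir r)) ≤ m) :
    gch (fun i => q i + a) (rc θ β τ k) z = 0 := by
  obtain ⟨i, hi, -⟩ := (S.enc w r).2 ⟨h1, h2⟩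
  unfold gch
  refine sum_eq_zero fun j hj => ?_
  rw [mem_Ico] at hj
  obtain ⟨j, rfl⟩ : ∃ j', j = j' + 1 := ⟨j - 1, by omega⟩
  rw [Nat.add_sub_cancel]
  split_ifs with hqz
  swap
  · rfl
  have e1 : q ((j + 1 : ℕ) : ZMod N) = z - a := eq_sub_of_add_eq hqz
  have d1 : nm (q ((j + 1 : ℕ) : ZMod N) - ((n : ℤ) • w + x • E6.dir r)) ≤ m := by
    rw [e1]; exact hz
  -- the previous site
  have d0 : nm (q ((j : ℕ) : ZMod N) - ((n : ℤ) • w + x • E6.dir r)) ≤ m + 1 := by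
    obtain ⟨r', hr'⟩ := hq.2.2 (j : ZMod N)
    have h3 : nm (q (j : ZMod N) - q ((j + 1 : ℕ) : ZMod N)) ≤ 1 := by
      rw [Nat.cast_succ, hr', H45.nm_sub_comm, add_sub_cancel_left]
      exact nm_dir r'
    have h4 := H45.nm_sub_le (q (j : ZMod N)) (q ((j + 1 : ℕ) : ZMod N))
      ((n : ℤ) • w + x • E6.dir r)
    omega
  have s0 := (side_index S hn hq hD ht hb h2 (x := x) (m := m + 1) (by omega) (by omega) hi
    (show j < N by omega) d0).2
  have s1 := (side_index S hn hq hD ht hb h2 (x := x) (m := m + 1) (by omega) (by omega) hi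
    (show j + 1 < N by omega) (d1.trans (by omega))).2
  have t0 := hτ.step j
  have t1 := hτ.step (j + 1)

  have hv : τ (j + 1) = τ j := by
    refine vec_inj ?_ (hτ.turn j)
    have u0 : Top.vec (τ j) = E6.dir r := by
      rw [s0] at t0
      exact (add_left_cancel t0).symm
    have u1 : Top.vec (τ (j + 1)) = E6.dir r := by
      rw [s1] at t1
      exact (add_left_cancel t1).symm
    rw [u0, u1]
  have k0 := harc j (by omega) d0
  have k1 := harc (j + 1) (by omega) (d1.trans (by omega))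
  have hk : (j + 1 < k) ↔ j < k := by
    split_ifs at k0 k1 <;> omega
  unfold rc
  rw [hv]
  simp only [hk]
  ring

/-- **The charges of the parity image vanish near the flat parts.** -/
theorem imC_near (S : CA.Dat) {n : ℕ} (hn : 0 < n) {N : ℕ} {q : ZMod N → ℤ × ℤ}
    (hq : IsPolygon q) (hD : Encloses q (S.D n)) {t₀ : ℕ} (ht : t₀ < n) (hb : q 0 = pb S n t₀)
    {w : ℤ × ℤ} {r : Fin 4}
    (h1 : E6.face w r ∈ S.Q) (h2 : E6.face w (r - 1) ∉ S.Q) {x m : ℤ} (hx1 : m + 1 < x)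
    (hx2 : x + m + 1 < n) {τ : ℕ → ℤ}
    (hτ : Bd (S.D n : Set (ℤ × ℤ)) N (fun i => q (i : ZMod N)) τ 1) {b : Bool} {k : ℕ}
    (harc : ArcB b q k ((n : ℤ) • w + x • E6.dir r) (m + 1)) (θ β : ℝ) (a : ℤ × ℤ)
    {f : ℤ × ℤ → ℝ} (hf : ∀ z, nm (z - ((n : ℤ) • w + x • E6.dir r)) ≤ m → f z = 0) (z : ℤ × ℤ)
    (hz : nm (z - a - ((n : ℤ) • w + x • E6.dir r)) ≤ m) :
    imC θ β τ q k a f z = 0 := by
  unfold imC
  rw [gch_near S hn hq hD ht hb h1 h2 hx1 hx2 hτ harc θ β a z hz, hf _ hz]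
  simp

end Vale.Agent.P167.H760.Q
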