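import Vale.Agent.P167.H760.Q.Wn
import Vale.Agent.P167.H760.Q.Geo

/-!
# P167, general `q`, block Q-TWO: the fields `near` and `cro` of `EnvQ` in a frame
-/

namespace Vale.Agent.P167.H760.Q

open Finset MeasureTheory Vale.Agent.P167 Vale.Agent.P167.BR Vale.Agent.P167.FK Vale.Agent.P167.FKA
open Vale.Agent.P167.E6 (IsPolygon Encloses)
open Vale.Agent.P167.H365 (nm_le' Jn Jt HPot FarA FarE Agr ThrS Cro CroI CroO Env TA sgA Fl mass_near
  mass_cro cro_strand far_mem_iff cro_mem_eds croI_data croO_data hA_sub run_mono mem_hA run_congr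
  sgn_eq sgA_eq cro_congr thrS_congr nm_nx nm_hdv_tlv TA_congr)
open Vale.Agent.P167.H365.NQ (EnvQ XW TW tt)
open Vale.Agent.P167.H718 (IsXY wn wn')
open Vale.Agent.P167.CAQ.J (ArcB nm_be)
open Vale.Agent.P167.H760
open Vale.Agent.P167.H365 (Jn.mono' Jn.symm)

variable {n k : ℕ} {q : ZMod n → ℤ × ℤ} {D : Finset (ℤ × ℤ)} {θ β M : ℝ} {f : ℤ × ℤ → ℝ}
  {ω ω' : Cfg} {A : Finset Ed} {K R m a : ℤ} {p u : ℤ × ℤ}

/-- The geometric fields give helper365's environment for every charge far from `u`. -/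
theorem GeoQ.toEnv (G : GeoQ K R D p u) (hf : ∀ z, f z ≠ 0 → 8 * K * R < nm (z - u)) :
    ∃ M, Env K R D p f M u := by
  classical
  obtain ⟨M1, h1⟩ := QX.loc_bdd (D := D) (F := XD D p f) fun ω ω' h => BR.XD_congr h p f
  obtain ⟨M2, h2⟩ := QX.loc_bdd (D := D) (F := fun ω => ∑ A ∈ pcs ω D, |TA D p f ω A|)
    fun ω ω' h => by
      show ∑ A ∈ pcs ω D, |TA D p f ω A| = ∑ A ∈ pcs ω' D, |TA D p f ω' A|
      rw [pcs_congr h]
      exact sum_congr rfl fun A _ => by rw [TA_congr h]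
  have h10 : 0 ≤ M1 := (abs_nonneg _).trans (h1 fun _ => true)
  have h20 : 0 ≤ M2 := (abs_nonneg _).trans (h2 fun _ => true)
  refine ⟨M1 + M2, G.one_le, G.R1, G.dom, G.gf, G.hp, hf, G.pot, fun _ => M1 + M2,
    ⟨∅, fun _ _ _ => rfl⟩, fun _ _ _ => rfl, fun ω => (h1 ω).trans (by linarith),
    fun ω A hA => ?_, ?_⟩
  · have h3 : |TA D p f ω A| ≤ ∑ A ∈ pcs ω D, |TA D p f ω A| :=
      single_le_sum (f := fun A => |TA D p f ω A|) (fun _ _ => abs_nonneg _) hA
    have h4 := h2 ω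
    rw [abs_of_nonneg (sum_nonneg fun _ _ => abs_nonneg _)] at h4
    linarith
  · rw [integral_const]
    simp

/-- A far edge of the piece of a crossing, with a right site joined to `p`. -/
theorem far_edge (E : Env K R D p f M u) (ham : a ≤ m) (hm : m + 1 ≤ R) {c : Ed}
    (hc : Cro ω u a m c) :
    ∃ e, FarE D u m e ∧ Jn D (FarE D u m) p (rs e) ∧
      ∀ ω', (∀ v ∈ H365.hA u a m, ω v = ω' v) → e ∈ piece ω' D c := by
  have hR := E.R1
  have hKR := E.KR
  have hF : Fl D u (m + 1) := fun v hv => E.fl v (by nlinarith)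
  have hcD := cro_mem_eds hF ham hc
  have hm0 : 0 ≤ m := by
    have hn : ∀ v : ℤ × ℤ, 0 ≤ nm (v - u) := fun v => H365.nm_nonneg _
    rcases hc with hc | hc
    · obtain ⟨l, hl, h1, h2, h3, -⟩ := croI_data hF ham hc
      have := hn (tlv c)
      omega
    · obtain ⟨l, hl, h1, -, -, -, h3⟩ := croO_data hF ham hc
      have := hn (hdv ((nx ω)^[l] c))
      omega
  rcases hc with hc | hc
  · obtain ⟨l, hl, h1, h2, h3, h4, h5⟩ := croI_data hF ham hc
    refine ⟨(nx ω)^[l] c, Or.inl ⟨h4, h5⟩, Jn.symm ?_, fun ω' h => ?_⟩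
    · refine E.jn_ring hm0 hm h4 h5 ?_ (corner_hd _).2.2.1 (corner_hd _).2.2.2
      have h6 := h1.2 (l - 1) (by omega)
      rw [mem_hA] at h6
      have h7 := (nm_nx ω u ((nx ω)^[l - 1] c)).1
      rw [← Function.iterate_succ_apply' (nx ω), show (l - 1).succ = l by omega] at h7
      omega
    · have h6 := run_congr h h1
      exact (mem_of_run (piece_mem_pcs hcD) (run_mono (hA_sub hF) h6)).1 (self_mem_piece hcD)
  · obtain ⟨l, hl, h1, h2, h3, h4, h5⟩ := croO_data hF ham hc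
    refine ⟨c, Or.inr ⟨h2, h3⟩, Jn.symm ?_, fun ω' h => self_mem_piece hcD⟩
    refine E.jn_ring hm0 hm h2 h3 ?_ (corner_tl _).2.2.1 (corner_tl _).2.2.2
    have h6 := h1.2 0 (by omega)
    simp only [Function.iterate_zero, id_eq] at h6
    rw [mem_hA] at h6
    have h7 := (nm_hdv_tlv u c).2
    omega

/-- The sign of the piece of a crossing does not depend on the inside. -/
theorem sgA_cro (E : Env K R D p f M u) (ham : a ≤ m) (hm : m + 1 ≤ R)
    (hag : Agr D u a ω ω') (h3 : ¬ ThrS u a m ω) {c : Ed} (hc : Cro ω u a m c) :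
    sgA D p (piece ω D c) = sgA D p (piece ω' D c) := by
  have hR := E.R1
  have hKR := E.KR
  have hF : Fl D u (m + 1) := fun v hv => E.fl v (by nlinarith)
  have hh := hag.hA hF
  have hcD := cro_mem_eds hF ham hc
  obtain ⟨e, he1, he2, he3⟩ := far_edge E ham hm hc
  rw [sgA_eq (piece_mem_pcs hcD) (he3 ω fun _ _ => rfl), sgA_eq (piece_mem_pcs hcD) (he3 ω' hh)]
  exact sgn_eq (E.pot _ _ (piece_mem_pcs hcD)) (E.pot _ _ (piece_mem_pcs hcD))
    (fun e he => far_mem_iff hF ham hag h3 hc he) he2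

/-- The mass of a piece without far edges is zero. -/
theorem mass_zero (E : Env K R D p f M u) (h0 : 0 ≤ m) (hm : m ≤ 2 * R - 1)
    (hA : ¬ FarA D u m A) : mass D p f A = 0 := by
  refine mass_near (fun z hz hfz => ?_) hA
  have h1 := E.one_le
  have h2 := E.R1
  have hKR := E.KR
  have h3 := E.hf z hfz
  have h4 := E.hp
  have h5 : K * (m + 1) ≤ K * (2 * R) := mul_le_mul_of_nonneg_left (by omega) (by omega)
  refine Jn.mono' (fun e he h' => H365.farE_of_hd he h') (E.gf u (m + 1) (by omega) (by omega) z hz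
    (by nlinarith) (by nlinarith))

theorem imE_mem (T : Tr) (hA : A ∈ pcs ω (T.pre D)) : T.imE A ∈ pcs (T.C ω) D := by
  classical
  have h := T.pcsT (ω := ω) (D := T.pre D)
  rw [T.im_pre] at h
  rw [h]
  exact mem_image_of_mem _ hA

theorem lp_iff (T : Tr) (hA : A ∈ pcs ω (T.pre D)) : IsLp D (T.imE A) ↔ IsLp (T.pre D) A := by
  have h := T.isLpT hA
  rwa [T.im_pre] at h

section fr

variable (T : Tr) (hTQ : ∀ v z, nm (T.Q v - T.S z) ≤ nm (v - z) + 1) (hq : IsPolygon q)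
  (hD : Encloses q D)
include hTQ hq hD

/-- The position of a side whose edge is not far. -/
theorem near_side {x : ℕ} {e : Ed} (he : T.E e = be q x) (hd : e ∈ eds (T.pre D))
    (hf : ¬ FarE (T.pre D) u m e) : nm (q x - T.S u) ≤ m + 3 := by
  have h1 : nm (hdv e - u) ≤ m + 1 ∧ nm (tlv e - u) ≤ m + 1 := by
    unfold FarE at hf
    push Not at hf
    have h2 := nm_hdv_tlv u e
    rcases mem_eds.1 hd with h | h
    · have := hf.1 h; omega
    · have := hf.2 h; omega
  have h2 : nm (hdv (be q x) - T.S u) ≤ m + 2 := by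
    rw [← he, T.hd]
    refine (hTQ _ _).trans ?_
    split_ifs <;> omega
  have h3 := nm_be hq hD (x : ZMod n)
  have h4 := H365.nm_tri (q x) (hdv (be q x)) (T.S u)
  rw [H365.nm_comm (q x) (hdv (be q x))] at h4
  omega

omit hTQ in
/-- The sign in the frame. -/
theorem sgA_fr (E : Env K R (T.pre D) (T.S.symm (q 0)) (fun z => f (T.S z)) M u)
    (hA : A ∈ pcs ω (T.pre D)) {x y : ℕ} (h : IsXY q (T.imE A) x y) :
    sgA (T.pre D) (T.S.symm (q 0)) A = 1 ↔ (T.o = false ↔ y < x) := by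
  have h1 := T.sgA_T hA E.pot (p := T.S.symm (q 0)) fun e he =>
    Jn.symm (E.jt (rs_mem_sites (subset_eds hA he)))
  rw [T.im_pre, Equiv.apply_symm_apply, H718.sgA_xy hq hD (imE_mem T hA) h] at h1
  cases ho : T.o
  · rw [ho] at h1
    simp only [Bool.false_eq_true, if_false, one_mul] at h1
    rw [← h1]
    simp only [true_iff]
    split_ifs with h2 <;> norm_num [h2]
  · rw [ho] at h1
    simp only [if_true] at h1
    have h3 : sgA (T.pre D) (T.S.symm (q 0)) A = - (if y < x then 1 else -1) := by linarith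
    rw [h3]
    split_ifs with h2 <;> norm_num [h2]

/-- **The field `near`.** -/
theorem near_fr (hs : Real.sin θ ≠ 0) (hc : 0 < Real.cos θ)
    (hβ : Real.cos (θ / 2 + β) = Real.sin θ)
    (E : Env K R (T.pre D) (T.S.symm (q 0)) (fun z => f (T.S z)) M u) (h0 : 0 ≤ m)
    (hm : m ≤ 2 * R - 1) (harc : ArcB (!T.o) q k (T.S u) (m + 3))
    (hA : A ∈ pcs ω (T.pre D)) (hn : ¬ FarA (T.pre D) u m A) :
    wn θ β q D k f (T.imE A) = 1 ∧
      wn' θ β q D k f (T.imE A) = tt (tq θ) (T.pre D) (T.S.symm (q 0)) A := by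
  classical
  have hB := imE_mem T hA
  have hmass : mass D (q 0) f (T.imE A) = 0 := by
    have h := T.massT (D := T.pre D) (A := A) (T.S.symm (q 0)) f
    rw [T.im_pre, Equiv.apply_symm_apply] at h
    rw [h]
    exact mass_zero E h0 hm hn
  refine ⟨wn_one hq hD hs hc hβ hB hmass, ?_⟩
  unfold tt
  by_cases hl : IsLp (T.pre D) A
  · rw [if_pos hl]
    exact wn'_loop hq hD ((lp_iff T hA).2 hl) hmass
  · rw [if_neg hl]
    have hl' : ¬ IsLp D (T.imE A) := fun h => hl ((lp_iff T hA).1 h)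
    obtain ⟨x, y, hxy⟩ := QX.exists_xy hq hD hB hl'
    have hside : ∀ z : ℕ, z < n → be q z ∈ T.imE A → (if (!T.o) then z < k else k ≤ z) := by
      intro z hz hzA
      rw [T.mem_imE'] at hzA
      exact harc z hz (near_side T hTQ hq hD (Equiv.apply_symm_apply _ _) (subset_eds hA hzA)
        fun h => hn ⟨_, hzA, h⟩)
    rw [wn'_strand hq hD hB hl' hxy hmass (b := !T.o) (hside x hxy.1 hxy.2.2.1)
      (hside y hxy.2.1 hxy.2.2.2.1)]
    have h5 := sgA_fr T hq hD E hA hxy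
    have h6 : (((!T.o) = true) ↔ y < x) ↔ (T.o = false ↔ y < x) := by
      cases T.o <;> simp
    simp only [h5, h6]

/-- **The field `cro`.** -/
theorem cro_fr (E : Env K R (T.pre D) (T.S.symm (q 0)) (fun z => f (T.S z)) M u) (ham : a ≤ m)
    (hm : m + 1 ≤ R) (harc : ArcB (!T.o) q k (T.S u) (m + 3))
    (hag : Agr (T.pre D) u a ω ω') (h3 : ¬ ThrS u a m ω) {c : Ed} (hc : Cro ω u a m c) :
    wn θ β q D k f (T.imE (piece ω (T.pre D) c)) = wn θ β q D k f (T.imE (piece ω' (T.pre D) c)) ∧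
      wn' θ β q D k f (T.imE (piece ω (T.pre D) c)) =
        wn' θ β q D k f (T.imE (piece ω' (T.pre D) c)) := by
  classical
  have hR := E.R1
  have hKR := E.KR
  have hF : Fl (T.pre D) u (m + 1) := fun v hv => E.fl v (by nlinarith)
  have hh := hag.hA hF
  have hcD := cro_mem_eds hF ham hc
  have hA : piece ω (T.pre D) c ∈ pcs ω (T.pre D) := piece_mem_pcs hcD
  have hA' : piece ω' (T.pre D) c ∈ pcs ω' (T.pre D) := piece_mem_pcs hcD
  have hB := imE_mem T hA
  have hB' := imE_mem T hA'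
  have hc' := (cro_congr hh).1 hc
  have h3' : ¬ ThrS u a m ω' := by rwa [← thrS_congr hh]
  have hl : ¬ IsLp D (T.imE (piece ω (T.pre D) c)) := fun h =>
    cro_strand hF ham h3 hc ((lp_iff T hA).1 h)
  have hl' : ¬ IsLp D (T.imE (piece ω' (T.pre D) c)) := fun h =>
    cro_strand hF ham h3' hc' ((lp_iff T hA').1 h)
  obtain ⟨x, y, hxy⟩ := QX.exists_xy hq hD hB hl
  obtain ⟨x', y', hxy'⟩ := QX.exists_xy hq hD hB' hl'
  have hm0 : 0 ≤ m := by
    rcases hc with hc | hc
    · obtain ⟨l, hl, h1, h2, h3, -⟩ := croI_data hF ham hc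
      have := H365.nm_nonneg (tlv c - u)
      omega
    · obtain ⟨l, hl, h1, -, -, -, h3⟩ := croO_data hF ham hc
      have := H365.nm_nonneg (hdv ((nx ω)^[l] c) - u)
      omega
  -- the masses
  have hmass : mass D (q 0) f (T.imE (piece ω (T.pre D) c)) =
      mass D (q 0) f (T.imE (piece ω' (T.pre D) c)) := by
    have h1 := T.massT (D := T.pre D) (A := piece ω (T.pre D) c) (T.S.symm (q 0)) f
    have h2 := T.massT (D := T.pre D) (A := piece ω' (T.pre D) c) (T.S.symm (q 0)) f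
    rw [T.im_pre, Equiv.apply_symm_apply] at h1 h2
    rw [h1, h2]
    exact mass_cro hF ham E.pot (E.chJ (by
      have : nm (u - u) = 0 := by simp [nm]
      omega) hm0 (by omega)) hag h3 hc
  -- the order
  have hord : y < x ↔ y' < x' := by
    have h1 := sgA_fr T hq hD E hA hxy
    have h2 := sgA_fr T hq hD E hA' hxy'
    rw [sgA_cro E ham hm hag h3 hc, h2] at h1
    cases ho : T.o
    · simp only [ho, true_iff] at h1
      exact h1.symm
    · simp only [ho, Bool.true_eq_false, false_iff] at h1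
      exact (not_iff_not.1 h1).symm
  -- the kinds
  have hfar : ∀ z : ℕ, FarE (T.pre D) u m (T.E.symm (be q z)) →
      (be q z ∈ T.imE (piece ω (T.pre D) c) ↔ be q z ∈ T.imE (piece ω' (T.pre D) c)) := by
    intro z hz
    rw [T.mem_imE', T.mem_imE']
    exact far_mem_iff hF ham hag h3 hc hz
  have hnear : ∀ z : ℕ, z < n → T.E.symm (be q z) ∈ eds (T.pre D) →
      ¬ FarE (T.pre D) u m (T.E.symm (be q z)) → (if (!T.o) then z < k else k ≤ z) :=
    fun z hz h1 h2 => harc z hz (near_side T hTQ hq hD (Equiv.apply_symm_apply _ _) h1 h2)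
  have hds : ∀ z : ℕ, be q z ∈ T.imE (piece ω (T.pre D) c) → T.E.symm (be q z) ∈ eds (T.pre D) :=
    fun z hz => subset_eds hA (T.mem_imE'.1 hz)
  have hds' : ∀ z : ℕ, be q z ∈ T.imE (piece ω' (T.pre D) c) →
      T.E.symm (be q z) ∈ eds (T.pre D) := fun z hz => subset_eds hA' (T.mem_imE'.1 hz)
  have hkx : x < k ↔ x' < k := by
    by_cases h1 : FarE (T.pre D) u m (T.E.symm (be q x))
    · have h2 := (hxy'.iff hq hD hB' hxy.1).1 ((hfar x h1).1 hxy.2.2.1)
      rcases h2 with h2 | h2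
      · rw [h2]
      · exact absurd (h2 ▸ hxy.2.2.2.2.1) hxy'.2.2.2.2.2
    · by_cases h1' : FarE (T.pre D) u m (T.E.symm (be q x'))
      · have h2 := (hxy.iff hq hD hB hxy'.1).1 ((hfar x' h1').2 hxy'.2.2.1)
        rcases h2 with h2 | h2
        · rw [h2]
        · exact absurd (h2 ▸ hxy'.2.2.2.2.1) hxy.2.2.2.2.2
      · have h4 := hnear x hxy.1 (hds x hxy.2.2.1) h1
        have h5 := hnear x' hxy'.1 (hds' x' hxy'.2.2.1) h1'
        split_ifs at h4 h5 <;> omega
  have hky : y < k ↔ y' < k := by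
    by_cases h1 : FarE (T.pre D) u m (T.E.symm (be q y))
    · have h2 := (hxy'.iff hq hD hB' hxy.2.1).1 ((hfar y h1).1 hxy.2.2.2.1)
      rcases h2 with h2 | h2
      · exact absurd (h2 ▸ hxy'.2.2.2.2.1) hxy.2.2.2.2.2
      · rw [h2]
    · by_cases h1' : FarE (T.pre D) u m (T.E.symm (be q y'))
      · have h2 := (hxy.iff hq hD hB hxy'.2.1).1 ((hfar y' h1').2 hxy'.2.2.2.1)
        rcases h2 with h2 | h2
        · exact absurd (h2 ▸ hxy.2.2.2.2.1) hxy'.2.2.2.2.2
        · rw [h2]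
      · have h4 := hnear y hxy.2.1 (hds y hxy.2.2.2.1) h1
        have h5 := hnear y' hxy'.2.1 (hds' y' hxy'.2.2.2.1) h1'
        split_ifs at h4 h5 <;> omega
  exact wn_congr hq hD hB hB' hl hl' hxy hxy' hmass hord hkx hky

end fr

end Vale.Agent.P167.H760.Q
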