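import Vale.Agent.P167.H760.Q.Bs7
import Vale.Agent.P167.H852.Q.Cls
import Vale.Agent.P167.H852.Q.Neu
import Vale.Agent.P167.H825.Q.BdQ
import Vale.Agent.P167.K8.RswFin

/-!
# P167, general `q`: the Neumann block

`neu_block`: the averaged Neumann condition `NeuH` of the three families (free, wired, Dobrushin) of the
polygons in question (`tp = 1 / 2`, base and junction on sides in the direction `0`, `4 ∣ n`), from the
inputs `MomT`, `LamT` for the class `Cls` (free with even base, wired with odd base, Dobrushin).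
-/

namespace Vale.Agent.P167.H760.Q

open Filter Topology
open Vale.Agent.P167.FK (Ex RSW)
open Vale.Agent.P167.CA (Dat)
open Vale.Agent.P167.H542.Q (BD)
open Vale.Agent.P167.H365.NQ (NREDQ)
open Vale.Agent.P167.H825.Q (Bc bdQ qS kS tN)
open Vale.Agent.P167.H852.Q (Cls FwC DbC MomT LamT JunK twoAll_of majI_of sepE_of)

variable {θ β : ℝ}

/-- The parity of the sites of the base side. -/
theorem even_pb {S : Dat} (hr : S.r = 0) {n : ℕ} (h4 : 4 ∣ n) (t : ℕ) :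
    Even ((pb S n t).1 + (pb S n t).2) ↔ Even t := by
  obtain ⟨m, rfl⟩ := h4
  unfold pb
  rw [hr, show E6.dir 0 = ((1 : ℤ), (0 : ℤ)) from rfl]
  simp only [Prod.fst_add, Prod.snd_add, Prod.smul_fst, Prod.smul_snd, smul_eq_mul, mul_one,
    mul_zero, add_zero]
  rw [show ((4 * m : ℕ) : ℤ) * (S.p 0).1 + (t : ℤ) + ((4 * m : ℕ) : ℤ) * (S.p 0).2 =
    (t : ℤ) + 2 * (2 * m * ((S.p 0).1 + (S.p 0).2)) by push_cast; ring, Int.even_add,
    Int.even_coe_nat]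
  simp

theorem even_floor {S : Dat} (htp : S.tp = 1 / 2) {n : ℕ} (h4 : 4 ∣ n) : Even ⌊S.tp * n⌋₊ := by
  obtain ⟨m, rfl⟩ := h4
  have e : S.tp * ((4 * m : ℕ) : ℝ) = ((2 * m : ℕ) : ℝ) := by rw [htp]; push_cast; ring
  rw [e, Nat.floor_natCast]
  exact even_two_mul m

theorem kS_dobT {S : Dat} {i n : ℕ} : kS S (.dob i S.tp) n = i * n := by
  show Enl.kOf S.l n (tN S n) i ⌊S.tp * n⌋₊ = i * n
  unfold Enl.kOf tN
  split_ifs <;> omega

/-- **The Neumann block.** -/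
theorem neu_block (h0 : 0 < θ) (h1 : θ ≤ Real.pi / 3) (hβ : Real.cos (θ / 2 + β) = Real.sin θ)
    (hN : ∀ t, NREDQ (2 * Real.cos θ) t 8)
    (hML : ∀ {S : Dat} (X : BD S θ β) (s : ℕ → ℕ), BaseQ X s → Cls X → MomT X ∧ LamT X)
    (S : Dat) (bc : Bc) (hbc : bc.In S.l) (L : Filter ℕ) (hL : L ≤ atTop)
    (hc : L.IsCountablyGenerated) (htp : S.tp = 1 / 2) (hr : S.r = 0) (h4 : L ≤ 𝓟 {n | 4 ∣ n})
    (hbg : ∀ i ta, bc = .dob i ta → ta = S.tp ∧ S.p (i + 1) = S.p i + (1, 0)) {f : ℂ → ℝ}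
    (hf : S.FF f) : NeuH S L (fun n => ((bdQ S θ β bc hbc L hL hc).famB h0 h1 hβ).H n f) := by
  have hRSW : RSW (2 * Real.cos θ) := K8.k_rsw θ h0.le h1
  have h4' : ∀ᶠ n in L, 4 ∣ n := h4 (mem_principal_self _)
  obtain ⟨X, hX⟩ : ∃ X : BD S θ β, X = bdQ S θ β bc hbc L hL hc := ⟨_, rfl⟩
  have hXL : X.L = L := by rw [hX]; rfl
  have hb : ∀ᶠ n : ℕ in X.L, X.q n 0 = S.b n := by
    rw [hX]
    exact hL ((eventually_gt_atTop 0).mono fun _ hn => H825.Q.qS_zero S hn)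
  have hpar : ∀ᶠ n : ℕ in X.L, Even ((X.q n 0).1 + (X.q n 0).2) := by
    filter_upwards [hb, (hXL ▸ h4' : ∀ᶠ n in X.L, 4 ∣ n)] with n a1 a2
    rw [a1, pb_b, even_pb hr a2]
    exact even_floor htp a2
  have h4X : X.L ≤ 𝓟 {n | 4 ∣ n} := hXL ▸ h4
  -- with the base `S.b n`
  have main : JunK X → Cls X → NeuH S X.L (fun n => (X.famB h0 h1 hβ).H n f) := by
    intro hj hcl
    obtain ⟨hM, hLa⟩ := hML X _ (baseQ_b hb) hcl
    exact neuh_of_two (BD.cos_pos h0 h1) hN X.le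
      (twoAll_of X h0 h1 hβ hRSW (baseQ_b hb) hj hM hLa hf)
  rw [← hX]
  rw [← hXL]
  cases bc with
  | free =>
    have hk : ∀ᶠ n in X.L, X.k n = X.N n := by rw [hX]; exact Eventually.of_forall fun _ => rfl
    refine main (Or.inr (Or.inl hk)) ⟨htp, hr, h4X, Or.inl ⟨false, ?_, ?_⟩⟩
    · simpa using hk
    · simpa using hpar
  | wired =>
    have hk : ∀ᶠ n in X.L, X.k n = 0 := by rw [hX]; exact Eventually.of_forall fun _ => rfl
    have hk' : ∀ᶠ n in X.L, X.k n = 0 ∨ X.k n = X.N n := hk.mono fun _ h => Or.inl h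
    have hbn := baseQ_nb X hk' hb
    have hjK : JunK (nbX X hk') := Or.inl hk
    have hj : JunQ X 0 0 := hk.mono fun n hn => by rw [hn]; simp
    have hcl : Cls (nbX X hk') := by
      refine ⟨htp, hr, h4X, Or.inl ⟨true, hk, ?_⟩⟩
      · filter_upwards [hbn.2, (hXL ▸ h4' : ∀ᶠ n in X.L, 4 ∣ n)] with n a1 a2
        rw [a1, even_pb hr a2, Nat.even_add_one]
        simpa using even_floor htp a2
    obtain ⟨hM, hLa⟩ := hML (nbX X hk') _ hbn hcl
    exact neuh_shift X h0 h1 hβ hRSW hN hk' hb hj hf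
      (majI_of h0 h1 hβ hRSW (nbX X hk') hbn (junQ_nb X hk' hj) (sepE_of (nbX X hk') hbn hjK) hM
        hLa hf)
  | dob i ta =>
    obtain ⟨rfl, hdir⟩ := hbg i ta rfl
    have hk : ∀ᶠ n in X.L, X.k n = i * n := by
      rw [hX]
      exact Eventually.of_forall fun _ => kS_dobT
    obtain ⟨i0, i1, -, -⟩ := hbc
    refine main (Or.inr (Or.inr ⟨i, 0, i0, i1, hk.mono fun n hn => ?_⟩))
      ⟨htp, hr, h4X, Or.inr ⟨i, i0, i1, hdir, hb, hk⟩⟩
    rw [hn]
    push_cast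
    simp

end Vale.Agent.P167.H760.Q
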