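import Vale.Agent.P167.H760.Q.Wn
import Vale.Agent.P167.H542.Q.FamB

/-!
# P167, general `q`, block Q-TWO: the potentials of the families are derivatives of the normalised
functionals
-/

namespace Vale.Agent.P167.H760.Q

open Finset Vale.Agent.P167.BR Vale.Agent.P167.FK
open Vale.Agent.P167.E6 (IsPolygon Encloses)
open Vale.Agent.P167.H718 (IsXY IsCl Cl wn wn' Wt Wt' wQ' isCl_strand)
open Vale.Agent.P167.QX (wQ stag lo hi lo_xy hi_xy)
open Vale.Agent.P167.H542.Q (thB wR wR' XTR BD)
open Vale.Agent.P167.H365.NQ (XW TW XTW)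
open Vale.Agent.P167.H365 (se)

variable {n k : ℕ} {q : ZMod n → ℤ × ℤ} {D : Finset (ℤ × ℤ)} {θ β : ℝ} {f : ℤ × ℤ → ℝ}
  {ω : Cfg} {A : Finset Ed}

/-- The phases of the strands. -/
theorem ph_thB (hq : IsPolygon q) (hD : Encloses q D) (hA : A ∈ pcs ω D) (hl : ¬ IsLp D A) :
    θ / 2 + stag θ β q k (hi q A) - stag θ β q k (lo q A) = thB θ β q D k A := by
  classical
  obtain ⟨x, y, h⟩ := QX.exists_xy hq hD hA hl
  have hcl := isCl_strand (k := k) hq hD hA hl h
  have hlo := lo_xy hq hD hA h
  have hhi := hi_xy hq hD hA h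
  have hne := h.ne
  rw [ph_eq hq hD hA h]
  unfold thB
  rw [if_neg hl, hlo, hhi]
  rcases lt_or_gt_of_ne hne with h1 | h1
  · rw [max_eq_right h1.le, min_eq_left h1.le, if_neg (by omega)]
    by_cases hxk : x < k
    · by_cases hyk : y < k
      · have hncl : ¬ IsCl D q k A := by rw [hcl]; unfold Cl; omega
        rw [if_pos hyk, if_pos hxk, if_neg (by omega), if_neg hncl]
        ring
      · rw [if_neg hyk, if_pos hxk, if_pos ⟨hxk, by omega⟩]
        ring
    · have hcl' : IsCl D q k A := by rw [hcl]; unfold Cl; omega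
      rw [if_neg (by omega), if_neg hxk, if_neg (by omega), if_pos hcl']
      ring
  · rw [max_eq_left h1.le, min_eq_right h1.le, if_pos h1]
    by_cases hyk : y < k
    · by_cases hxk : x < k
      · have hcl' : IsCl D q k A := by rw [hcl]; unfold Cl; omega
        rw [if_pos hxk, if_pos hyk, if_neg (by omega), if_pos hcl']
        ring
      · rw [if_neg hxk, if_pos hyk, if_pos ⟨hyk, by omega⟩]
        ring
    · have hncl : ¬ IsCl D q k A := by rw [hcl]; unfold Cl; omega
      rw [if_neg (by omega), if_neg hyk, if_neg (by omega), if_neg hncl]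
      ring

/-- The normalised weights. -/
theorem wn_thB (hq : IsPolygon q) (hD : Encloses q D) (hA : A ∈ pcs ω D) :
    wn θ β q D k f A = wR (thB θ β q D k A) (mass D (q 0) f A) ∧
      wn' θ β q D k f A = wR' (thB θ β q D k A) (mass D (q 0) f A) := by
  classical
  unfold wn wn' Wt Wt' wQ wQ' wR wR'
  by_cases hl : IsLp D A
  · have e : thB θ β q D k A = θ := by unfold thB; rw [if_pos hl]
    rw [if_pos hl, if_pos hl, if_pos hl, e, add_zero, mul_div_mul_left _ _ two_ne_zero,
      mul_div_mul_left _ _ two_ne_zero]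
    exact ⟨rfl, rfl⟩
  · rw [if_neg hl, if_neg hl, if_neg hl, ph_thB hq hD hA hl, add_zero,
      mul_div_mul_left _ _ two_ne_zero, mul_div_mul_left _ _ two_ne_zero]
    exact ⟨rfl, rfl⟩

/-- The potential is the derivative in a charge. -/
theorem xtr_eq (hq : IsPolygon q) (hD : Encloses q D) (z : ℤ × ℤ) (ω : Cfg) :
    XTR (thB θ β q D k) D (q 0) f z ω =
      XTW D (q 0) (wn θ β q D k f) (wn' θ β q D k f) z ω := by
  classical
  unfold XTR XTW TW se
  rw [sum_filter]
  refine sum_congr (by congr) fun A hA => ?_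
  by_cases hs : Sep D A z (q 0)
  · rw [if_pos hs, if_pos hs, mul_one, (wn_thB hq hD hA).2]
    congr 1
    exact prod_congr rfl fun B hB => (wn_thB hq hD (mem_of_mem_erase hB)).1.symm
  · rw [if_neg hs, if_neg hs, mul_zero]

end Vale.Agent.P167.H760.Q
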