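import Vale.Agent.P167.H365.Q.Defs

/-!
# P167, general `q`, block Q-TWO: a constant factor carried by the piece of a far edge
-/

namespace Vale.Agent.P167.H760.Q

open Finset Vale.Agent.P167.BR Vale.Agent.P167.FK Vale.Agent.P167.FKA
open Vale.Agent.P167.H365 (FarA FarE Agr ThrS Cro Fl far_mem_iff se sgA)
open Vale.Agent.P167.H365.NQ (EnvQ XW TW XTW SW tt fe)
open Vale.Agent.P167.H562.QM (FltQ)
open Vale.Agent.P167.H166 (bxx)

variable {D : Finset (ℤ × ℤ)} {w w' : Finset Ed → ℝ} {e : Ed} {s : ℝ} {ω : Cfg} {A : Finset Ed}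

/-- The weights with the additional factor `s` of the piece of `e`. -/
noncomputable def scl (e : Ed) (s : ℝ) (w : Finset Ed → ℝ) (A : Finset Ed) : ℝ :=
  (open Classical in if e ∈ A then s else 1) * w A

theorem prod_ind (he : e ∈ eds D) :
    ∏ A ∈ pcs ω D, (open Classical in if e ∈ A then s else 1) = s := by
  classical
  have hA := piece_mem_pcs (ω := ω) he
  rw [prod_eq_single (piece ω D e)]
  · rw [if_pos (self_mem_piece he)]
  · intro B hB hne
    rw [if_neg]
    intro h
    exact hne (eq_piece_of_mem hB h)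
  · exact fun h => absurd hA h

theorem XW_scl (he : e ∈ eds D) : XW D (scl e s w) ω = s * XW D w ω := by
  classical
  unfold XW scl
  rw [prod_mul_distrib, prod_ind he]

theorem TW_scl (he : e ∈ eds D) (hA : A ∈ pcs ω D) :
    TW D (scl e s w) (scl e s w') ω A = s * TW D w w' ω A := by
  classical
  have h := prod_ind (s := s) (ω := ω) he
  rw [← mul_prod_erase _ _ hA] at h
  unfold TW scl
  rw [prod_mul_distrib]
  calc _ = ((if e ∈ A then s else 1) * ∏ B ∈ (pcs ω D).erase A, (if e ∈ B then s else 1)) *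
        (w' A * ∏ B ∈ (pcs ω D).erase A, w B) := by ring
    _ = _ := by rw [h]

theorem XTW_scl (he : e ∈ eds D) (p z : ℤ × ℤ) :
    XTW D p (scl e s w) (scl e s w') z ω = s * XTW D p w w' z ω := by
  unfold XTW
  rw [mul_sum]
  refine sum_congr rfl fun A hA => ?_
  rw [TW_scl he hA]
  ring

theorem SW_scl (he : e ∈ eds D) (p : ℤ × ℤ) {x : ℤ} (hx : fe x ∈ eds D) :
    SW D p (scl e s w) (scl e s w') x ω = s * SW D p w w' x ω := by
  unfold SW
  rw [TW_scl he (piece_mem_pcs hx)]
  ring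

variable {Q : ℝ} {t : Fin 3 → ℝ} {K R : ℤ} {η : Cfg} {p u : ℤ × ℤ} {M : ℝ}

/-- **Scaling of the local hypotheses.** -/
theorem envQ_scl (h : EnvQ Q t K R D η p w w' M u) (hfar : FarE D u (2 * R) e)
    (hs : 0 ≤ s) : EnvQ Q t K R D η p (scl e s w) (scl e s w') (s * M) u := by
  have he : e ∈ eds D := hfar.mem_eds
  have hR := h.R1
  have hK := h.one_le
  refine ⟨h.one_le, h.R1, h.good, h.fl, h.gf, h.hp, h.pot, ?_, ?_, ?_⟩
  · intro ω A hA hn
    have h1 := h.near ω A hA hn
    have h2 : e ∉ A := fun h2 => hn ⟨e, h2, hfar⟩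
    unfold scl
    rw [if_neg h2, one_mul, one_mul]
    exact h1
  · intro y a m hy hy2 ham hmR ω ω' hag h3 c hc
    have h1 := h.cro y a m hy hy2 ham hmR ω ω' hag h3 c hc
    have hF : Fl D y (m + 1) := by
      intro v hv
      rw [hy2]
      refine h.fl.dom v ?_
      have h4 := H365.nm_tri v y u
      nlinarith
    have hfe : FarE D y m e := by
      rcases hfar with h2 | h2
      · refine Or.inl ⟨h2.1, ?_⟩
        have h4 := H365.nm_tri (hdv e) y u
        omega
      · refine Or.inr ⟨h2.1, ?_⟩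
        have h4 := H365.nm_tri (tlv e) y u
        omega
    have h5 := far_mem_iff hF ham hag h3 hc hfe
    unfold scl
    simp only [h5, h1.1, h1.2, and_self]
  · obtain ⟨Y, hY, h1, h2, h3⟩ := h.Y
    refine ⟨fun ω => s * Y ω, fun ω ω' hw => by show s * Y ω = s * Y ω'; rw [hY ω ω' hw],
      fun ω => ?_, fun ω A hA hv => ?_, ?_⟩
    · rw [XW_scl he, abs_mul, abs_of_nonneg hs]
      exact mul_le_mul_of_nonneg_left (h1 ω) hs
    · rw [TW_scl he hA, abs_mul, abs_of_nonneg hs]
      exact mul_le_mul_of_nonneg_left (h2 ω A hA hv) hs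
    · rw [FKA.Ex_mul_left]
      exact mul_le_mul_of_nonneg_left h3 hs

end Vale.Agent.P167.H760.Q
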