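import Vale.Agent.P167.H760.Q.Tr
import Vale.Agent.P167.H760.Q.Ph
import Vale.Agent.P167.H760.Q.Scl

/-!
# P167, general `q`, block Q-TWO: expectations in a frame
-/

namespace Vale.Agent.P167.H760.Q

open Finset Vale.Agent.P167 Vale.Agent.P167.BR Vale.Agent.P167.FK Vale.Agent.P167.FKA
open Vale.Agent.P167.E6 (IsPolygon Encloses)
open Vale.Agent.P167.H365 (HPot Jt sgA se)
open Vale.Agent.P167.H365.NQ (XW TW XTW SW fe)
open Vale.Agent.P167.H718 (wn wn' SE Dob)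
open Vale.Agent.P167.H760

variable {D : Finset (ℤ × ℤ)} {η : Cfg} {p : ℤ × ℤ} {w w' : Finset Ed → ℝ} {Q s : ℝ} {e : Ed}

theorem ex_xw_fr (T : Tr) (Q : ℝ) (D : Finset (ℤ × ℤ)) (η : Cfg) (w : Finset Ed → ℝ) :
    Ex Q (T.pre D) (T.Ci η) (XW (T.pre D) fun A => w (T.imE A)) = Ex Q D η (XW D w) := by
  rw [← T.Ex_pre Q D η]
  congr 1
  funext ω
  have h := T.XW_T (D := T.pre D) (w := w) (ω := ω)
  rw [T.im_pre] at h
  exact h.symm

theorem ex_xtw_fr (T : Tr) (Q : ℝ) (D : Finset (ℤ × ℤ)) (η : Cfg) (p : ℤ × ℤ)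
    (w w' : Finset Ed → ℝ) (z : ℤ × ℤ) :
    Ex Q (T.pre D) (T.Ci η) (XTW (T.pre D) (T.S.symm p) (fun A => w (T.imE A))
      (fun A => w' (T.imE A)) z) = Ex Q D η (XTW D p w w' (T.S z)) := by
  rw [← T.Ex_pre Q D η]
  congr 1
  funext ω
  have h := T.XTW_T (D := T.pre D) (p := T.S.symm p) (w := w) (w' := w') (ω := ω) z
  rw [T.im_pre, Equiv.apply_symm_apply] at h
  exact h.symm

theorem ex_sw_fr (T : Tr) (Q : ℝ) (D : Finset (ℤ × ℤ)) (η : Cfg) (p : ℤ × ℤ)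
    (w w' : Finset Ed → ℝ) {x : ℤ} (hx : fe x ∈ eds (T.pre D)) (hP : HPot (T.pre D))
    (hj : ∀ e ∈ eds (T.pre D), Jt (T.pre D) (T.S.symm p) (rs e)) :
    Ex Q (T.pre D) (T.Ci η) (SW (T.pre D) (T.S.symm p) (fun A => w (T.imE A))
      (fun A => w' (T.imE A)) x) = (if T.o then -1 else 1) *
        Ex Q D η (SE D p w w' (T.E (fe x))) := by
  rw [← T.Ex_pre Q D η, ← FKA.Ex_mul_left]
  congr 1
  funext ω
  have h := T.TS_T (D := T.pre D) (p := T.S.symm p) (w := w) (w' := w') (ω := ω) hx hP hj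
  rw [T.im_pre, Equiv.apply_symm_apply] at h
  show _ = _ * (TW D w w' (T.C ω) (piece (T.C ω) D (T.E (fe x))) *
    sgA D p (piece (T.C ω) D (T.E (fe x))))
  rw [h, ← mul_assoc]
  have h2 : (if T.o then (-1 : ℝ) else 1) * (if T.o then -1 else 1) = 1 := by
    split_ifs <;> norm_num
  rw [h2, one_mul]
  rfl

theorem loc_xtw (D : Finset (ℤ × ℤ)) (p : ℤ × ℤ) (w w' : Finset Ed → ℝ) (z : ℤ × ℤ) :
    Loc D (XTW D p w w' z) := fun ω ω' h => by
  unfold XTW TW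
  rw [pcs_congr h]

theorem loc_xw (D : Finset (ℤ × ℤ)) (w : Finset Ed → ℝ) : Loc D (XW D w) := fun ω ω' h => by
  unfold XW
  rw [pcs_congr h]

theorem loc_se (D : Finset (ℤ × ℤ)) (p : ℤ × ℤ) (w w' : Finset Ed → ℝ) (e : Ed) :
    Loc D (SE D p w w' e) := fun ω ω' h => by
  unfold SE TW
  rw [pcs_congr h, piece_congr h]

/-- Scaled functionals. -/
theorem ex_xw_scl (he : e ∈ eds D) :
    Ex Q D η (XW D (scl e s w)) = s * Ex Q D η (XW D w) := by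
  rw [← FKA.Ex_mul_left]
  congr 1
  funext ω
  exact XW_scl he

theorem ex_xtw_scl (he : e ∈ eds D) (z : ℤ × ℤ) :
    Ex Q D η (XTW D p (scl e s w) (scl e s w') z) = s * Ex Q D η (XTW D p w w' z) := by
  rw [← FKA.Ex_mul_left]
  congr 1
  funext ω
  exact XTW_scl he p z

theorem ex_sw_scl (he : e ∈ eds D) {x : ℤ} (hx : fe x ∈ eds D) :
    Ex Q D η (SW D p (scl e s w) (scl e s w') x) = s * Ex Q D η (SW D p w w' x) := by
  rw [← FKA.Ex_mul_left]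
  congr 1
  funext ω
  exact SW_scl he p hx

end Vale.Agent.P167.H760.Q
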