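import Vale.Agent.P167.H365.Q.Defs

/-!
# P167, general `q`, block Q-DIR: the final inequality

The functional and its parity image (arrow reversal and a shift by one unit along the side) have
opposite fluxes and the same stagger, so `NREDQ` shows that the flux is small.
-/

namespace Vale.Agent.P167.H760.Q

open Finset Vale.Agent.P167 Vale.Agent.P167.BR Vale.Agent.P167.FK Vale.Agent.P167.FKA
open Vale.Agent.P167.H365.NQ (EnvQ XW TW XTW SW NREDQ)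
open Vale.Agent.P167.H318 (CoConn)

variable {Q : ℝ} {t : Fin 3 → ℝ} {K R : ℤ} {D : Finset (ℤ × ℤ)} {η : Cfg} {p u : ℤ × ℤ}
  {w w' : Finset Ed → ℝ} {M lam V : ℝ} {k : ℕ} {Fl : ℤ → ℝ} {a b : ℤ} {φ n : ℤ → ℝ} {nb : ℝ}

theorem abs_V (hQ : 0 < Q) (h : EnvQ Q t K R D η p w w' M u) : |Ex Q D η (XW D w)| ≤ M := by
  obtain ⟨Y, -, h1, -, h2⟩ := h.Y
  exact (abs_Ex_le hQ _).trans ((Ex_mono hQ fun S _ => h1 _).trans h2)

/-- The functional `0` (with value `V` and flux `Fl` at height `k`) and its parity image `1` (with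
the factor `lam`), near a flat free side at height `0`. -/
structure TwoW (Q : ℝ) (t : Fin 3 → ℝ) (K R : ℤ) (M lam : ℝ) (k : ℕ) (Fl : ℤ → ℝ) (a b : ℤ) :
    Prop where
  ex : ∃ (D0 : Finset (ℤ × ℤ)) (η0 : Cfg) (p0 : ℤ × ℤ) (w0 w0' : Finset Ed → ℝ)
    (D1 : Finset (ℤ × ℤ)) (η1 : Cfg) (p1 : ℤ × ℤ) (w1 w1' : Finset Ed → ℝ),
    CoConn D0 ∧ CoConn D1 ∧ (∀ x ∈ Icc a b, EnvQ Q t K R D0 η0 p0 w0 w0' M (x, 0)) ∧
    (∀ x ∈ Icc (a + 1) (b + 1), EnvQ Q t K R D1 η1 p1 w1 w1' M (x, 0)) ∧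
    (∀ x ∈ Icc a b,
      Ex Q D0 η0 (XTW D0 p0 w0 w0' (x, k)) - Ex Q D0 η0 (XTW D0 p0 w0 w0' (x, 0)) = Fl x) ∧
    (∀ x ∈ Icc a b, Ex Q D1 η1 (XTW D1 p1 w1 w1' (x + 1, k)) -
      Ex Q D1 η1 (XTW D1 p1 w1 w1' (x + 1, 0)) = - (lam * Fl x)) ∧
    Ex Q D1 η1 (XW D1 w1) = lam * Ex Q D0 η0 (XW D0 w0) ∧
    ∀ x ∈ Icc a b, Ex Q D1 η1 (SW D1 p1 w1 w1' (x + 1)) = lam * Ex Q D0 η0 (SW D0 p0 w0 w0' x)

theorem sum_shift (F : ℤ → ℝ) :
    ∑ x ∈ Icc (a + 1) (b + 1), F x = ∑ x ∈ Icc a b, F (x + 1) := by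
  rw [← Finset.map_add_right_Icc a b 1, Finset.sum_map]
  rfl

/-- Summation by parts. -/
theorem abel (hab : a ≤ b) (hR : 1 ≤ R) {δ : ℝ} (hδ : 0 ≤ δ) (hn : ∀ x, |n x - nb| ≤ δ)
    (hφ : ∀ x x' : ℤ, |φ x - φ x'| ≤ |(x : ℝ) - x'| / R)
    (hs : ∀ x, φ x ≠ 0 → a + R ≤ x ∧ x ≤ b - R) :
    |∑ x ∈ Icc a b, φ x * (n x - n (x + 1))| ≤ 2 * δ * (((b - a : ℤ) : ℝ) / R + 1) := by
  have hR' : (1 : ℝ) ≤ R := by exact_mod_cast hR
  have h0 : ∀ x, ¬ (a + R ≤ x ∧ x ≤ b - R) → φ x = 0 := fun x h => by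
    by_contra hcon
    exact h (hs x hcon)
  -- both sums over `[a, b + 1]`
  have e1 : ∑ x ∈ Icc a b, φ x * (n x - nb) = ∑ x ∈ Icc a (b + 1), φ x * (n x - nb) := by
    refine sum_subset (Icc_subset_Icc_right (by omega)) fun x _ hx => ?_
    rw [h0 x, zero_mul]
    rw [mem_Icc] at hx
    omega
  have e2 : ∑ x ∈ Icc a b, φ x * (n (x + 1) - nb) =
      ∑ x ∈ Icc a (b + 1), φ (x - 1) * (n x - nb) := by
    have h1 := sum_shift (a := a) (b := b) fun x => φ (x - 1) * (n x - nb)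
    simp only [add_sub_cancel_right] at h1
    rw [← h1]
    refine sum_subset (Icc_subset_Icc_left (by omega)) fun x h3 hx => ?_
    rw [h0 (x - 1), zero_mul]
    rw [mem_Icc] at hx h3
    omega
  have e3 : ∑ x ∈ Icc a b, φ x * (n x - n (x + 1)) =
      ∑ x ∈ Icc a (b + 1), (φ x - φ (x - 1)) * (n x - nb) := by
    have : ∀ x ∈ Icc a b, φ x * (n x - n (x + 1)) = φ x * (n x - nb) - φ x * (n (x + 1) - nb) :=
      fun x _ => by ring
    rw [sum_congr rfl this, sum_sub_distrib, e1, e2, ← sum_sub_distrib]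
    exact sum_congr rfl fun x _ => by ring
  rw [e3]
  refine (abs_sum_le_sum_abs _ _).trans ?_
  have hcard : ((Icc a (b + 1)).card : ℝ) = ((b - a : ℤ) : ℝ) + 2 := by
    rw [Int.card_Icc]
    have : ((b + 1 + 1 - a).toNat : ℤ) = b - a + 2 := by
      rw [Int.toNat_of_nonneg (by omega)]; ring
    have h2 : (((b + 1 + 1 - a).toNat : ℤ) : ℝ) = ((b - a + 2 : ℤ) : ℝ) := by rw [this]
    push_cast at h2 ⊢
    linarith
  calc ∑ x ∈ Icc a (b + 1), |(φ x - φ (x - 1)) * (n x - nb)|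
      ≤ ∑ _x ∈ Icc a (b + 1), 1 / R * δ := by
        refine sum_le_sum fun x _ => ?_
        rw [abs_mul]
        refine mul_le_mul ?_ (hn x) (abs_nonneg _) (by positivity)
        refine (hφ x (x - 1)).trans (le_of_eq ?_)
        push_cast
        rw [show (x : ℝ) - (x - 1) = 1 by ring, abs_one]
    _ = (((b - a : ℤ) : ℝ) + 2) * (1 / R * δ) := by rw [sum_const, nsmul_eq_mul, hcard]
    _ = δ * (((b - a : ℤ) : ℝ) / R + 2 / R) := by field_simp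
    _ ≤ δ * (2 * (((b - a : ℤ) : ℝ) / R + 1)) := by
        refine mul_le_mul_of_nonneg_left ?_ hδ
        have h1 : (2 : ℝ) / R ≤ 2 := by
          rw [div_le_iff₀ (by linarith)]; linarith
        have h2 : (0 : ℝ) ≤ ((b - a : ℤ) : ℝ) / R := by
          have : (0 : ℝ) ≤ ((b - a : ℤ) : ℝ) := by exact_mod_cast (by omega : 0 ≤ b - a)
          positivity
        linarith
    _ = _ := by ring

/-- **The flux is small.** -/
theorem two_le (hQ : 0 < Q) (hN : NREDQ Q t K) (C : ℝ) (hC : 0 ≤ C) :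
    ∀ ε : ℝ, 0 < ε → ∃ κ : ℝ, ∃ k0 : ℕ, 0 < κ ∧ ∀ (R : ℤ) (k : ℕ), k0 ≤ k → (k : ℝ) ≤ κ * R →
    ∀ (M lam : ℝ) (Fl : ℤ → ℝ) (a b : ℤ), 0 < lam → lam⁻¹ ≤ C → a ≤ b →
    TwoW Q t K R M lam k Fl a b → ∀ φ : ℤ → ℝ, (∀ x, |φ x| ≤ 1) →
    (∀ x x' : ℤ, |φ x - φ x'| ≤ |(x : ℝ) - x'| / R) →
    (∀ x, φ x ≠ 0 → a + R ≤ x ∧ x ≤ b - R) →
    |∑ x ∈ Icc a b, φ x * Fl x| ≤ ε * k * ((M + 1) * (((b - a : ℤ) : ℝ) / R + 1)) := by
  intro ε hε
  obtain ⟨κ, k0, hκ, H⟩ := hN (2 * ε / (3 + C)) (by positivity)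
  refine ⟨κ, k0, hκ, fun R k hk hkR M lam Fl a b hlam hlamC hab hT φ hφ1 hφ2 hφ3 => ?_⟩
  obtain ⟨n, nb, c, hn, H⟩ := H R k hk hkR
  obtain ⟨D0, η0, p0, w0, w0', D1, η1, p1, w1, w1', hc0, hc1, he0, he1, hf0, hf1, hv, hs⟩ := hT.ex
  have hE := he0 a (mem_Icc.2 ⟨le_rfl, hab⟩)
  have hR := hE.R1
  have hR' : (1 : ℝ) ≤ R := by exact_mod_cast hR
  set ε' := 2 * ε / (3 + C) with hε'
  have hε'0 : 0 < ε' := by positivity
  set V := Ex Q D0 η0 (XW D0 w0) with hV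
  have hVM : |V| ≤ M := abs_V hQ hE
  have hM0 : 0 ≤ M := (abs_nonneg _).trans hVM
  set S : ℤ → ℝ := fun x => Ex Q D0 η0 (SW D0 p0 w0 w0' x) with hS
  have h0 := H D0 η0 p0 w0 w0' M hc0 a b φ hab he0 hφ1 hφ2 hφ3
  have h1 := H D1 η1 p1 w1 w1' M hc1 (a + 1) (b + 1) (fun x => φ (x - 1)) (by omega) he1
    (fun x => hφ1 _) (fun x x' => by
      refine (hφ2 (x - 1) (x' - 1)).trans (le_of_eq ?_)
      push_cast
      congr 2
      ring) (fun x hx => by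
      have := hφ3 _ hx
      omega)
  rw [sum_shift] at h1
  have e0 : ∑ x ∈ Icc a b, φ x * (Ex Q D0 η0 (XTW D0 p0 w0 w0' (x, k)) -
      Ex Q D0 η0 (XTW D0 p0 w0 w0' (x, 0)) - n x * Ex Q D0 η0 (XW D0 w0) -
      c * Ex Q D0 η0 (SW D0 p0 w0 w0' x)) = ∑ x ∈ Icc a b, φ x * (Fl x - n x * V - c * S x) :=
    sum_congr rfl fun x hx => by rw [hf0 x hx]
  have e1 : ∑ x ∈ Icc a b, φ (x + 1 - 1) * (Ex Q D1 η1 (XTW D1 p1 w1 w1' (x + 1, k)) -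
      Ex Q D1 η1 (XTW D1 p1 w1 w1' (x + 1, 0)) - n (x + 1) * Ex Q D1 η1 (XW D1 w1) -
      c * Ex Q D1 η1 (SW D1 p1 w1 w1' (x + 1))) =
      lam * ∑ x ∈ Icc a b, φ x * (- Fl x - n (x + 1) * V - c * S x) := by
    rw [mul_sum]
    refine sum_congr rfl fun x hx => ?_
    rw [hf1 x hx, hv, hs x hx, add_sub_cancel_right]
    ring
  rw [e0] at h0
  rw [e1, abs_mul, abs_of_pos hlam, show b + 1 - (a + 1) = b - a by ring] at h1
  set B := (M + 1) * (((b - a : ℤ) : ℝ) / R + 1) with hB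
  have hba : (0 : ℝ) ≤ ((b - a : ℤ) : ℝ) / R + 1 := by
    have : (0 : ℝ) ≤ ((b - a : ℤ) : ℝ) := by exact_mod_cast (by omega : 0 ≤ b - a)
    positivity
  have hB0 : 0 ≤ B := by positivity
  have h1' : |∑ x ∈ Icc a b, φ x * (- Fl x - n (x + 1) * V - c * S x)| ≤ C * (ε' * k * B) := by
    have h2 : |∑ x ∈ Icc a b, φ x * (- Fl x - n (x + 1) * V - c * S x)| ≤
        lam⁻¹ * (ε' * k * B) := by
      rw [inv_mul_eq_div, le_div_iff₀ hlam, mul_comm]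
      exact h1
    exact h2.trans (mul_le_mul_of_nonneg_right hlamC (by positivity))
  have hA := abel (φ := φ) (n := n) hab hR (δ := ε' * k) (by positivity) hn hφ2 hφ3
  have key : 2 * ∑ x ∈ Icc a b, φ x * Fl x =
      ∑ x ∈ Icc a b, φ x * (Fl x - n x * V - c * S x) -
      ∑ x ∈ Icc a b, φ x * (- Fl x - n (x + 1) * V - c * S x) +
      V * ∑ x ∈ Icc a b, φ x * (n x - n (x + 1)) := by
    rw [mul_sum, mul_sum, ← sum_sub_distrib, ← sum_add_distrib]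
    exact sum_congr rfl fun x _ => by ring
  have h3 : |V * ∑ x ∈ Icc a b, φ x * (n x - n (x + 1))| ≤ 2 * (ε' * k * B) := by
    rw [abs_mul]
    calc |V| * |∑ x ∈ Icc a b, φ x * (n x - n (x + 1))|
        ≤ (M + 1) * (2 * (ε' * k) * (((b - a : ℤ) : ℝ) / R + 1)) :=
          mul_le_mul (by linarith) hA (abs_nonneg _) (by linarith)
      _ = _ := by rw [hB]; ring
  have h4 : 2 * |∑ x ∈ Icc a b, φ x * Fl x| ≤ (3 + C) * (ε' * k * B) := by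
    rw [← abs_two, ← abs_mul, key]
    refine (abs_add_le _ _).trans ?_
    have := abs_sub (∑ x ∈ Icc a b, φ x * (Fl x - n x * V - c * S x))
      (∑ x ∈ Icc a b, φ x * (- Fl x - n (x + 1) * V - c * S x))
    linarith
  have h5 : (3 + C) * (ε' * k * B) = 2 * (ε * k * B) := by
    rw [hε']; field_simp
  linarith

end Vale.Agent.P167.H760.Q
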