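import Vale.Agent.P167.H760.Q.Env2
import Vale.Agent.P167.H760.Q.Tf
import Vale.Agent.P167.H760.Q.ImC
import Vale.Agent.P167.H760.Q.Two

/-!
# P167, general `q`, block Q-TWO: the two models at a flat part of a side, for one mesh
-/

namespace Vale.Agent.P167.H760.Q

open Finset Vale.Agent.P167 Vale.Agent.P167.BR Vale.Agent.P167.FK Vale.Agent.P167.FKA
open Vale.Agent.P167.E6 (IsPolygon Encloses)
open Vale.Agent.P167.H365 (nm_le' FarE)
open Vale.Agent.P167.H365.NQ (EnvQ XW TW XTW SW tt fe)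
open Vale.Agent.P167.H718 (wn wn' Dob imC lam Chordless poly_add encl_add bd_add be_add im_XW im_XTW
  im_SE lam_pos SE)
open Vale.Agent.P167.H871 (Bd)
open Vale.Agent.P167.CAQ.J (ArcB nm_be Fz exists_fz ex_dob chordless_enl)
open Vale.Agent.P167.H760

theorem MajY.mono {Q M M' : ℝ} {D : Finset (ℤ × ℤ)} {η : Cfg} {w w' : Finset Ed → ℝ} {z : ℤ × ℤ}
    {R : ℤ} (h : MajY Q D η w w' z R M) (hM : M ≤ M') : MajY Q D η w w' z R M' := by
  obtain ⟨Y, h1, h2, h3, h4⟩ := h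
  exact ⟨Y, h1, h2, h3, h4.trans hM⟩

theorem envQ_mono {Q M M' : ℝ} {t : Fin 3 → ℝ} {K R : ℤ} {D : Finset (ℤ × ℤ)} {η : Cfg}
    {p u : ℤ × ℤ} {w w' : Finset Ed → ℝ} (h : EnvQ Q t K R D η p w w' M u) (hM : M ≤ M') :
    EnvQ Q t K R D η p w w' M' u := by
  obtain ⟨h1, h2, h3, h4, h5, h6, h7, h8, h9, Y, h10, h11, h12, h13⟩ := h
  exact ⟨h1, h2, h3, h4, h5, h6, h7, h8, h9, Y, h10, h11, h12, h13.trans hM⟩

/-- The base point is joined to all sites. -/
theorem envQ_jt {Q M : ℝ} {t : Fin 3 → ℝ} {K R : ℤ} {D : Finset (ℤ × ℤ)} {η : Cfg}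
    {p u : ℤ × ℤ} {w w' : Finset Ed → ℝ} (h : EnvQ Q t K R D η p w w' M u) {e : Ed}
    (he : e ∈ eds D) : H365.Jt D p (rs e) := by
  have G : GeoQ K R D p u := ⟨h.one_le, h.R1, h.fl.dom, h.gf, h.hp, h.pot⟩
  obtain ⟨M', E⟩ := G.toEnv (f := fun _ => 0) fun z hz => absurd rfl hz
  exact H365.Jn.symm (E.jt (rs_mem_sites he))

/-- The parity of the frames. -/
theorem exists_j (n : ℕ) (w : ℤ × ℤ) (r : Fin 4) (b : Bool) : ∃ j : ℤ, (fj n w r j).o = b := by
  by_cases h : Even ((n : ℤ) * (w.1 + w.2))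
  · cases b
    · exact ⟨0, by rw [fj_o]; simp [h]⟩
    · refine ⟨1, ?_⟩
      rw [fj_o]
      have : ¬ Even ((n : ℤ) * (w.1 + w.2) + 1) := by
        rw [Int.even_iff] at *
        omega
      simp only [this, decide_false, Bool.not_false]
  · cases b
    · refine ⟨1, ?_⟩
      rw [fj_o]
      have : Even ((n : ℤ) * (w.1 + w.2) + 1) := by
        rw [Int.even_iff] at *
        omega
      simp only [this, decide_true, Bool.not_true]
    · exact ⟨0, by rw [fj_o]; simp only [add_zero, h, decide_false, Bool.not_false]⟩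

theorem chordless_add {n : ℕ} {q : ZMod n → ℤ × ℤ} (h : Chordless q) (a : ℤ × ℤ) :
    Chordless fun i => q i + a := by
  rintro i j ⟨r, hr⟩
  refine h i j ⟨r, ?_⟩
  have h2 : q j + a = q i + E6.dir r + a := by
    rw [show q j + a = q i + a + E6.dir r from hr]
    abel
  exact add_right_cancel h2

theorem mem_bq_of_nm {z v : ℤ × ℤ} {m : ℤ} (h : nm (v - z) < m) : v ∈ Bq z m := by
  rw [H167.Q.mem_Bq]
  have := H365.nm_le'.1 (Int.le_sub_one_of_lt h)
  simp only [Prod.fst_sub, Prod.snd_sub] at this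
  omega

/-- **The two models at a flat part.** -/
theorem twoW_n (S : CA.Dat) {θ β : ℝ} (hs : 0 < Real.sin θ) (hc : 0 < Real.cos θ)
    (hβ : Real.cos (θ / 2 + β) = Real.sin θ) {n N k₀ : ℕ} (hn : 2 ≤ n) {q : ZMod N → ℤ × ℤ}
    {η : Cfg} (hq : IsPolygon q) (hD : Encloses q (S.D n)) (hk : k₀ ≤ N)
    (hη : Dob η (S.D n) q k₀) {t₀ : ℕ} (ht : t₀ < n) (hb : q 0 = pb S n t₀) {w : ℤ × ℤ}
    {r : Fin 4}
    (h1 : E6.face w r ∈ S.Q) (h2 : E6.face w (r - 1) ∉ S.Q) {b : Bool} {R a b' : ℤ} {m : ℕ}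
    (hR : 1 ≤ R) (hm : (m : ℤ) ≤ R) (hab : a ≤ b') (ha : 400 * R < a) (hb' : b' + 400 * R < n)
    (hbase : ∀ x ∈ Icc a b', 200 * R < |x - t₀|)
    (harc : ArcB b q k₀ ((n : ℤ) • w + ((a + b') / 2) • E6.dir r) ((b' - a) / 2 + 1 + 300 * R))
    (f : ℤ × ℤ → ℝ) (hf : ∀ x ∈ Icc a b', ∀ z, nm (z - ((n : ℤ) • w + x • E6.dir r)) ≤ 300 * R →
      f z = 0) {M : ℝ}
    (hN : ∀ x ∈ Icc a b', ∀ η' : Cfg, Dob η' (S.D n) q k₀ →
      MajY (2 * Real.cos θ) (S.D n) η' (wn θ β q (S.D n) k₀ f) (wn' θ β q (S.D n) k₀ f)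
        ((n : ℤ) • w + x • E6.dir r) (R + 2) M)
    (hI : ∀ x ∈ Icc (a + 1) (b' + 1), ∀ τ : ℕ → ℤ,
      Bd (S.D n : Set (ℤ × ℤ)) N (fun i => q (i : ZMod N)) τ 1 → ∀ η' : Cfg,
      Dob η' ((S.D n).image (· + E6.dir r)) (fun i => q i + E6.dir r) k₀ →
      MajY (2 * Real.cos θ) ((S.D n).image (· + E6.dir r)) η'
        (wn θ β (fun i => q i + E6.dir r) ((S.D n).image (· + E6.dir r)) k₀
          (imC θ β τ q k₀ (E6.dir r) f))
        (wn' θ β (fun i => q i + E6.dir r) ((S.D n).image (· + E6.dir r)) k₀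
          (imC θ β τ q k₀ (E6.dir r) f)) ((n : ℤ) • w + x • E6.dir r) (R + 2)
        (M * lam θ β q (S.D n) k₀ (E6.dir r))) :
    ∃ j : ℤ, TwoW (2 * Real.cos θ) (tq θ) 8 R M 1 m (fun x => flx n w r m (fun z =>
      Ex (2 * Real.cos θ) (S.D n) η (XTW (S.D n) (q 0) (wn θ β q (S.D n) k₀ f)
        (wn' θ β q (S.D n) k₀ f) z)) (x + j)) (a - j) (b' - j) := by
  have hQ : (0 : ℝ) < 2 * Real.cos θ := by linarith
  have hn0 : 0 < n := by omega
  obtain ⟨j, hj⟩ := exists_j n w r (!b)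
  refine ⟨j, ⟨?_⟩⟩
  set T := fj n w r j with hT
  have hbo : b = !T.o := by rw [hj, Bool.not_not]
  obtain ⟨D, hDn⟩ : ∃ D, D = S.D n := ⟨_, rfl⟩
  rw [← hDn] at hD hη hN hI ⊢
  have hodd : ¬ Even ((E6.dir r).1 + (E6.dir r).2) := dir_odd r
  have hqp := poly_add hq (E6.dir r)
  have hDp := encl_add hD (E6.dir r)
  have hch : Chordless q := chordless_enl S.poly S.enc hn hq (by rw [hDn] at hD; exact hD)
  obtain ⟨τ, hτ⟩ := H871.exists_bd hq hD
  -- the frozen configurations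
  have hmm : (b' - a) / 2 + 1 + 300 * R = (b' - a) / 2 + 300 * R + 1 := by ring
  obtain ⟨η0, hη0, hfz0⟩ := exists_fz (R := (b' - a) / 2 + 300 * R) hq hD hch
    (by rw [← hmm]; exact harc)
  obtain ⟨η1, hη1, hfz1⟩ := exists_fz (b := b) (k := k₀) (R := (b' - a) / 2 + 300 * R)
    (z := (n : ℤ) • w + ((a + b') / 2) • E6.dir r + E6.dir r) hqp hDp
    (chordless_add hch (E6.dir r)) (by
      rw [← hmm]
      intro i hi hz
      refine harc i hi ?_
      rwa [show (fun i => q i + E6.dir r) i - ((n : ℤ) • w + ((a + b') / 2) • E6.dir r +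
        E6.dir r) = q i - ((n : ℤ) • w + ((a + b') / 2) • E6.dir r) by dsimp only; abel] at hz)
  have hlam := lam_pos (k := k₀) hodd hq hD hτ hs hc hβ hk hη0 hη1
  obtain ⟨L, hL⟩ : ∃ L, L = lam θ β q D k₀ (E6.dir r) := ⟨_, rfl⟩
  rw [← hL] at hlam hI
  -- the points
  have hP : ∀ x, T.S (x, 0) = (n : ℤ) • w + (x + j) • E6.dir r := fun x => by
    rw [hT, fj_S, zero_smul, add_zero]
  have hP1 : ∀ x, T.S (x, 0) = (n : ℤ) • w + (x + (j - 1)) • E6.dir r + E6.dir r := fun x => by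
    rw [hP, show x + j = x + (j - 1) + 1 by ring, add_smul _ (1 : ℤ), one_smul]
    abel
  have hdist : ∀ x y : ℤ, nm ((n : ℤ) • w + x • E6.dir r - ((n : ℤ) • w + y • E6.dir r)) =
      |x - y| := fun x y => by
    have h3 := (fj n w r 0).dS (x, 0) (y, 0)
    rw [fj_S, fj_S, zero_smul, add_zero, add_zero, add_zero, add_zero] at h3
    rw [h3]
    simp [nm]
  have hcen : ∀ x ∈ Icc a b', |x - (a + b') / 2| ≤ (b' - a) / 2 + 1 := fun x hx => by
    rw [mem_Icc] at hx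
    rw [abs_le]
    omega
  -- local arcs
  have harc' : ∀ x ∈ Icc a b', ArcB b q k₀ ((n : ℤ) • w + x • E6.dir r) (250 * R) :=
    fun x hx i hi hz => by
      refine harc i hi ?_
      have h3 := H45.nm_sub_le (q i) ((n : ℤ) • w + x • E6.dir r)
        ((n : ℤ) • w + ((a + b') / 2) • E6.dir r)
      rw [hdist] at h3
      have := hcen x hx
      omega
  -- the environments
  have hbs : pb S n t₀ ∈ sites (S.D n) := by
    rw [← hb, ← hDn]
    exact H718.q_mem_sites hq hD 0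
  have E0 : ∀ x ∈ Icc (a - j) (b' - j), EnvQ (2 * Real.cos θ) (tq θ) 8 R (T.pre D) (T.Ci η0)
      (T.S.symm (q 0)) (fun A => wn θ β q D k₀ f (T.imE A)) (fun A => wn' θ β q D k₀ f (T.imE A))
      M (x, 0) := by
    intro x hx
    rw [mem_Icc] at hx
    have hx' : x + j ∈ Icc a b' := mem_Icc.2 (by omega)
    refine env_core S h1 h2 ht hbs hq hD hs.ne' hc hβ hη0.good (by rw [hDn]) (by rw [hb]) hR
      (by omega) (by omega) (hbase _ hx') ?_ ?_ ?_ ?_
    · rw [← hT, ← hbo, hP]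
      exact fun i hi hz => harc' _ hx' i hi (by omega)
    · intro z hz
      rw [← hT, hP] at hz
      exact hf _ hx' z (by omega)
    · intro v hv hvD
      rw [← hT, hP] at hv
      have h3 := H45.nm_sub_le v ((n : ℤ) • w + (x + j) • E6.dir r)
        ((n : ℤ) • w + ((a + b') / 2) • E6.dir r)
      rw [hdist] at h3
      have h4 := hcen _ hx'
      rw [hfz0 v (mem_bq_of_nm (by omega)) hvD, ← hT, hbo, Bool.not_not]
    · rw [← hT, hP]
      exact hN _ hx' η0 hη0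
  have hsym1 : T.S.symm (q 0 + E6.dir r) = (fj n w r (j - 1)).S.symm (pb S n t₀) := by
    rw [hT, symm_image, hb]
  have E1 : ∀ x ∈ Icc (a - j + 1) (b' - j + 1), EnvQ (2 * Real.cos θ) (tq θ) 8 R
      (T.pre (D.image (· + E6.dir r))) (T.Ci η1) (T.S.symm (q 0 + E6.dir r))
      (scl (T.E.symm (be (fun i => q i + E6.dir r) ((0 : ℕ) : ZMod N))) L⁻¹
        fun A => wn θ β (fun i => q i + E6.dir r) (D.image (· + E6.dir r)) k₀
          (imC θ β τ q k₀ (E6.dir r) f) (T.imE A))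
      (scl (T.E.symm (be (fun i => q i + E6.dir r) ((0 : ℕ) : ZMod N))) L⁻¹
        fun A => wn' θ β (fun i => q i + E6.dir r) (D.image (· + E6.dir r)) k₀
          (imC θ β τ q k₀ (E6.dir r) f) (T.imE A)) M (x, 0) ∧
      T.E.symm (be (fun i => q i + E6.dir r) ((0 : ℕ) : ZMod N)) ∈
        eds (T.pre (D.image (· + E6.dir r))) := by
    intro x hx
    rw [mem_Icc] at hx
    have hx' : x + (j - 1) ∈ Icc a b' := mem_Icc.2 (by omega)
    have hfar := far_base S (x := x) (D := D.image (· + E6.dir r)) ht h2 hqp hDp hsym1 hR (by omega)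
      (by omega) (hbase _ hx')
    have hE := env_core (j := j) (j' := j - 1) (x := x) (k := k₀) (η := η1)
      (Q := 2 * Real.cos θ) (f := imC θ β τ q k₀ (E6.dir r) f) (M := M * L) S h1 h2 ht hbs hqp hDp
      hs.ne' hc hβ hη1.good (by rw [pre_image, hDn]) hsym1 hR (by omega) (by omega)
      (hbase _ hx') ?_ ?_ ?_ ?_
    · have h3 := envQ_scl (s := L⁻¹) hE hfar (inv_nonneg.2 hlam.le)
      rw [show L⁻¹ * (M * L) = M by field_simp] at h3
      exact ⟨h3, hfar.mem_eds⟩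
    · rw [← hT, ← hbo, hP1]
      intro i hi hz
      refine harc' _ hx' i hi ?_
      rw [show (fun i => q i + E6.dir r) i - ((n : ℤ) • w + (x + (j - 1)) • E6.dir r +
        E6.dir r) = q i - ((n : ℤ) • w + (x + (j - 1)) • E6.dir r) by dsimp only; abel] at hz
      omega
    · intro z hz
      rw [← hT, hP1] at hz
      rw [hDn] at hD hτ
      refine imC_near S hn0 hq hD ht hb h1 h2 (x := x + (j - 1)) (m := 200 * R) (by omega) (by omega)
        hτ (fun i hi hz => harc' _ hx' i hi (by omega)) θ β _ (fun z hz => hf _ hx' z (by omega)) z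
        ?_
      rw [show z - E6.dir r - ((n : ℤ) • w + (x + (j - 1)) • E6.dir r) =
        z - ((n : ℤ) • w + (x + (j - 1)) • E6.dir r + E6.dir r) by abel]
      exact hz
    · intro v hv hvD
      rw [← hT, hP1] at hv
      have h3 := H45.nm_sub_le v ((n : ℤ) • w + (x + (j - 1)) • E6.dir r + E6.dir r)
        ((n : ℤ) • w + ((a + b') / 2) • E6.dir r + E6.dir r)
      rw [add_sub_add_right_eq_sub ((n : ℤ) • w + (x + (j - 1)) • E6.dir r), hdist] at h3
      have h4 := hcen _ hx'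
      rw [hfz1 v (mem_bq_of_nm (by omega)) hvD, ← hT, hbo, Bool.not_not]
    · rw [← hT, hP]
      exact hI _ (mem_Icc.2 (by omega)) τ hτ η1 hη1
  -- the sites above the side
  have hdom : ∀ x ∈ Icc (a - j) (b' - j), ∀ y : ℤ, -1 ≤ y → y ≤ R →
      ((x, y) ∈ T.pre D ↔ 0 ≤ y) := by
    intro x hx y hy1 hy2
    exact (E0 x hx).fl.dom (x, y) (by
      rw [nm_le']
      simp only [Prod.fst_sub, Prod.snd_sub]
      omega)
  have hsit : ∀ x ∈ Icc (a - j) (b' - j), ∀ y : ℤ, 0 ≤ y → y ≤ R → T.S (x, y) ∈ sites D := by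
    intro x hx y hy1 hy2
    have h3 : (x, y) ∈ sites (T.pre D) := mem_sites.2
      ⟨(x, y), (hdom x hx y (by omega) hy2).2 hy1, by simp⟩
    rw [← T.sites_T, T.im_pre] at h3
    exact h3
  have hdob := fun {F : Cfg → ℝ} (hF : Loc D F) => ex_dob hq hD hk hη hη0 hQ hF
  have he1 := (E1 (a - j + 1) (mem_Icc.2 (by omega))).2
  refine ⟨T.pre D, T.Ci η0, T.S.symm (q 0), fun A => wn θ β q D k₀ f (T.imE A),
    fun A => wn' θ β q D k₀ f (T.imE A), T.pre (D.image (· + E6.dir r)), T.Ci η1,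
    T.S.symm (q 0 + E6.dir r), _, _, ?_, ?_, E0, fun x hx => (E1 x hx).1, ?_, ?_, ?_, ?_⟩
  · rw [hDn]; exact coConn_fj S hn0 w r j
  · rw [pre_image, hDn]; exact coConn_fj S hn0 w r (j - 1)
  · intro x hx
    rw [ex_xtw_fr, ex_xtw_fr, flx_fj, hdob (loc_xtw _ _ _ _ _), hdob (loc_xtw _ _ _ _ _)]
  · intro x hx
    have e1 := ex_xtw_fr T (2 * Real.cos θ) (D.image (· + E6.dir r)) η1 (q 0 + E6.dir r)
      (wn θ β (fun i => q i + E6.dir r) (D.image (· + E6.dir r)) k₀ (imC θ β τ q k₀ (E6.dir r) f))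
      (wn' θ β (fun i => q i + E6.dir r) (D.image (· + E6.dir r)) k₀ (imC θ β τ q k₀ (E6.dir r) f))
    have e2 : ∀ z ∈ sites D, _ := fun z hz =>
      im_XTW hodd hq hD hτ hs hc hβ hk hη0 hη1 f hz
    rw [ex_xtw_scl he1, ex_xtw_scl he1, e1, e1, hT, fj_S_succ, fj_S_succ, ← hT,
      e2 _ (hsit x hx m (by omega) hm), e2 _ (hsit x hx 0 le_rfl (by omega)), flx_fj,
      hdob (loc_xtw _ _ _ _ _), hdob (loc_xtw _ _ _ _ _), ← hL, ← hT]
    field_simp
    ring
  · rw [ex_xw_scl he1, ex_xw_fr, ex_xw_fr, im_XW hodd hq hD hτ hs hc hβ hk hη0 hη1 f, ← hL]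
    field_simp
  · intro x hx
    have hfe0 : (hdv (fe x) ∈ T.pre D ∧ tlv (fe x) ∉ T.pre D) ∨
        (hdv (fe x) ∉ T.pre D ∧ tlv (fe x) ∈ T.pre D) :=
      fe_bd ((hdom x hx 0 (by omega) (by omega)).2 le_rfl)
        (fun h => by
          have := (hdom x hx (-1) le_rfl (by omega)).1 h
          omega)
    have hfe1 : fe (x + 1) ∈ eds (T.pre (D.image (· + E6.dir r))) := by
      rw [mem_Icc] at hx
      have hE := (E1 (x + 1) (mem_Icc.2 (by omega))).1
      have k1 : (x + 1, (0 : ℤ)) ∈ T.pre (D.image (· + E6.dir r)) :=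
        (hE.fl.dom (x + 1, 0) (by simp [nm]; omega)).2 le_rfl
      have k2 : (x + 1, (-1 : ℤ)) ∉ T.pre (D.image (· + E6.dir r)) := fun h => by
        have := (hE.fl.dom (x + 1, -1) (by simp [nm]; omega)).1 h
        dsimp only at this
        omega
      rcases fe_bd k1 k2 with h | h
      · exact mem_eds.2 (Or.inl h.1)
      · exact mem_eds.2 (Or.inr h.2)
    have hfe : fe x ∈ eds (T.pre D) := by
      rcases hfe0 with h | h
      · exact mem_eds.2 (Or.inl h.1)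
      · exact mem_eds.2 (Or.inr h.2)
    have hE1 := (E1 (x + 1) (by rw [mem_Icc] at hx ⊢; omega)).1
    rw [ex_sw_scl he1 hfe1, ex_sw_fr T _ _ _ _ _ _ hfe1 hE1.pot fun e he => envQ_jt hE1 he,
      ex_sw_fr T _ _ _ _ _ _ hfe (E0 x hx).pot fun e he => envQ_jt (E0 x hx) he]
    have hn0 : NeZero N := ⟨by have := hq.1; omega⟩
    obtain ⟨i, hi⟩ : ∃ i : ZMod N, T.E (fe x) = be q i := by
      refine exists_be hq hD ?_ ?_
      · have h3 := (T.mem_edsT (D := T.pre D)).2 hfe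
        rwa [T.im_pre] at h3
      · rw [T.hd, T.tl, ← T.mem_pre, ← T.mem_pre]
        split_ifs <;> tauto
    have h3 := im_SE hodd hq hD hτ hs hc hβ hk hη0 hη1 f (ZMod.val_lt i)
    rw [ZMod.natCast_zmod_val, ← hi, ← hL] at h3
    rw [show T.E (fe (x + 1)) = H135.shE (E6.dir r) (T.E (fe x)) from E_succ n w r j x, h3]
    field_simp

end Vale.Agent.P167.H760.Q
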