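import Vale.Agent.P167.H718.Par6
import Vale.Agent.P167.CAQ.J6

/-!
# P167, general `q`, block Q-TWO: the normalised weights of the strands

The weight of a strand depends on its mass, on the kinds (free or wired) of its two sides and on their
order. Strands of mass `0` with both sides of one kind have universal weights.
-/

namespace Vale.Agent.P167.H760.Q

open Finset Vale.Agent.P167.BR
open Vale.Agent.P167.E6 (IsPolygon Encloses)
open Vale.Agent.P167.H718 (IsXY wn wn' Wt Wt' wQ' nat_ne)
open Vale.Agent.P167.QX (wQ stag lo hi lo_xy hi_xy)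

variable {n k : ℕ} {q : ZMod n → ℤ × ℤ} {D : Finset (ℤ × ℤ)} {θ β : ℝ} {f : ℤ × ℤ → ℝ}
  {ω ω' : Cfg} {A B : Finset Ed} {x y x' y' : ℕ}

/-- The three universal constants: loops, strands with the base point on the right, on the left. -/
noncomputable def tq (θ : ℝ) : Fin 3 → ℝ :=
  ![Real.tan θ, Real.tan (2 * θ - Real.pi / 2), Real.tan (Real.pi / 2 - θ)]

/-- The phase of a strand from the side `x` to the side `y`. -/
theorem ph_eq (hq : IsPolygon q) (hD : Encloses q D) (hA : A ∈ pcs ω D) (h : IsXY q A x y) :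
    θ / 2 + stag θ β q k (hi q A) - stag θ β q k (lo q A) =
      if y < x then θ / 2 + (if x < k then (3 * θ - Real.pi) / 4 else β - (3 * θ - Real.pi) / 4) -
          (if y < k then -((3 * θ - Real.pi) / 4) else β + (3 * θ - Real.pi) / 4)
      else θ / 2 + (if y < k then -((3 * θ - Real.pi) / 4) else β + (3 * θ - Real.pi) / 4) -
          (if x < k then (3 * θ - Real.pi) / 4 else β - (3 * θ - Real.pi) / 4) := by
  have e1 : stag θ β q k x =
      if x < k then (3 * θ - Real.pi) / 4 else β - (3 * θ - Real.pi) / 4 := by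
    unfold stag
    rw [if_pos h.2.2.2.2.1, if_pos h.2.2.2.2.1]
    split_ifs <;> ring
  have e2 : stag θ β q k y =
      if y < k then -((3 * θ - Real.pi) / 4) else β + (3 * θ - Real.pi) / 4 := by
    unfold stag
    rw [if_neg h.2.2.2.2.2, if_neg h.2.2.2.2.2]
  rw [hi_xy hq hD hA h, lo_xy hq hD hA h, ← e1, ← e2]
  split_ifs with h1
  · rw [max_eq_left h1.le, min_eq_right h1.le]
  · have := h.ne
    rw [max_eq_right (by omega), min_eq_left (by omega)]

section

variable (hq : IsPolygon q) (hD : Encloses q D)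
include hq hD

/-- Two strands with the same mass, kinds and order of the sides. -/
theorem wn_congr (hA : A ∈ pcs ω D) (hB : B ∈ pcs ω' D) (hlA : ¬ IsLp D A) (hlB : ¬ IsLp D B)
    (h : IsXY q A x y) (h' : IsXY q B x' y') (hm : mass D (q 0) f A = mass D (q 0) f B)
    (ho : y < x ↔ y' < x') (hx : x < k ↔ x' < k) (hy : y < k ↔ y' < k) :
    wn θ β q D k f A = wn θ β q D k f B ∧ wn' θ β q D k f A = wn' θ β q D k f B := by
  have e : θ / 2 + stag θ β q k (hi q A) - stag θ β q k (lo q A) =
      θ / 2 + stag θ β q k (hi q B) - stag θ β q k (lo q B) := by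
    rw [ph_eq hq hD hA h, ph_eq hq hD hB h']
    simp only [ho, hx, hy]
  unfold wn wn' Wt Wt' wQ wQ'
  rw [if_neg hlA, if_neg hlB, if_neg hlA, if_neg hlB, if_neg hlA, if_neg hlB, e, hm]
  exact ⟨rfl, rfl⟩

/-- Strands of mass `0` with two sides of one kind. -/
theorem wn'_strand (hA : A ∈ pcs ω D) (hl : ¬ IsLp D A) (h : IsXY q A x y)
    (hm : mass D (q 0) f A = 0) {b : Bool} (hx : if b then x < k else k ≤ x)
    (hy : if b then y < k else k ≤ y) :
    wn' θ β q D k f A = if (b = true ↔ y < x) then tq θ 1 else tq θ 2 := by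
  have e := ph_eq (k := k) (θ := θ) (β := β) hq hD hA h
  have e2 : wn' θ β q D k f A =
      Real.tan (θ / 2 + stag θ β q k (hi q A) - stag θ β q k (lo q A)) := by
    unfold wn' Wt' wQ' wQ
    rw [if_neg hl, if_neg hl, hm, add_zero, Real.tan_eq_sin_div_cos]
    rw [mul_div_mul_left _ _ two_ne_zero]
  rw [e2, e]
  unfold tq
  cases b
  · simp only [Bool.false_eq_true, if_false] at hx hy
    simp only [if_neg (not_lt.2 hx), if_neg (not_lt.2 hy)]
    by_cases h1 : y < x
    · rw [if_pos h1, if_neg (by simp [h1])]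
      show Real.tan _ = Real.tan _
      congr 1
      ring
    · rw [if_neg h1, if_pos (by simp [h1])]
      show Real.tan _ = Real.tan _
      congr 1
      ring
  · simp only [if_true] at hx hy
    simp only [if_pos hx, if_pos hy]
    by_cases h1 : y < x
    · rw [if_pos h1, if_pos (by simp [h1])]
      show Real.tan _ = Real.tan _
      congr 1
      ring
    · rw [if_neg h1, if_neg (by simp [h1])]
      show Real.tan _ = Real.tan _
      congr 1
      ring

/-- Loops of mass `0`. -/
theorem wn'_loop (hl : IsLp D A) (hm : mass D (q 0) f A = 0) :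
    wn' θ β q D k f A = tq θ 0 := by
  unfold wn' Wt' wQ' wQ
  rw [if_pos hl, if_pos hl, hm, add_zero, mul_div_mul_left _ _ two_ne_zero,
    ← Real.tan_eq_sin_div_cos]
  rfl

/-- Pieces of mass `0`. -/
theorem wn_one (hs : Real.sin θ ≠ 0) (hc : 0 < Real.cos θ)
    (hβ : Real.cos (θ / 2 + β) = Real.sin θ) (hA : A ∈ pcs ω D) (hm : mass D (q 0) f A = 0) :
    wn θ β q D k f A = 1 := by
  unfold wn Wt
  rw [hm]
  exact div_self (nat_ne hq hD hs hc hβ hA)

end

end Vale.Agent.P167.H760.Q
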